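import Vale.Agent.P361.Def2

/-!
P361: basic facts about the shifted Hamiltonian and more Gibbs-state inequalities.
-/

open scoped Matrix Topology
open Matrix Filter

namespace Vale.Agent.P361

section gibbs

variable {m : Type} [Fintype m] [DecidableEq m]

/-- One-sided energy–entropy inequality. -/
lemma ee_one {K : Matrix m m ℂ} (hK : K.IsHermitian) (A : Matrix m m ℂ) (s : ℝ) :
    (s + 1) * gib K (Aᴴ * A) - Real.exp s * gib K (A * Aᴴ) ≤ gib K (Aᴴ * (K * A - A * K)) := by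
  obtain ⟨U, E, h1, h2, h3, h4⟩ := exists_spec hK
  set p : m → ℝ := fun i => Real.exp (-E i) with hp
  set t : m → m → ℝ := fun i j => Complex.normSq ((Uᴴ * A * U) i j) with ht
  have ht0 : ∀ i j, 0 ≤ t i j := fun i j => Complex.normSq_nonneg _
  have e1 : gib K (Aᴴ * A) = ∑ i, ∑ j, 1 * p j * t i j := by
    have := trace_dec_mul U U A (fun _ => 1) p
    rw [dec_one h1, Matrix.one_mul, Matrix.mul_assoc, Matrix.trace_mul_comm,
      Matrix.mul_assoc] at this
    rw [gib, h4, this]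
  have e2 : gib K (A * Aᴴ) = ∑ i, ∑ j, p i * 1 * t i j := by
    have := trace_dec_mul U U A p (fun _ => 1)
    rw [dec_one h1, Matrix.mul_one, Matrix.mul_assoc] at this
    rw [gib, h4, this]
  have e3 : gib K (Aᴴ * (K * A)) = ∑ i, ∑ j, E i * p j * t i j := by
    have := trace_dec_mul U U A E p
    rw [← h3, Matrix.mul_assoc, Matrix.trace_mul_comm, Matrix.mul_assoc] at this
    rw [gib, h4, this]
  have e4 : gib K (Aᴴ * (A * K)) = ∑ i, ∑ j, 1 * (E j * p j) * t i j := by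
    have := trace_dec_mul U U A (fun _ => 1) (fun j => E j * p j)
    rw [dec_one h1, Matrix.one_mul, ← dec_mul h2, ← h3, ← Matrix.mul_assoc, Matrix.mul_assoc,
      Matrix.trace_mul_comm, Matrix.mul_assoc] at this
    rw [gib, h4, this]
  rw [Matrix.mul_sub, gib_sub, e1, e2, e3, e4]
  simp only [Finset.mul_sum, ← Finset.sum_sub_distrib]
  refine Finset.sum_le_sum fun i _ => Finset.sum_le_sum fun j _ => ?_
  have a1 : p j * (1 + (s - E i + E j)) ≤ Real.exp s * p i := by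
    have h6 := Real.add_one_le_exp (s - E i + E j)
    have h7 : Real.exp s * p i = p j * Real.exp (s - E i + E j) := by
      simp only [hp]
      rw [← Real.exp_add, ← Real.exp_add]
      congr 1
      ring
    rw [h7]
    exact mul_le_mul_of_nonneg_left (by linarith) (Real.exp_pos _).le
  have b1 := mul_le_mul_of_nonneg_right a1 (ht0 i j)
  nlinarith

lemma gib_star {K : Matrix m m ℂ} (hK : K.IsHermitian) (X : Matrix m m ℂ) :
    gib K Xᴴ = gib K X := by
  have h1 : (NormedSpace.exp (-K))ᴴ = NormedSpace.exp (-K) := hK.neg.exp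
  have h2 : Matrix.trace (NormedSpace.exp (-K) * Xᴴ) =
      star (Matrix.trace (NormedSpace.exp (-K) * X)) := by
    rw [← Matrix.trace_conjTranspose, conjTranspose_mul, h1, Matrix.trace_mul_comm]
  rw [gib, gib, h2]
  simp

/-- Arithmetic–geometric mean form of the Cauchy–Schwarz inequality. -/
lemma gib_am {K : Matrix m m ℂ} (hK : K.IsHermitian) (X Y : Matrix m m ℂ) (c : ℝ) {t : ℝ}
    (ht : 0 < t) : 2 * (c * gib K (Xᴴ * Y)) ≤ t * gib K (Xᴴ * X) + c ^ 2 / t * gib K (Yᴴ * Y) := by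
  have h1 := gib_nonneg' hK ((t : ℂ) • X - (c : ℂ) • Y)
  have h2 : ((t : ℂ) • X - (c : ℂ) • Y)ᴴ * ((t : ℂ) • X - (c : ℂ) • Y) =
      ((t * t : ℝ) : ℂ) • (Xᴴ * X) - ((t * c : ℝ) : ℂ) • (Xᴴ * Y) - ((t * c : ℝ) : ℂ) • (Xᴴ * Y)ᴴ +
        ((c * c : ℝ) : ℂ) • (Yᴴ * Y) := by
    simp only [conjTranspose_sub, conjTranspose_smul, conjTranspose_mul,
      conjTranspose_conjTranspose, Matrix.sub_mul, Matrix.mul_sub, Matrix.smul_mul, Matrix.mul_smul,
      Complex.star_def, Complex.conj_ofReal]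
    push_cast
    module
  rw [h2, gib_add, gib_sub, gib_sub, gib_smul, gib_smul, gib_smul, gib_smul, gib_star hK] at h1
  refine le_of_mul_le_mul_left ?_ ht
  have h3 : t * (t * gib K (Xᴴ * X) + c ^ 2 / t * gib K (Yᴴ * Y)) =
      t * t * gib K (Xᴴ * X) + c * c * gib K (Yᴴ * Y) := by
    field_simp
  rw [h3]
  linarith

lemma gib_exp_diag {K : Matrix m m ℂ} (d : m → ℝ)
    (hc : Commute K (diagonal fun i => (d i : ℂ))) :
    gib K (diagonal fun i => ((Real.exp (d i) : ℝ) : ℂ)) =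
      gib (K - diagonal fun i => (d i : ℂ)) 1 := by
  rw [gib, gib, Matrix.mul_one, neg_sub, sub_eq_neg_add, Matrix.exp_add_of_commute _ _ hc.neg_left,
    Matrix.exp_diagonal]
  congr 4
  funext i
  rw [Pi.coe_exp, ← Complex.exp_eq_exp_ℂ, Complex.ofReal_exp]

lemma log_gib_shift [Nonempty m] {K : Matrix m m ℂ} (hK : K.IsHermitian) (c : ℝ) :
    Real.log (gib (K + (c : ℂ) • (1 : Matrix m m ℂ)) 1) = Real.log (gib K 1) - c := by
  have hW : ((c : ℂ) • (1 : Matrix m m ℂ)).IsHermitian := herm_real_smul isHermitian_one c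
  have h1 := peierls_bogoliubov hK hW
  have h2 := peierls_bogoliubov (hK.add hW) hW.neg
  rw [add_neg_cancel_right, gib_neg, gib_smul, neg_div,
    mul_div_cancel_right₀ _ (gib_one_pos (hK.add hW)).ne'] at h2
  rw [gib_smul, mul_div_cancel_right₀ _ (gib_one_pos hK).ne'] at h1
  linarith

lemma one_le_gib {K : Matrix m m ℂ} (hK : K.IsHermitian) (i : m) (hi : (K i i).re ≤ 0) :
    1 ≤ gib K 1 := by
  obtain ⟨U, E, h1, h2, h3, h4⟩ := exists_spec hK
  rw [gib_one_eq h1 h2 h4]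
  have key : ∀ a : m → ℝ, (dec U a i i).re = ∑ j, a j * Complex.normSq (U i j) := by
    intro a
    simp only [dec, Matrix.mul_apply, conjTranspose_apply, diagonal_apply, mul_ite, mul_zero,
      Finset.sum_ite_eq', Finset.mem_univ, if_true, Complex.re_sum]
    refine Finset.sum_congr rfl fun j _ => ?_
    have : U i j * (a j : ℂ) * star (U i j) = ((a j * Complex.normSq (U i j) : ℝ) : ℂ) := by
      push_cast
      rw [← Complex.mul_conj]
      simp only [Complex.star_def]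
      ring
    rw [this, Complex.ofReal_re]
  have k1 := key fun _ => 1
  rw [dec_one h1, Matrix.one_apply_eq, Complex.one_re] at k1
  have k2 := key E
  rw [← h3] at k2
  have hw : ∀ j, 0 ≤ Complex.normSq (U i j) := fun j => Complex.normSq_nonneg _
  have hw1 : ∀ j, Complex.normSq (U i j) ≤ 1 := fun j => by
    rw [k1]
    simpa using Finset.single_le_sum (f := fun j => Complex.normSq (U i j)) (fun j _ => hw j)
      (Finset.mem_univ j)
  have k3 : ∑ j, (1 * Complex.normSq (U i j) - E j * Complex.normSq (U i j)) ≤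
      ∑ j, Real.exp (-E j) := by
    refine Finset.sum_le_sum fun j _ => ?_
    have a1 := Real.add_one_le_exp (-E j)
    have a2 := Real.exp_pos (-E j)
    nlinarith [hw j, hw1 j]
  rw [Finset.sum_sub_distrib, ← k1, ← k2] at k3
  linarith

lemma gib_diag_mono {K : Matrix m m ℂ} (hK : K.IsHermitian) (d e : m → ℝ) (h : ∀ i, d i ≤ e i) :
    gib K (diagonal fun i => (d i : ℂ)) ≤ gib K (diagonal fun i => (e i : ℂ)) := by
  have h1 := gib_diag_nonneg hK (fun i => e i - d i) fun i => sub_nonneg.2 (h i)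
  have h2 : (diagonal fun i => ((e i - d i : ℝ) : ℂ)) =
      (diagonal fun i => (e i : ℂ)) - diagonal fun i => (d i : ℂ) := by
    rw [diagonal_sub]
    push_cast
    rfl
  rw [h2, gib_sub] at h1
  linarith

lemma gib_diagonal_one (d : m → ℝ) :
    gib (diagonal fun i => (d i : ℂ)) 1 = ∑ i, Real.exp (-d i) := by
  have := gib_dec_one (U := (1 : Matrix m m ℂ)) (by simp) (by simp) d
  simpa [dec] using this

end gibbs

section ops

variable {ι : Type} [Fintype ι] [DecidableEq ι] {n : ℕ}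

lemma eta_eq (x : ι) :
    eta n x = diagonal fun σ : ι → Fin (n + 1) => ((((σ x : ℕ) : ℝ) : ℝ) : ℂ) := by
  rw [eta, numOp, siteOp_diagonal]
  push_cast
  rfl

lemma numT_eq : numT n ι =
    diagonal fun σ : ι → Fin (n + 1) => (((∑ x, ((σ x : ℕ) : ℝ)) : ℝ) : ℂ) := by
  ext σ τ
  simp only [numT, eta_eq, Matrix.sum_apply, diagonal_apply]
  split_ifs <;> simp

lemma siteOp_sz_eta (x : ι) :
    siteOp x (spin n 2) = (((n : ℝ) / 2 : ℝ) : ℂ) • (1 : Matrix _ _ ℂ) - eta n x := by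
  rw [spin_two_eq, siteOp_sub, siteOp_smul, siteOp_one, eta]
  push_cast
  rfl

lemma eta_herm (x : ι) : (eta n x).IsHermitian := by
  rw [eta_eq]
  exact isHermitian_diagonal_of_self_adjoint _ (funext fun σ => by simp)

lemma numT_herm : (numT n ι).IsHermitian := by
  rw [numT_eq]
  exact isHermitian_diagonal_of_self_adjoint _ (funext fun σ => by simp)

lemma hop_herm {x y : ι} (h : x ≠ y) : (hop n x y).IsHermitian :=
  (herm_real_smul isHermitian_one _).sub (sdot_herm h)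

lemma sdot_symm {x y : ι} (h : x ≠ y) : sdot n y x = sdot n x y :=
  Finset.sum_congr rfl fun _ _ => siteOp_comm h _ _

lemma hop_symm {x y : ι} (h : x ≠ y) : hop n y x = hop n x y := by
  rw [hop, hop, sdot_symm h]

/-- The singlet annihilator `D_{xy}`. -/
noncomputable def dop (n : ℕ) (x y : ι) : Matrix (ι → Fin (n + 1)) (ι → Fin (n + 1)) ℂ :=
  siteOp x (annOp n) * siteOp y (holOp n) - siteOp x (holOp n) * siteOp y (annOp n)

lemma dop_sq {x y : ι} (h : x ≠ y) : (dop n x y)ᴴ * dop n x y = ((2 : ℝ) : ℂ) • hop n x y := by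
  have h2 : (annOp n)ᴴ * holOp n = (splus n)ᴴ := by
    rw [← hol_mul_ann, conjTranspose_mul, holOp_herm]
  rw [dop, hop, sdot_eq, spin_two_eq]
  simp only [conjTranspose_sub, conjTranspose_mul, siteOp_conjTranspose, holOp_herm,
    siteOp_comm h, Matrix.sub_mul, Matrix.mul_sub, two_mul_two h, ann_star_mul, hol_mul_hol,
    hol_mul_ann, h2, siteOp_sub, siteOp_smul, siteOp_one, Matrix.smul_mul, Matrix.mul_smul,
    Matrix.mul_one, Matrix.one_mul]
  push_cast
  module

lemma gib_hop_nonneg {K : Matrix (ι → Fin (n + 1)) (ι → Fin (n + 1)) ℂ} (hK : K.IsHermitian)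
    {x y : ι} (h : x ≠ y) : 0 ≤ gib K (hop n x y) := by
  have := gib_sdot_le hK h
  rw [hop, gib_sub, gib_smul]
  linarith

lemma gib_numT_nonneg {K : Matrix (ι → Fin (n + 1)) (ι → Fin (n + 1)) ℂ} (hK : K.IsHermitian) :
    0 ≤ gib K (numT n ι) := by
  rw [numT_eq]
  exact gib_diag_nonneg hK _ fun σ => by positivity

lemma gib_numT_le {K : Matrix (ι → Fin (n + 1)) (ι → Fin (n + 1)) ℂ} (hK : K.IsHermitian) :
    gib K (numT n ι) ≤ n * Fintype.card ι * gib K 1 := by
  rw [numT_eq]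
  refine gib_diag_le hK _ _ fun σ => ?_
  refine (Finset.sum_le_sum fun x _ => fin_le (σ x)).trans (le_of_eq ?_)
  rw [Finset.sum_const, Finset.card_univ, nsmul_eq_mul, mul_comm]

variable {adj : ι → ι → Prop} [DecidableRel adj]

lemma gib_htil (K : Matrix (ι → Fin (n + 1)) (ι → Fin (n + 1)) ℂ) :
    (∑ x, ∑ y, if adj x y then gib K (hop n x y) else 0) = 2 * gib K (htil n adj) := by
  rw [htil, gib_smul, gib_sum, ← mul_assoc]
  norm_num
  refine Finset.sum_congr rfl fun x _ => ?_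
  rw [gib_sum]
  refine Finset.sum_congr rfl fun y _ => ?_
  split_ifs
  · rfl
  · rw [gib_zero]

lemma gib_htil_nonneg (hadj : ∀ x y, adj x y → x ≠ y)
    {K : Matrix (ι → Fin (n + 1)) (ι → Fin (n + 1)) ℂ} (hK : K.IsHermitian) :
    0 ≤ gib K (htil n adj) := by
  have h1 := gib_htil (n := n) (adj := adj) K
  have h2 : 0 ≤ ∑ x, ∑ y, if adj x y then gib K (hop n x y) else 0 :=
    Finset.sum_nonneg fun x _ => Finset.sum_nonneg fun y _ => by
      split_ifs with h
      · exact gib_hop_nonneg hK (hadj x y h)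
      · exact le_rfl
  linarith

lemma htil_eq : htil n adj = hamG n adj +
    ((((n : ℝ) / 2) ^ 2 / 2 * (∑ x, ∑ y, if adj x y then (1 : ℝ) else 0) : ℝ) : ℂ) •
      (1 : Matrix _ _ ℂ) := by
  have h1 : ∀ x y, (if adj x y then hop n x y else 0) =
      ((((n : ℝ) / 2) ^ 2 * (if adj x y then (1 : ℝ) else 0) : ℝ) : ℂ) • (1 : Matrix _ _ ℂ) -
        if adj x y then sdot n x y else 0 := by
    intro x y
    split_ifs <;> simp [hop]
  simp only [htil, hamG, h1, Finset.sum_sub_distrib, ← Finset.sum_smul]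
  push_cast
  simp only [← Finset.mul_sum]
  module

lemma numT_eq_mag : numT n ι =
    (((n : ℝ) / 2 * Fintype.card ι : ℝ) : ℂ) • (1 : Matrix _ _ ℂ) - magG n ι := by
  simp only [numT, magG, siteOp_sz_eta, Finset.sum_sub_distrib, Finset.sum_const, Finset.card_univ]
  rw [← Nat.cast_smul_eq_nsmul ℂ]
  push_cast
  module

lemma htil_herm (hadj : ∀ x y, adj x y → x ≠ y) : (htil n adj).IsHermitian := by
  rw [htil_eq]
  exact (hamG_herm hadj).add (herm_real_smul isHermitian_one _)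

lemma ktil_herm (hadj : ∀ x y, adj x y → x ≠ y) (β δ : ℝ) : (ktil n adj β δ).IsHermitian :=
  (herm_real_smul (htil_herm hadj) β).add (herm_real_smul numT_herm δ)

lemma ktil_eq_gen (β h : ℝ) : ktil n adj β (β * h) = gen n adj β h +
    ((β * ((n : ℝ) / 2) ^ 2 / 2 * (∑ x, ∑ y, if adj x y then (1 : ℝ) else 0) +
      β * h * ((n : ℝ) / 2 * Fintype.card ι) : ℝ) : ℂ) • (1 : Matrix _ _ ℂ) := by
  rw [ktil, gen, htil_eq, numT_eq_mag]
  push_cast
  module

end ops

variable {n : ℕ}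

lemma nbr_symm {Λ : Finset (Fin 3 → ℤ)} (x y : Λ) (h : nbr Λ x y) : nbr Λ y x := by
  unfold nbr at h ⊢
  simpa only [abs_sub_comm] using h

lemma nbr_deg (Λ : Finset (Fin 3 → ℤ)) (x : Λ) :
    (∑ y : Λ, if nbr Λ x y then (1 : ℝ) else 0) ≤ 6 := by
  refine (sum_nbr_le Λ x (fun _ => 1) (fun _ => zero_le_one)).trans (le_of_eq ?_)
  simp
  norm_num

lemma lzt_eq (Λ : Finset (Fin 3 → ℤ)) (β h : ℝ) :
    lzt n Λ β (β * h) = shiftLog n β h Λ - β * h * ((n : ℝ) / 2 * Λ.card) := by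
  rw [lzt, ktil_eq_gen, log_gib_shift (gen_herm nbr_ne β h), shiftLog, partFn_eq, pairs,
    Fintype.card_coe]
  ring

lemma lzt_tangent (Λ : Finset (Fin 3 → ℤ)) (β δ β' δ' : ℝ) :
    lzt n Λ β δ - ((β' - β) * av (ktil n (nbr Λ) β δ) (htil n (nbr Λ)) +
      (δ' - δ) * av (ktil n (nbr Λ) β δ) (numT n Λ)) ≤ lzt n Λ β' δ' := by
  have h1 := peierls_bogoliubov (ktil_herm (n := n) (nbr_ne (Λ := Λ)) β δ)
    (ktil_herm (n := n) (nbr_ne (Λ := Λ)) (β' - β) (δ' - δ))
  have h2 : ktil n (nbr Λ) β δ + ktil n (nbr Λ) (β' - β) (δ' - δ) = ktil n (nbr Λ) β' δ' := by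
    simp only [ktil]
    push_cast
    module
  rw [h2, show gib (ktil n (nbr Λ) β δ) (ktil n (nbr Λ) (β' - β) (δ' - δ)) =
    (β' - β) * gib (ktil n (nbr Λ) β δ) (htil n (nbr Λ)) +
      (δ' - δ) * gib (ktil n (nbr Λ) β δ) (numT n Λ) by
        conv_lhs => arg 2; rw [ktil]
        rw [gib_add, gib_smul, gib_smul], add_div, mul_div_assoc, mul_div_assoc] at h1
  exact h1

lemma av_htil_nonneg (Λ : Finset (Fin 3 → ℤ)) (β δ : ℝ) :
    0 ≤ av (ktil n (nbr Λ) β δ) (htil n (nbr Λ)) :=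
  div_nonneg (gib_htil_nonneg nbr_ne (ktil_herm nbr_ne β δ)) (gib_one_pos (ktil_herm nbr_ne β δ)).le

lemma av_numT_nonneg (Λ : Finset (Fin 3 → ℤ)) (β δ : ℝ) :
    0 ≤ av (ktil n (nbr Λ) β δ) (numT n Λ) :=
  div_nonneg (gib_numT_nonneg (ktil_herm nbr_ne β δ)) (gib_one_pos (ktil_herm nbr_ne β δ)).le

lemma av_numT_le (Λ : Finset (Fin 3 → ℤ)) (β δ : ℝ) :
    av (ktil n (nbr Λ) β δ) (numT n Λ) ≤ n * Λ.card := by
  rw [av, div_le_iff₀ (gib_one_pos (ktil_herm nbr_ne β δ)), ← Fintype.card_coe]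
  exact gib_numT_le (ktil_herm nbr_ne β δ)

lemma lzt_anti (Λ : Finset (Fin 3 → ℤ)) {β δ β' δ' : ℝ} (hβ : β' ≤ β) (hδ : δ' ≤ δ) :
    lzt n Λ β δ ≤ lzt n Λ β' δ' := by
  have h1 := lzt_tangent (n := n) Λ β δ β' δ'
  have h2 := mul_nonneg (sub_nonneg.2 hβ) (av_htil_nonneg (n := n) Λ β δ)
  have h3 := mul_nonneg (sub_nonneg.2 hδ) (av_numT_nonneg (n := n) Λ β δ)
  nlinarith

end Vale.Agent.P361
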