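import Mathlib

open scoped Matrix Topology
open Matrix Filter

namespace Vale.Agent.P361

theorem asy_pow {x : ℝ} (hx : 0 ≤ x) : x ^ (3 / 2 : ℝ) = Real.sqrt x ^ 3 := by
  rw [Real.sqrt_eq_rpow, ← Real.rpow_natCast, ← Real.rpow_mul hx]
  norm_num

theorem asy_zeta :
    HasSum (fun j : ℕ => 1 / ((j : ℝ) + 1) ^ (3 / 2 : ℝ)) (riemannZeta (3 / 2)).re := by
  have h1 : Summable fun j : ℕ => 1 / ((j : ℝ) + 1) ^ (3 / 2 : ℝ) := by
    simpa only [Nat.cast_add, Nat.cast_one] using (summable_nat_add_iff 1).2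
      (Real.summable_one_div_nat_rpow.2 (show (1 : ℝ) < 3 / 2 by norm_num))
  have h2 : riemannZeta (3 / 2) = ((∑' j : ℕ, 1 / ((j : ℝ) + 1) ^ (3 / 2 : ℝ) : ℝ) : ℂ) := by
    rw [zeta_eq_tsum_one_div_nat_add_one_cpow (by norm_num), Complex.ofReal_tsum]
    refine tsum_congr fun j => ?_
    rw [Complex.ofReal_div, Complex.ofReal_cpow (by positivity)]
    push_cast
    rfl
  rw [h2, Complex.ofReal_re]
  exact h1.hasSum

theorem asy_term {t u S k : ℝ} (ht : 0 < t) (hu : 0 < u) (hS : 0 < S) (hk : 0 < k) :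
    max 0 (Real.sqrt u / (2 * Real.sqrt (Real.pi * k) * S) - u * t⁻¹ / (Real.pi ^ 2 * k * S ^ 2)) =
      t * max 0 (1 / (2 * Real.sqrt (Real.pi * (k * t ^ 2 * S ^ 2 / u))) -
        1 / (Real.pi ^ 2 * (k * t ^ 2 * S ^ 2 / u))) := by
  have hp := Real.pi_pos
  have h1 := Real.sqrt_pos.2 hu
  have h2 := Real.sqrt_pos.2 (mul_pos hp hk)
  have e : Real.sqrt (Real.pi * (k * t ^ 2 * S ^ 2 / u)) =
      Real.sqrt (Real.pi * k) * t * S / Real.sqrt u := by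
    rw [← Real.sqrt_sq (show 0 ≤ Real.sqrt (Real.pi * k) * t * S / Real.sqrt u by positivity),
      div_pow, mul_pow, mul_pow, Real.sq_sqrt hu.le, Real.sq_sqrt (mul_pos hp hk).le]
    congr 1
    ring
  rw [mul_max_of_nonneg _ _ ht.le, mul_zero, e]
  congr 1
  field_simp

theorem asy_lim {S k : ℝ} (hS : 0 < S) (hk : 0 < k) :
    max 0 (Real.sqrt S / (2 * Real.sqrt (Real.pi * k) * S) - S * 0 / (Real.pi ^ 2 * k * S ^ 2)) ^ 3 =
      1 / k ^ (3 / 2 : ℝ) / (8 * Real.pi ^ (3 / 2 : ℝ) * S ^ (3 / 2 : ℝ)) := by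
  have hp := Real.pi_pos
  have h1 := Real.sqrt_pos.2 hS
  have h2 := Real.sqrt_pos.2 hp
  have h3 := Real.sqrt_pos.2 hk
  have h4 := Real.sq_sqrt hS.le
  rw [mul_zero, zero_div, sub_zero, max_eq_right (by positivity), asy_pow hS.le, asy_pow hp.le,
    asy_pow hk.le, Real.sqrt_mul hp.le]
  generalize Real.sqrt S = s at h1 h4 ⊢
  rw [← h4]
  field_simp
  norm_num

theorem bloch_of_selfcons {S : ℝ} (hS : 0 < S) (m : ℝ → ℝ)
    (H : ∀ β : ℝ, 0 < β → ∀ (J : ℕ) (u : ℝ), 0 < u → u < m β →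
      u * ∑ j ∈ Finset.range J,
        (max 0 (1 / (2 * Real.sqrt (Real.pi * (((j : ℝ) + 1) * β * S ^ 2 / u))) -
          1 / (Real.pi ^ 2 * (((j : ℝ) + 1) * β * S ^ 2 / u)))) ^ 3 ≤ S * (S - u))
    (c : ℝ) (hc : c < (riemannZeta (3 / 2)).re / (8 * Real.pi ^ (3 / 2 : ℝ) * S ^ (3 / 2 : ℝ))) :
    ∀ᶠ β : ℝ in atTop, c ≤ β ^ (3 / 2 : ℝ) * (S - m β) := by
  obtain ⟨J, hJ⟩ := (((asy_zeta.div_const _).tendsto_sum_nat).eventually (lt_mem_nhds hc)).exists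
  have hG : Continuous fun p : ℝ × ℝ => p.1 * ∑ j ∈ Finset.range J,
      max 0 (Real.sqrt p.1 / (2 * Real.sqrt (Real.pi * ((j : ℝ) + 1)) * S) -
        p.1 * p.2 / (Real.pi ^ 2 * ((j : ℝ) + 1) * S ^ 2)) ^ 3 := by fun_prop
  have h1 : Tendsto (fun β : ℝ => (Real.sqrt β)⁻¹) atTop (𝓝 0) :=
    tendsto_inv_atTop_zero.comp Real.tendsto_sqrt_atTop
  have h2 : Tendsto (fun β : ℝ => S - c * (Real.sqrt β)⁻¹ ^ 3) atTop (𝓝 S) := by
    simpa using ((h1.pow 3).const_mul c).const_sub S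
  have h3 := (hG.tendsto (S, 0)).comp (h2.prodMk_nhds h1)
  dsimp only at h3
  rw [Finset.sum_congr rfl fun (j : ℕ) _ => asy_lim hS (show 0 < (j : ℝ) + 1 by positivity)] at h3
  filter_upwards [h3.eventually (lt_mem_nhds (mul_lt_mul_of_pos_left hJ hS)),
    h2.eventually (lt_mem_nhds hS), eventually_gt_atTop 0] with β h4 h5 h6
  have ht := Real.sqrt_pos.2 h6
  have e := Real.sq_sqrt h6.le
  rw [asy_pow h6.le]
  simp only [Function.comp_apply] at h4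
  generalize Real.sqrt β = t at h4 h5 ht e ⊢
  by_contra h7
  have h8 : 0 < t ^ 3 := by positivity
  have h9 := H β h6 J _ h5 (by
    rw [not_le, ← lt_div_iff₀' h8] at h7
    rw [inv_pow, ← div_eq_mul_inv]
    linarith)
  rw [Finset.sum_congr rfl fun (j : ℕ) _ => by
    rw [asy_term ht h5 hS (show 0 < (j : ℝ) + 1 by positivity), mul_pow, e],
    ← Finset.mul_sum, mul_left_comm] at h4
  have h10 := mul_le_mul_of_nonneg_left h9 h8.le
  have e2 : t ^ 3 * (S * (S - (S - c * t⁻¹ ^ 3))) = S * c := by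
    field_simp
    ring
  linarith

end Vale.Agent.P361
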