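import Vale.Agent.P361.Ham

/-!
P361: the double commutator of the Hamiltonian with a spin-wave creation operator and the
resulting lower bound on the mode occupation.
-/

open scoped Matrix
open Matrix

namespace Vale.Agent.P361

variable {ι : Type} [Fintype ι] [DecidableEq ι] {n : ℕ}

/-- The spin-wave creation operator `∑ₓ φ(x) S⁻ₓ`. -/
noncomputable def cre (n : ℕ) (φ : ι → ℂ) : Matrix (ι → Fin (n + 1)) (ι → Fin (n + 1)) ℂ :=
  ∑ z, φ z • siteOp z (splus n)ᴴ

lemma cre_star (φ : ι → ℂ) : (cre n φ)ᴴ = ∑ z, star (φ z) • siteOp z (splus n) := by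
  simp only [cre, conjTranspose_sum, conjTranspose_smul, siteOp_conjTranspose,
    conjTranspose_conjTranspose]

lemma sdot_comm_cre {x y : ι} (h : x ≠ y) (φ : ι → ℂ) :
    sdot n x y * cre n φ - cre n φ * sdot n x y =
      (φ x - φ y) • (siteOp x (spin n 2) * siteOp y (splus n)ᴴ -
        siteOp x (splus n)ᴴ * siteOp y (spin n 2)) := by
  rw [cre, comm_sum h]
  · rw [sdot_eq]
    simp only [Matrix.add_mul, Matrix.mul_add, Matrix.smul_mul, Matrix.mul_smul, two_mul_left h,
      two_mul_right, left_mul_two, right_mul_two h, splus_sminus_rel, sz_sminus_rel, siteOp_add,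
      siteOp_sub, siteOp_smul, Matrix.sub_mul, Matrix.mul_sub]
    module
  · intro z hx hy
    rw [sdot, Matrix.sum_mul, Matrix.mul_sum]
    exact Finset.sum_congr rfl fun a _ => two_comm_far hx hy _ _ _

lemma cre_star_comm {x y : ι} (h : x ≠ y) (φ : ι → ℂ) :
    (siteOp x (spin n 2) * siteOp y (splus n)ᴴ - siteOp x (splus n)ᴴ * siteOp y (spin n 2)) *
        (cre n φ)ᴴ -
      (cre n φ)ᴴ *
        (siteOp x (spin n 2) * siteOp y (splus n)ᴴ - siteOp x (splus n)ᴴ * siteOp y (spin n 2)) =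
      star (φ x) • (siteOp x (splus n) * siteOp y (splus n)ᴴ +
          (2 : ℂ) • (siteOp x (spin n 2) * siteOp y (spin n 2))) -
        star (φ y) • (siteOp x (splus n)ᴴ * siteOp y (splus n) +
          (2 : ℂ) • (siteOp x (spin n 2) * siteOp y (spin n 2))) := by
  rw [cre_star, comm_sum h]
  · simp only [Matrix.add_mul, Matrix.mul_add, Matrix.smul_mul, Matrix.mul_smul, two_mul_left h,
      two_mul_right, left_mul_two, right_mul_two h, splus_sminus_rel, sz_splus_rel, siteOp_add,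
      siteOp_smul, Matrix.sub_mul, Matrix.mul_sub]
    module
  · intro z hx hy
    rw [Matrix.sub_mul, Matrix.mul_sub, two_comm_far hx hy, two_comm_far hx hy]

/-- The double commutator `[A*, [T, A]]`. -/
noncomputable def dcomm {m : Type} [Fintype m] (A T : Matrix m m ℂ) : Matrix m m ℂ :=
  Aᴴ * (T * A - A * T) - (T * A - A * T) * Aᴴ

section dc

variable {m : Type} [Fintype m] (A : Matrix m m ℂ)

lemma dcomm_sub (T T' : Matrix m m ℂ) : dcomm A (T - T') = dcomm A T - dcomm A T' := by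
  simp only [dcomm, Matrix.mul_sub, Matrix.sub_mul]
  abel

lemma dcomm_neg (T : Matrix m m ℂ) : dcomm A (-T) = -dcomm A T := by
  simp only [dcomm, Matrix.mul_sub, Matrix.sub_mul, Matrix.mul_neg, Matrix.neg_mul]
  abel

lemma dcomm_smul (c : ℂ) (T : Matrix m m ℂ) : dcomm A (c • T) = c • dcomm A T := by
  simp only [dcomm, Matrix.mul_sub, Matrix.sub_mul, Matrix.mul_smul, Matrix.smul_mul, smul_sub]

lemma dcomm_sum {κ : Type} (s : Finset κ) (T : κ → Matrix m m ℂ) :
    dcomm A (∑ k ∈ s, T k) = ∑ k ∈ s, dcomm A (T k) := by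
  simp only [dcomm, Matrix.mul_sub, Matrix.sub_mul, Matrix.mul_sum, Matrix.sum_mul,
    Finset.sum_sub_distrib]

lemma dcomm_zero : dcomm A 0 = 0 := by
  simp [dcomm]

end dc

lemma dcomm_sdot {x y : ι} (h : x ≠ y) (φ : ι → ℂ) :
    -dcomm (cre n φ) (sdot n x y) =
      ((Complex.normSq (φ x - φ y) : ℝ) : ℂ) •
          (sdot n x y + siteOp x (spin n 2) * siteOp y (spin n 2)) +
        ((1 / 2 : ℂ) * (φ x - φ y) * (star (φ x) + star (φ y))) •
          (siteOp x (splus n) * siteOp y (splus n)ᴴ -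
            (siteOp x (splus n) * siteOp y (splus n)ᴴ)ᵀ) := by
  rw [dcomm, sdot_comm_cre h, Matrix.mul_smul, Matrix.smul_mul, ← smul_sub, ← smul_neg, neg_sub,
    cre_star_comm h, transpose_mul, siteOp_transpose, siteOp_transpose, sminus_transpose,
    splus_transpose, siteOp_comm h, sdot_eq, ← Complex.mul_conj, map_sub]
  simp only [Complex.star_def]
  module

lemma mag_comm_cre (φ : ι → ℂ) : magG n ι * cre n φ - cre n φ * magG n ι = -cre n φ := by
  rw [magG, cre, Matrix.sum_mul, Matrix.mul_sum, ← Finset.sum_sub_distrib, ← Finset.sum_neg_distrib]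
  refine Finset.sum_congr rfl fun x _ => ?_
  rw [Matrix.mul_sum, Matrix.sum_mul, ← Finset.sum_sub_distrib, Finset.sum_eq_single x]
  · simp only [Matrix.mul_smul, Matrix.smul_mul, siteOp_mul, sz_sminus_rel, siteOp_sub]
    module
  · intro z _ hz
    simp only [Matrix.mul_smul, Matrix.smul_mul, siteOp_comm hz, sub_self]
  · simp

lemma cre_comm (φ : ι → ℂ) : (cre n φ)ᴴ * cre n φ - cre n φ * (cre n φ)ᴴ =
    ∑ x, ((2 * Complex.normSq (φ x) : ℝ) : ℂ) • siteOp x (spin n 2) := by
  rw [cre_star, cre, Matrix.sum_mul, Matrix.mul_sum, ← Finset.sum_sub_distrib]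
  refine Finset.sum_congr rfl fun x _ => ?_
  rw [Matrix.mul_sum, Matrix.sum_mul, ← Finset.sum_sub_distrib, Finset.sum_eq_single x]
  · simp only [Matrix.mul_smul, Matrix.smul_mul, siteOp_mul, splus_sminus_rel, siteOp_add,
      siteOp_smul, Complex.star_def]
    push_cast
    rw [← Complex.mul_conj]
    module
  · intro z _ hz
    simp only [Matrix.mul_smul, Matrix.smul_mul, siteOp_comm hz, smul_smul]
    rw [mul_comm, sub_self]
  · simp

variable {adj : ι → ι → Prop} [DecidableRel adj]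

lemma gib_dcomm_le (hadj : ∀ x y, adj x y → x ≠ y) {β : ℝ} (hβ : 0 ≤ β) (h : ℝ) (φ : ι → ℂ) :
    gib (gen n adj β h) (dcomm (cre n φ) (gen n adj β h)) ≤
      β * ((n / 2) ^ 2 * (∑ x, ∑ y, if adj x y then Complex.normSq (φ x - φ y) else 0) *
          gib (gen n adj β h) 1 +
        h * gib (gen n adj β h) ((cre n φ)ᴴ * cre n φ - cre n φ * (cre n φ)ᴴ)) := by
  have hK := gen_herm (n := n) hadj β h
  have hT := gen_transpose (n := n) hadj β h
  have e1 : dcomm (cre n φ) (magG n ι) = -((cre n φ)ᴴ * cre n φ - cre n φ * (cre n φ)ᴴ) := by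
    rw [dcomm, mag_comm_cre, Matrix.mul_neg, Matrix.neg_mul]
    abel
  have e2 : dcomm (cre n φ) (gen n adj β h) =
      (β : ℂ) • ((((1 / 2 : ℝ) : ℂ) • ∑ x, ∑ y, if adj x y then -dcomm (cre n φ) (sdot n x y) else 0) +
        (h : ℂ) • ((cre n φ)ᴴ * cre n φ - cre n φ * (cre n φ)ᴴ)) := by
    rw [gen, dcomm_smul, dcomm_sub, dcomm_smul, e1, hamG, dcomm_neg, dcomm_smul, dcomm_sum,
      smul_neg, sub_neg_eq_add, ← smul_neg, ← Finset.sum_neg_distrib]
    congr 2
    push_cast
    congr 1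
    refine Finset.sum_congr rfl fun x _ => ?_
    rw [dcomm_sum, ← Finset.sum_neg_distrib]
    refine Finset.sum_congr rfl fun y _ => ?_
    split_ifs
    · rfl
    · rw [dcomm_zero, neg_zero]
  generalize gen n adj β h = K at hK hT e2 ⊢
  rw [e2, gib_smul, gib_add, gib_smul, gib_smul, gib_sum]
  refine mul_le_mul_of_nonneg_left (add_le_add ?_ le_rfl) hβ
  simp only [Finset.mul_sum, Finset.sum_mul, gib_sum]
  refine Finset.sum_le_sum fun x _ => Finset.sum_le_sum fun y _ => ?_
  split_ifs with hxy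
  · rw [dcomm_sdot (hadj x y hxy), gib_add, gib_antisym hT, gib_smul, gib_add]
    have h1 := gib_sdot_le hK (hadj x y hxy)
    have h2 := gib_zz_le hK x y 1
    rw [abs_one] at h2
    have h3 := Complex.normSq_nonneg (φ x - φ y)
    have h4 := mul_le_mul_of_nonneg_left (add_le_add h1 h2) h3
    nlinarith
  · simp [gib_zero]

/-- Lower bound on the occupation of a mode of constant modulus. -/
lemma mode_bound (hadj : ∀ x y, adj x y → x ≠ y) {β : ℝ} (hβ : 0 < β) (h : ℝ) (φ : ι → ℂ)
    (hφ : ∀ x, Complex.normSq (φ x) = 1) (e u : ℝ) (hu : 0 < u) (he0 : 0 ≤ e)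
    (hV : 0 < Fintype.card ι)
    (he : (∑ x, ∑ y, if adj x y then Complex.normSq (φ x - φ y) else 0) ≤ 2 * Fintype.card ι * e)
    (hm : u * Fintype.card ι * gib (gen n adj β h) 1 ≤ gib (gen n adj β h) (magG n ι)) (J : ℕ) :
    2 * u * Fintype.card ι * gib (gen n adj β h) 1 *
        ∑ j ∈ Finset.range J, Real.exp (-(((j : ℝ) + 1) * (β * (h + (n / 2) ^ 2 * e / u)))) ≤
      gib (gen n adj β h) (cre n φ * (cre n φ)ᴴ) := by
  have hK := gen_herm (n := n) hadj β h
  have hZ := gib_one_pos hK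
  have hD := gib_dcomm_le (n := n) hadj hβ.le h φ
  have hVr : (0 : ℝ) < Fintype.card ι := by exact_mod_cast hV
  have hw : gib (gen n adj β h) ((cre n φ)ᴴ * cre n φ - cre n φ * (cre n φ)ᴴ) =
      2 * gib (gen n adj β h) (magG n ι) := by
    rw [cre_comm, magG, gib_sum, gib_sum, Finset.mul_sum]
    refine Finset.sum_congr rfl fun x _ => ?_
    rw [gib_smul, hφ, mul_one]
  set c := β * (h + (n / 2) ^ 2 * e / u) with hc
  have hw0 : 0 < u * Fintype.card ι * gib (gen n adj β h) 1 := by positivity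
  have hE := energy_entropy hK (cre n φ) c (by rw [hw]; linarith) (by
    refine hD.trans ?_
    rw [hw, hc, mul_assoc β]
    refine mul_le_mul_of_nonneg_left ?_ hβ.le
    have h1 : ((n : ℝ) / 2) ^ 2 * (∑ x, ∑ y, if adj x y then Complex.normSq (φ x - φ y) else 0) *
        gib (gen n adj β h) 1 ≤ (n / 2) ^ 2 * (2 * Fintype.card ι * e) * gib (gen n adj β h) 1 := by
      gcongr
    have h2 : ((n : ℝ) / 2) ^ 2 * (2 * Fintype.card ι * e) * gib (gen n adj β h) 1 =
        (n / 2) ^ 2 * e / u * (2 * (u * Fintype.card ι * gib (gen n adj β h) 1)) := by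
      field_simp
    have h3 : ((n : ℝ) / 2) ^ 2 * e / u * (2 * (u * Fintype.card ι * gib (gen n adj β h) 1)) ≤
        (n / 2) ^ 2 * e / u * (2 * gib (gen n adj β h) (magG n ι)) := by
      gcongr
    nlinarith)
  rw [hw] at hE
  have hU := gib_nonneg hK (cre n φ)
  generalize gib (gen n adj β h) (cre n φ * (cre n φ)ᴴ) = U at hE hU ⊢
  have hgeom : (Real.exp c - 1) * ∑ j ∈ Finset.range J, Real.exp (-(((j : ℝ) + 1) * c)) =
      1 - Real.exp (-((J : ℝ) * c)) := by
    induction J with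
    | zero => simp
    | succ J ih =>
      rw [Finset.sum_range_succ, mul_add, ih]
      have : Real.exp c * Real.exp (-(((J : ℝ) + 1) * c)) = Real.exp (-((J : ℝ) * c)) := by
        rw [← Real.exp_add]
        congr 1
        ring
      push_cast
      linarith [sub_mul (Real.exp c) 1 (Real.exp (-(((J : ℝ) + 1) * c)))]
  have hs0 : 0 ≤ ∑ j ∈ Finset.range J, Real.exp (-(((j : ℝ) + 1) * c)) :=
    Finset.sum_nonneg fun j _ => (Real.exp_pos _).le
  have h5 : 2 * u * Fintype.card ι * gib (gen n adj β h) 1 ≤ U * (Real.exp c - 1) := by linarith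
  refine (mul_le_mul_of_nonneg_right h5 hs0).trans ?_
  rw [mul_assoc, hgeom]
  have := Real.exp_pos (-((J : ℝ) * c))
  nlinarith

end Vale.Agent.P361
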