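import Vale.Agent.P361.Def3

/-!
P361: consequences of the two-sided law.
-/

open scoped Matrix Topology
open Matrix Filter

namespace Vale.Agent.P361

theorem magnet_hasDeriv (n : ℕ) {β : ℝ} (hβ : 0 < β) (h : ℝ) :
    HasDerivWithinAt (pressure n β) (derivWithin (pressure n β) (Set.Ici h) h) (Set.Ici h) h := by
  have := (pressure_convex n hβ).hasDerivWithinAt_rightDeriv_of_mem_interior (x := h) (by simp)
  rw [← derivWithin_Ioi_eq_Ici]
  exact this.Ici_of_Ioi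

theorem cor_pf (hF : S_Fin) (hG : S_G) (n : ℕ) (hn : 1 ≤ n) (h : ℝ → ℝ)
    (h1 : ∀ᶠ β : ℝ in atTop, β ^ (-(201 / 200) : ℝ) ≤ h β)
    (h2 : Tendsto (fun β => β * h β) atTop (𝓝 0)) :
    Tendsto (fun β : ℝ => β ^ (3 / 2 : ℝ) *
        ((n : ℝ) / 2 - derivWithin (pressure n β) (Set.Ici (h β)) (h β))) atTop
      (𝓝 ((riemannZeta (3 / 2)).re /
        (8 * Real.pi ^ (3 / 2 : ℝ) * ((n : ℝ) / 2) ^ (3 / 2 : ℝ)))) := by
  have hn' : (0 : ℝ) < n := by exact_mod_cast hn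
  have hc : 0 < cS n := by
    have := Real.pi_pos
    rw [cS]
    positivity
  have e : (riemannZeta (3 / 2)).re / (8 * Real.pi ^ (3 / 2 : ℝ) * ((n : ℝ) / 2) ^ (3 / 2 : ℝ)) =
      cS n * gser (3 / 2) 0 := by
    rw [hG.2.1, cS]
    ring
  rw [e, Metric.tendsto_nhds]
  intro ε hε
  obtain ⟨η, hη, H⟩ := hG.2.2.2.2.1 (ε / 4 / cS n) (by positivity)
  have h3 := (Metric.tendsto_nhds.1 h2) η hη
  filter_upwards [hF n hn (ε / 4) (by positivity), h1, h3, eventually_gt_atTop 0] with β a1 a2 a3 a4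
  have a5 : 0 ≤ β * h β := mul_nonneg a4.le ((Real.rpow_nonneg a4.le _).trans a2)
  rw [Real.dist_eq] at a3 ⊢
  have a6 := H (β * h β) 0 a5 le_rfl a3.le
  rw [le_div_iff₀ hc, ← abs_of_pos hc, ← abs_mul] at a6
  have a7 := abs_le.1 (a1 (h β) a2).1
  have a8 := abs_le.1 a6
  rw [abs_lt]
  constructor <;> nlinarith [a7.1, a7.2, a8.1, a8.2]

end Vale.Agent.P361
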