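import Vale.Agent.P361.Press

/-!
P361, second part: definitions and statements for the two-sided law in a small field.
-/

open scoped Matrix Topology
open Matrix Filter

namespace Vale.Agent.P361

section ops

variable {ι : Type} [Fintype ι] [DecidableEq ι]

/-- `h_{xy} = S² - Sₓ · S_y`. -/
noncomputable def hop (n : ℕ) (x y : ι) : Matrix (ι → Fin (n + 1)) (ι → Fin (n + 1)) ℂ :=
  ((((n : ℝ) / 2) ^ 2 : ℝ) : ℂ) • (1 : Matrix (ι → Fin (n + 1)) (ι → Fin (n + 1)) ℂ) - sdot n x y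

/-- The magnon number at a site. -/
noncomputable def eta (n : ℕ) (x : ι) : Matrix (ι → Fin (n + 1)) (ι → Fin (n + 1)) ℂ :=
  siteOp x (numOp n)

/-- The total magnon number. -/
noncomputable def numT (n : ℕ) (ι : Type) [Fintype ι] [DecidableEq ι] :
    Matrix (ι → Fin (n + 1)) (ι → Fin (n + 1)) ℂ :=
  ∑ x : ι, eta n x

/-- The shifted Hamiltonian. -/
noncomputable def htil (n : ℕ) (adj : ι → ι → Prop) [DecidableRel adj] :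
    Matrix (ι → Fin (n + 1)) (ι → Fin (n + 1)) ℂ :=
  ((1 / 2 : ℝ) : ℂ) • ∑ x, ∑ y, if adj x y then hop n x y else 0

/-- `β H̃ + δ N`. -/
noncomputable def ktil (n : ℕ) (adj : ι → ι → Prop) [DecidableRel adj] (β δ : ℝ) :
    Matrix (ι → Fin (n + 1)) (ι → Fin (n + 1)) ℂ :=
  (β : ℂ) • htil n adj + (δ : ℂ) • numT n ι

/-- The magnon annihilator `∑ₓ f(x) S⁺ₓ`. -/
noncomputable def ann (n : ℕ) (f : ι → ℝ) : Matrix (ι → Fin (n + 1)) (ι → Fin (n + 1)) ℂ :=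
  ∑ x, (f x : ℂ) • siteOp x (splus n)

end ops

/-- Normalised Gibbs expectation. -/
noncomputable def av {m : Type} [Fintype m] [DecidableEq m] (K X : Matrix m m ℂ) : ℝ :=
  gib K X / gib K 1

/-- `log Tr exp (-(β H̃ + δ N))` on `Λ`. -/
noncomputable def lzt (n : ℕ) (Λ : Finset (Fin 3 → ℤ)) (β δ : ℝ) : ℝ :=
  Real.log (gib (ktil n (nbr Λ) β δ) 1)

/-- Neumann eigenvalues of the box of side `l`. -/
noncomputable def lam (l : ℕ) (k : Fin 3 → Fin l) : ℝ :=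
  ∑ i, 2 * (1 - Real.cos (Real.pi * ((k i : ℕ) : ℝ) / l))

/-- The Bose function `g_a(e^{-δ}) = ∑_{j ≥ 1} e^{-jδ} j^{-a}`. -/
noncomputable def gser (a δ : ℝ) : ℝ :=
  ∑' j : ℕ, Real.exp (-(((j : ℝ) + 1) * δ)) / ((j : ℝ) + 1) ^ a

/-- The spin-wave constant `(4 π S)^{-3/2}`. -/
noncomputable def cS (n : ℕ) : ℝ :=
  1 / (8 * Real.pi ^ (3 / 2 : ℝ) * ((n : ℝ) / 2) ^ (3 / 2 : ℝ))

/-- The pressure minus the ground-state contribution. -/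
noncomputable def qfun (n : ℕ) (β h : ℝ) : ℝ :=
  pressure n β h - 3 * ((n : ℝ) / 2) ^ 2 - (n : ℝ) / 2 * h

/-- The error in the density bound of a box of side `l`. -/
noncomputable def errE (n : ℕ) (l β δ θ τ J R : ℝ) : ℝ :=
  3 * τ / θ * (4 / δ ^ 2 * (2 * R ^ 2 + 4)) +
    (4 / (θ * τ) * (2 * β / ((n : ℝ) / 2 * l ^ 2 * δ) +
        (1 + Real.log l) ^ 2 / (2 * ((n : ℝ) / 2) ^ 2)) + 1) *
      (18 / J * (4 / δ ^ 2 * (2 * R ^ 2 + 4)) + 48 * (J + 1) ^ 2 * (2 * R / β)) +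
    2 * (2 * R / β)

/-! ### Combinatorial and analytic statements -/

/-- Poincare inequality for squared pseudo-metrics on the box. -/
def S_Poin : Prop :=
  ∀ (N : ℕ) (d : box N → box N → ℝ), (∀ x y, 0 ≤ d x y) → (∀ x, d x x = 0) →
    (∀ x y, d x y = d y x) →
    (∀ x y z, Real.sqrt (d x z) ≤ Real.sqrt (d x y) + Real.sqrt (d y z)) →
    ∑ x, ∑ z, d x z ≤ 9 * (2 * (N : ℝ) + 1) ^ 5 * ∑ x, ∑ y, if nbr (box N) x y then d x y else 0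

/-- Moving one particle along a window. -/
def S_Win : Prop :=
  ∀ (N J : ℕ) (d p : box N → box N → ℝ), 1 ≤ J → J + 1 ≤ N → (∀ x y, 0 ≤ d x y) → (∀ x, d x x = 0) →
    (∀ x y z, Real.sqrt (d x z) ≤ Real.sqrt (d x y) + Real.sqrt (d y z)) → (∀ x y, 0 ≤ p x y) →
    (∀ x y z, x ≠ y → x ≠ z → y ≠ z → p x y ≤ 3 * p x z + 4 * d y z) →
    (∑ x, ∑ y, if nbr (box N) x y then p x y else 0) ≤
      18 / J * (∑ x, ∑ z, p x z) +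
        24 * ((J : ℝ) + 1) ^ 2 * ∑ x, ∑ y, if nbr (box N) x y then d x y else 0

/-- One-dimensional Neumann modes. -/
def S_Mode1 : Prop :=
  ∀ N : ℕ, ∃ g : Fin (2 * N + 1) → ℤ → ℝ,
    (∀ s ∈ Finset.Icc (-(N : ℤ)) N, ∀ t ∈ Finset.Icc (-(N : ℤ)) N,
      ∑ k, g k s * g k t = if s = t then 1 else 0) ∧
    (∀ k, ∑ t ∈ Finset.Icc (-(N : ℤ)) N, g k t ^ 2 = 1) ∧
    (∀ k, g k (-(N : ℤ) - 1) = g k (-(N : ℤ)) ∧ g k ((N : ℤ) + 1) = g k N) ∧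
    (∀ k t, 2 * g k t - g k (t + 1) - g k (t - 1) =
      2 * (1 - Real.cos (Real.pi * ((k : ℕ) : ℝ) / ((2 * N + 1 : ℕ) : ℝ))) * g k t) ∧
    (∀ k t, g k t ^ 2 ≤ 2 / (2 * (N : ℝ) + 1)) ∧
    ∀ k t, (g k (t + 1) - g k t) ^ 2 ≤ 2 / (2 * (N : ℝ) + 1) *
      (2 * (1 - Real.cos (Real.pi * ((k : ℕ) : ℝ) / ((2 * N + 1 : ℕ) : ℝ))))

/-- Neumann modes of the box. -/
def S_Mode3 : Prop :=
  ∀ N : ℕ, ∃ f : (Fin 3 → Fin (2 * N + 1)) → box N → ℝ,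
    (∀ x y, ∑ k, f k x * f k y = if x = y then 1 else 0) ∧ (∀ k, ∑ x, f k x ^ 2 = 1) ∧
    (∀ k x, (∑ y, if nbr (box N) x y then f k x - f k y else 0) = lam (2 * N + 1) k * f k x) ∧
    ∀ k x y, nbr (box N) x y → (f k x - f k y) ^ 2 ≤ 8 / (2 * (N : ℝ) + 1) ^ 3 * lam (2 * N + 1) k

/-- The one-dimensional heat trace. -/
def S_Theta : Prop :=
  ∀ (l : ℕ) (τ ε : ℝ), 0 < τ → 0 < ε → ε < 1 →
    ∑ k : Fin l, Real.exp (-(τ * (2 * (1 - Real.cos (Real.pi * ((k : ℕ) : ℝ) / l))))) ≤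
      1 + l / Real.sqrt (4 * Real.pi * τ * (1 - ε)) + l * Real.exp (-(2 * τ * ε / 5))

/-- The lattice sum in the error term. -/
def S_Gam : Prop :=
  ∀ (l : ℕ) (β δ S : ℝ), 1 ≤ l → 0 < β → 0 < δ → 0 < S →
    ∑ k : Fin 3 → Fin l, β ^ 2 * lam l k / (δ + β * S * lam l k) ^ 2 ≤
      (l : ℝ) ^ 3 * (2 * β / (S * (l : ℝ) ^ 2 * δ) + (1 + Real.log l) ^ 2 / (2 * S ^ 2))

/-- The free Bose gas in the box. -/
def S_Ser : Prop :=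
  ∀ (l : ℕ) (τ ε δ : ℝ), 0 < τ → 0 < ε → ε < 1 → 0 < δ → l * Real.exp (-(2 * τ * ε / 5)) ≤ 1 →
    ∑ k : Fin 3 → Fin l, -Real.log (1 - Real.exp (-(δ + τ * lam l k))) ≤
      (1 + ε) ^ 2 * (l : ℝ) ^ 3 / (4 * Real.pi * τ * (1 - ε)) ^ (3 / 2 : ℝ) * gser (5 / 2) δ +
        8 * (1 + 1 / ε) ^ 2 / δ

/-- Properties of the Bose functions. -/
def S_G : Prop :=
  (∀ a δ : ℝ, 1 < a → 0 ≤ δ →
    Summable (fun j : ℕ => Real.exp (-(((j : ℝ) + 1) * δ)) / ((j : ℝ) + 1) ^ a) ∧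
      0 < gser a δ ∧ gser a δ ≤ gser a 0) ∧
  gser (3 / 2) 0 = (riemannZeta (3 / 2)).re ∧
  (∀ a b : ℝ, 0 ≤ a → a ≤ b → gser (5 / 2) a - gser (5 / 2) b ≤ (b - a) * gser (3 / 2) a) ∧
  (∀ δ θ : ℝ, 0 ≤ δ → 0 ≤ θ → θ ≤ 1 / 2 →
    gser (5 / 2) ((1 - θ) * δ) ≤ gser (5 / 2) δ + 2 * θ * gser (3 / 2) 0) ∧
  (∀ ε : ℝ, 0 < ε → ∃ η : ℝ, 0 < η ∧ ∀ a b : ℝ, 0 ≤ a → 0 ≤ b → |a - b| ≤ η →
    |gser (3 / 2) a - gser (3 / 2) b| ≤ ε) ∧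
  ContinuousOn (gser (5 / 2)) (Set.Ici 0) ∧
  (∀ δ : ℝ, 0 ≤ δ → HasDerivWithinAt (gser (5 / 2)) (-gser (3 / 2) δ) (Set.Ici δ) δ) ∧
  Tendsto (gser (5 / 2)) atTop (𝓝 0)

/-- Explicit consequence of the self-consistent inequality. -/
def S_LoAn : Prop :=
  ∀ n : ℕ, 1 ≤ n → ∃ C β₀ : ℝ, 0 < C ∧ 0 < β₀ ∧ ∀ β δ m : ℝ, β₀ ≤ β → 0 ≤ δ →
    (∀ (J : ℕ) (u : ℝ), 0 < u → u < m →
      u * ∑ j ∈ Finset.range J, Real.exp (-(((j : ℝ) + 1) * δ)) *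
        (max 0 (1 / (2 * Real.sqrt (Real.pi * (((j : ℝ) + 1) * β * ((n : ℝ) / 2) ^ 2 / u))) -
          1 / (Real.pi ^ 2 * (((j : ℝ) + 1) * β * ((n : ℝ) / 2) ^ 2 / u)))) ^ 3 ≤
        ((n : ℝ) / 2) * ((n : ℝ) / 2 - u)) →
    (1 - C / Real.sqrt β) * (cS n * gser (3 / 2) δ) ≤ β ^ (3 / 2 : ℝ) * ((n : ℝ) / 2 - m)

/-- The main term with the chosen parameters. -/
def S_Num1 : Prop :=
  ∀ n : ℕ, 1 ≤ n → ∃ C : ℝ, ∀ β δ θ : ℝ, 0 < β → 0 ≤ δ → 0 < θ → θ ≤ 1 / 2 →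
    β ^ (3 / 2 : ℝ) * ((1 + θ) ^ 2 /
        (4 * Real.pi * ((1 - θ) * β * ((n : ℝ) / 2)) * (1 - θ)) ^ (3 / 2 : ℝ) *
          gser (5 / 2) ((1 - θ) * δ) / (1 - θ)) ≤
      cS n * gser (5 / 2) δ + C * θ

/-- The error terms with the chosen parameters. -/
def S_Num2 : Prop :=
  ∀ n : ℕ, 1 ≤ n → ∃ C r₀ : ℝ, ∀ r β δ : ℝ, r₀ ≤ r → r ^ 160 ≤ β → β ≤ 2 * r ^ 160 → 1 / r ≤ δ →
    r ^ 83 * Real.exp (-(2 * ((1 - 1 / r ^ 3) * β * ((n : ℝ) / 2)) * (1 / r ^ 3) / 5)) ≤ 1 ∧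
    β ^ (3 / 2 : ℝ) / (r ^ 83) ^ 3 * (2 * (r ^ 83) ^ 3 * Real.exp (-r) +
      8 * (1 + 1 / (1 / r ^ 3)) ^ 2 / ((1 - 1 / r ^ 3) * δ) / (1 - 1 / r ^ 3) +
      errE n (r ^ 83) β (1 / r) (1 / r ^ 3) (1 / r ^ 28) (r ^ 57) (r ^ 14) * r) ≤ C / r ^ 2

end Vale.Agent.P361
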