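import Vale.Agent.P361.Api

/-!
P361, second part: operator statements.
-/

open scoped Matrix Topology
open Matrix Filter

namespace Vale.Agent.P361

/-- The squared pseudo-distance given by the bond energies. -/
noncomputable def dd {ι : Type} [Fintype ι] [DecidableEq ι] (n : ℕ)
    (K : Matrix (ι → Fin (n + 1)) (ι → Fin (n + 1)) ℂ) (x y : ι) : ℝ :=
  if x = y then 0 else gib K (hop n x y)

/-- Positivity, tiling and the infinite-volume limit. -/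
def S_Q : Prop :=
  ∀ n : ℕ, (∀ (Λ : Finset (Fin 3 → ℤ)) (β δ : ℝ), 0 ≤ lzt n Λ β δ) ∧
    (∀ (β δ : ℝ) (M N q : ℕ), 0 < β → (2 * M + 1) * q = 2 * N + 1 →
      lzt n (box N) β δ ≤ (q : ℝ) ^ 3 * lzt n (box M) β δ) ∧
    ∀ β h : ℝ, 0 < β → 0 ≤ qfun n β h ∧
      ∀ M : ℕ, qfun n β h ≤ lzt n (box M) β (β * h) / (β * (2 * (M : ℝ) + 1) ^ 3)

/-- Three-site and two-site inequalities. -/
def S_Tri : Prop :=
  ∀ (ι : Type) [Fintype ι] [DecidableEq ι] (n : ℕ)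
    (K : Matrix (ι → Fin (n + 1)) (ι → Fin (n + 1)) ℂ), 1 ≤ n → K.IsHermitian →
    (∀ x y z, Real.sqrt (dd n K x z) ≤ Real.sqrt (dd n K x y) + Real.sqrt (dd n K y z)) ∧
    (∀ x y z, x ≠ y → x ≠ z → y ≠ z →
      gib K (eta n x * eta n y) ≤ 3 * gib K (eta n x * eta n z) + 4 * gib K (hop n y z)) ∧
    ∀ x y, x ≠ y → gib K (eta n x * eta n x - eta n x) + gib K (eta n y * eta n y - eta n y) ≤
      2 * gib K (hop n x y) + 2 * gib K (eta n x * eta n y)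

/-- The complete graph and the total spin. -/
def S_Cas : Prop :=
  ∀ (ι : Type) [Fintype ι] [DecidableEq ι] (n : ℕ),
    (∑ x : ι, ∑ z : ι, if x = z then 0 else hop n x z) =
      (((n : ℝ) * Fintype.card ι + 1 : ℝ) : ℂ) • numT n ι - numT n ι * numT n ι -
        (ann n fun _ : ι => 1)ᴴ * ann n fun _ : ι => 1

/-- Commutators with the annihilator and the number operator. -/
def S_Com : Prop :=
  ∀ (ι : Type) [Fintype ι] [DecidableEq ι] (n : ℕ) (adj : ι → ι → Prop) [DecidableRel adj]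
    (β δ : ℝ), (∀ x y, adj x y → x ≠ y) → (∀ x y, adj x y → adj y x) →
    (∀ f : ι → ℝ, ktil n adj β δ * ann n f - ann n f * ktil n adj β δ =
      -((δ : ℂ) • ann n f) -
        ((β * ((n : ℝ) / 2) : ℝ) : ℂ) • ann n (fun x => ∑ y, if adj x y then f x - f y else 0) +
        (β : ℂ) • ∑ x, ∑ y, if adj x y then
          ((f x - f y : ℝ) : ℂ) • (eta n y * siteOp x (splus n)) else 0) ∧
    (∀ f : ι → ℝ, ann n f * (ann n f)ᴴ - (ann n f)ᴴ * ann n f =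
      ∑ x, ((2 * f x ^ 2 : ℝ) : ℂ) • siteOp x (spin n 2)) ∧
    Commute (ktil n adj β δ) (numT n ι)

/-- Upper bound on the occupation of one eigenmode. -/
def S_One : Prop :=
  ∀ (ι : Type) [Fintype ι] [DecidableEq ι] (n : ℕ) (adj : ι → ι → Prop) [DecidableRel adj]
    (β δ θ τ l γ : ℝ) (f : ι → ℝ), (∀ x y, adj x y → x ≠ y) → (∀ x y, adj x y → adj y x) →
    (∀ x, (∑ y, if adj x y then (1 : ℝ) else 0) ≤ 6) → 0 < β → 0 < δ → 0 < θ → θ < 1 → 0 < τ →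
    0 ≤ l → 0 ≤ γ → ∑ x, f x ^ 2 = 1 →
    (∀ x, (∑ y, if adj x y then f x - f y else 0) = l * f x) →
    (∀ x y, adj x y → (f x - f y) ^ 2 ≤ γ * l) →
    gib (ktil n adj β δ) ((ann n f)ᴴ * ann n f) ≤
      n * gib (ktil n adj β δ) 1 / (Real.exp ((1 - θ) * (δ + β * ((n : ℝ) / 2) * l)) - 1) +
        3 * τ / θ * gib (ktil n adj β δ) ((ann n f)ᴴ * (numT n ι * ann n f)) +
        n * γ / (2 * θ * τ) * (β ^ 2 * l / (δ + β * ((n : ℝ) / 2) * l) ^ 2) *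
          ∑ x, ∑ y, if adj x y then gib (ktil n adj β δ) (eta n x * eta n y) else 0

/-- Sums over a complete system of modes. -/
def S_Sum : Prop :=
  ∀ (ι κ : Type) [Fintype ι] [DecidableEq ι] [Fintype κ] (n : ℕ) (f : κ → ι → ℝ)
    (K : Matrix (ι → Fin (n + 1)) (ι → Fin (n + 1)) ℂ), K.IsHermitian →
    (∀ x y, ∑ k, f k x * f k y = if x = y then 1 else 0) →
    ∑ k, gib K ((ann n (f k))ᴴ * ann n (f k)) =
        n * gib K (numT n ι) - ∑ x, gib K (eta n x * eta n x - eta n x) ∧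
      ∑ k, gib K ((ann n (f k))ᴴ * (numT n ι * ann n (f k))) ≤ n * gib K (numT n ι * numT n ι) ∧
      (∑ x, ∑ z, gib K (eta n x * eta n z)) = gib K (numT n ι * numT n ι) ∧
      (∀ x y, 0 ≤ gib K (eta n x * eta n y)) ∧ ∀ x, 0 ≤ gib K (eta n x * eta n x - eta n x)

/-- Entropy of a dilute gas of particles or holes, and the trivial bound at large field. -/
def S_Ent : Prop :=
  (∀ (ι : Type) [Fintype ι] [DecidableEq ι] (n : ℕ), 2 ≤ Fintype.card ι →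
    ∑ σ : ι → Fin (n + 1), Real.exp (-(Real.log (Fintype.card ι) *
      min (∑ x, ((σ x : ℕ) : ℝ)) ((n : ℝ) * Fintype.card ι - ∑ x, ((σ x : ℕ) : ℝ)))) ≤ 16) ∧
  ∀ (n : ℕ) (Λ : Finset (Fin 3 → ℤ)) (β δ : ℝ), 0 ≤ β → 1 ≤ δ →
    lzt n Λ β δ ≤ 2 * Λ.card * Real.exp (-δ)

/-- Rough bound in a small box. -/
def S_SB : Prop :=
  ∀ (n N : ℕ) (β δ : ℝ), 1 ≤ n → 1 ≤ N → 0 < δ →
    36 * (2 * (N : ℝ) + 1) ^ 2 * Real.log ((2 * (N : ℝ) + 1) ^ 3) ≤ β →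
    lzt n (box N) β δ ≤ 3 + 2 * Real.log ((2 * (N : ℝ) + 1) ^ 3) / δ

/-- Moments of the energy and of the particle number. -/
def S_Mom : Prop :=
  ∀ (n : ℕ) (Λ : Finset (Fin 3 → ℤ)) (β δ₀ δ R : ℝ), 0 < β → 0 < δ₀ → δ₀ ≤ δ → 0 ≤ R →
    lzt n Λ (β / 2) δ₀ ≤ R → lzt n Λ β (δ₀ / 2) ≤ R →
    av (ktil n (nbr Λ) β δ) (htil n (nbr Λ)) ≤ 2 * R / β ∧
      av (ktil n (nbr Λ) β δ) (numT n Λ * numT n Λ) ≤ 4 / δ₀ ^ 2 * (2 * R ^ 2 + 4)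

/-- The density bound in a box. -/
def S_DB : Prop :=
  ∀ (n N J : ℕ) (β δ₀ δ θ τ R : ℝ), 1 ≤ n → 1 ≤ J → J + 1 ≤ N → 0 < β → 0 < δ₀ → δ₀ ≤ δ →
    0 < θ → θ < 1 → 0 < τ → 0 ≤ R →
    lzt n (box N) (β / 2) δ₀ ≤ R → lzt n (box N) β (δ₀ / 2) ≤ R →
    av (ktil n (nbr (box N)) β δ) (numT n (box N)) ≤
      ∑ k : Fin 3 → Fin (2 * N + 1),
          1 / (Real.exp ((1 - θ) * (δ + β * ((n : ℝ) / 2) * lam (2 * N + 1) k)) - 1) +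
        errE n (2 * (N : ℝ) + 1) β δ₀ θ τ J R

/-- The upper bound on the partition function of a box. -/
def S_UpBox : Prop :=
  ∀ (n N J : ℕ) (β δ₀ δ θ τ R D : ℝ), 1 ≤ n → 1 ≤ J → J + 1 ≤ N → 0 < β → 0 < δ₀ → δ₀ ≤ δ →
    0 < θ → θ < 1 → 0 < τ → 0 ≤ R → 1 ≤ D →
    lzt n (box N) (β / 2) δ₀ ≤ R → lzt n (box N) β (δ₀ / 2) ≤ R →
    (2 * (N : ℝ) + 1) * Real.exp (-(2 * ((1 - θ) * β * ((n : ℝ) / 2)) * θ / 5)) ≤ 1 →
    lzt n (box N) β δ ≤ 2 * (2 * (N : ℝ) + 1) ^ 3 * Real.exp (-D) +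
      ((1 + θ) ^ 2 * (2 * (N : ℝ) + 1) ^ 3 /
          (4 * Real.pi * ((1 - θ) * β * ((n : ℝ) / 2)) * (1 - θ)) ^ (3 / 2 : ℝ) *
            gser (5 / 2) ((1 - θ) * δ) + 8 * (1 + 1 / θ) ^ 2 / ((1 - θ) * δ)) / (1 - θ) +
      errE n (2 * (N : ℝ) + 1) β δ₀ θ τ J R * D

/-- Rough bound in the large box. -/
def S_Rough : Prop :=
  ∀ n : ℕ, 1 ≤ n → ∃ r₀ : ℕ, ∀ (r M N : ℕ) (β δ : ℝ), r₀ ≤ r → 2 * M + 1 = r ^ 79 →
    2 * N + 1 = r ^ 83 → (r : ℝ) ^ 160 / 2 ≤ β → 1 / (2 * (r : ℝ)) ≤ δ →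
    lzt n (box N) β δ ≤ (r : ℝ) ^ 14

/-- Sharp upper bound on the pressure. -/
def S_Up : Prop :=
  ∀ n : ℕ, 1 ≤ n → ∀ᶠ β : ℝ in atTop, ∀ δ : ℝ, β ^ (-(1 / 200) : ℝ) / 2 ≤ δ →
    β ^ (5 / 2 : ℝ) * qfun n β (δ / β) ≤ cS n * gser (5 / 2) δ + β ^ (-(1 / 90) : ℝ)

/-- Upper bound on the slopes of the pressure. -/
def S_Slope : Prop :=
  ∀ n : ℕ, 1 ≤ n → ∃ C β₀ : ℝ, 0 < C ∧ 0 < β₀ ∧ ∀ β h' h : ℝ, β₀ ≤ β → 0 ≤ h' → h' < h →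
    (1 - C / Real.sqrt β) * (cS n * gser (3 / 2) (β * h)) ≤
      β ^ (3 / 2 : ℝ) * ((n : ℝ) / 2 - (pressure n β h - pressure n β h') / (h - h'))

/-- Sharp lower bound on the pressure. -/
def S_Lo : Prop :=
  ∀ n : ℕ, 1 ≤ n → ∃ C β₀ : ℝ, 0 < C ∧ 0 < β₀ ∧ ∀ β δ : ℝ, β₀ ≤ β → 0 ≤ δ →
    (1 - C / Real.sqrt β) * (cS n * gser (5 / 2) δ) ≤ β ^ (5 / 2 : ℝ) * qfun n β (δ / β)

/-- The two-sided law. -/
def S_Fin : Prop :=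
  ∀ n : ℕ, 1 ≤ n → ∀ ε : ℝ, 0 < ε → ∀ᶠ β : ℝ in atTop, ∀ h : ℝ, β ^ (-(201 / 200) : ℝ) ≤ h →
    |β ^ (3 / 2 : ℝ) * ((n : ℝ) / 2 - derivWithin (pressure n β) (Set.Ici h) h) -
        cS n * gser (3 / 2) (β * h)| ≤ ε ∧
      |β ^ (5 / 2 : ℝ) * qfun n β h - cS n * gser (5 / 2) (β * h)| ≤ ε

end Vale.Agent.P361
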