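import Mathlib

/-!
P361: the spin-`S` quantum Heisenberg ferromagnet on finite subsets of `ℤ³` (`n = 2S`).
-/

open scoped Matrix

namespace Vale.Agent.P361

/-- The raising operator `S⁺` on `ℂ^{n+1}` (`n = 2S`); the basis vector `j` has `S³ = S - j`. -/
noncomputable def splus (n : ℕ) : Matrix (Fin (n + 1)) (Fin (n + 1)) ℂ :=
  Matrix.of fun i j =>
    if (i : ℕ) + 1 = (j : ℕ) then
      ((Real.sqrt (((j : ℕ) : ℝ) * ((n : ℝ) + 1 - ((j : ℕ) : ℝ))) : ℝ) : ℂ)
    else 0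

/-- The spin-`n/2` matrices `S¹ = (S⁺ + S⁻)/2`, `S² = (S⁺ - S⁻)/(2i)`, `S³ = diag (S - j)`. -/
noncomputable def spin (n : ℕ) : Fin 3 → Matrix (Fin (n + 1)) (Fin (n + 1)) ℂ :=
  ![(1 / 2 : ℂ) • (splus n + (splus n)ᴴ),
    (1 / (2 * Complex.I) : ℂ) • (splus n - (splus n)ᴴ),
    Matrix.diagonal fun j => (n : ℂ) / 2 - ((j : ℕ) : ℂ)]

/-- The operator `A` acting at site `x`: the Kronecker product of `A` at `x` and the identity at
every other site, on the tensor product with basis `ι → X`. -/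
noncomputable def siteOp {ι X : Type} [Fintype ι] [DecidableEq ι] [DecidableEq X]
    (x : ι) (A : Matrix X X ℂ) : Matrix (ι → X) (ι → X) ℂ :=
  Matrix.of fun σ τ => ∏ y, (if y = x then A else 1) (σ y) (τ y)

/-- The box `Λ_N = {-N, …, N}³`. -/
noncomputable def box (N : ℕ) : Finset (Fin 3 → ℤ) :=
  Fintype.piFinset fun _ => Finset.Icc (-(N : ℤ)) (N : ℤ)

/-- The Heisenberg Hamiltonian on `Λ` with free boundary conditions; the sum runs over ordered
nearest-neighbour pairs, so the factor `1/2` counts every edge once. -/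
noncomputable def ham (n : ℕ) (Λ : Finset (Fin 3 → ℤ)) :
    Matrix (Λ → Fin (n + 1)) (Λ → Fin (n + 1)) ℂ :=
  -((1 / 2 : ℂ) • ∑ x : Λ, ∑ y : Λ,
    if ∑ i, |x.1 i - y.1 i| = 1 then ∑ a, siteOp x (spin n a) * siteOp y (spin n a) else 0)

/-- The total magnetization operator `M = ∑ₓ S³ₓ`. -/
noncomputable def magn (n : ℕ) (Λ : Finset (Fin 3 → ℤ)) :
    Matrix (Λ → Fin (n + 1)) (Λ → Fin (n + 1)) ℂ :=
  ∑ x : Λ, siteOp x (spin n 2)

/-- The partition function `Tr exp (-β (H - h M))`. -/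
noncomputable def partFn (n : ℕ) (Λ : Finset (Fin 3 → ℤ)) (β h : ℝ) : ℝ :=
  (Matrix.trace (NormedSpace.exp (-(β : ℂ) • (ham n Λ - (h : ℂ) • magn n Λ)))).re

/-- The finite-volume pressure `(β |Λ_N|)⁻¹ log Tr exp (-β (H_N - h M_N))`. -/
noncomputable def pressureN (n : ℕ) (β h : ℝ) (N : ℕ) : ℝ :=
  Real.log (partFn n (box N) β h) / (β * ((box N).card : ℝ))

/-- The infinite-volume pressure `p_β(h)`. -/
noncomputable def pressure (n : ℕ) (β h : ℝ) : ℝ :=
  Filter.limsup (pressureN n β h) Filter.atTop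

/-- The spontaneous magnetization `m_S(β)`, the right derivative of `p_β` at `h = 0`. -/
noncomputable def spontMag (n : ℕ) (β : ℝ) : ℝ :=
  derivWithin (pressure n β) (Set.Ici 0) 0

end Vale.Agent.P361
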