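import Vale.Agent.P361.Ham

/-!
P361: the partition function of a disjoint union of graphs factorizes.
-/

open scoped Matrix Topology
open Matrix Filter

namespace Vale.Agent.P361

section emb

variable {ι κ X : Type}

/-- The Kronecker product, indexed by configurations on the disjoint union. -/
def fac_emb (A : Matrix (ι → X) (ι → X) ℂ) (B : Matrix (κ → X) (κ → X) ℂ) :
    Matrix (ι ⊕ κ → X) (ι ⊕ κ → X) ℂ :=
  Matrix.of fun σ τ => A (σ ∘ Sum.inl) (τ ∘ Sum.inl) * B (σ ∘ Sum.inr) (τ ∘ Sum.inr)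

lemma fac_add_left (A A' : Matrix (ι → X) (ι → X) ℂ) (B : Matrix (κ → X) (κ → X) ℂ) :
    fac_emb (A + A') B = fac_emb A B + fac_emb A' B := by
  ext σ τ
  simp [fac_emb, add_mul]

lemma fac_add_right (A : Matrix (ι → X) (ι → X) ℂ) (B B' : Matrix (κ → X) (κ → X) ℂ) :
    fac_emb A (B + B') = fac_emb A B + fac_emb A B' := by
  ext σ τ
  simp [fac_emb, mul_add]

lemma fac_smul_left (c : ℂ) (A : Matrix (ι → X) (ι → X) ℂ) (B : Matrix (κ → X) (κ → X) ℂ) :
    fac_emb (c • A) B = c • fac_emb A B := by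
  ext σ τ
  simp [fac_emb, mul_assoc]

lemma fac_smul_right (c : ℂ) (A : Matrix (ι → X) (ι → X) ℂ) (B : Matrix (κ → X) (κ → X) ℂ) :
    fac_emb A (c • B) = c • fac_emb A B := by
  ext σ τ
  simp [fac_emb, mul_left_comm]

/-- The left slot as a linear map. -/
def fac_L (B : Matrix (κ → X) (κ → X) ℂ) :
    Matrix (ι → X) (ι → X) ℂ →ₗ[ℂ] Matrix (ι ⊕ κ → X) (ι ⊕ κ → X) ℂ where
  toFun A := fac_emb A B
  map_add' A A' := fac_add_left A A' B
  map_smul' c A := fac_smul_left c A B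

/-- The right slot as a linear map. -/
def fac_R (A : Matrix (ι → X) (ι → X) ℂ) :
    Matrix (κ → X) (κ → X) ℂ →ₗ[ℂ] Matrix (ι ⊕ κ → X) (ι ⊕ κ → X) ℂ where
  toFun B := fac_emb A B
  map_add' B B' := fac_add_right A B B'
  map_smul' c B := fac_smul_right c A B

lemma fac_star (A : Matrix (ι → X) (ι → X) ℂ) (B : Matrix (κ → X) (κ → X) ℂ) :
    (fac_emb A B)ᴴ = fac_emb Aᴴ Bᴴ := by
  ext σ τ
  simp [fac_emb]

variable [Fintype ι] [DecidableEq ι] [Fintype κ] [DecidableEq κ] [Fintype X]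

lemma fac_sum {R : Type} [CommSemiring R] (f : (ι → X) → R) (g : (κ → X) → R) :
    ∑ σ : ι ⊕ κ → X, f (σ ∘ Sum.inl) * g (σ ∘ Sum.inr) = (∑ a, f a) * ∑ b, g b := by
  rw [← Equiv.sum_comp (Equiv.sumArrowEquivProdArrow ι κ X).symm, Fintype.sum_prod_type,
    Finset.sum_mul_sum]
  rfl

lemma fac_mul (A A' : Matrix (ι → X) (ι → X) ℂ) (B B' : Matrix (κ → X) (κ → X) ℂ) :
    fac_emb A B * fac_emb A' B' = fac_emb (A * A') (B * B') := by
  ext σ τ
  simp only [fac_emb, Matrix.mul_apply, Matrix.of_apply]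
  rw [← fac_sum]
  exact Finset.sum_congr rfl fun ρ _ => by ring

variable [DecidableEq X]

omit [DecidableEq ι] [DecidableEq κ] [Fintype X] in
lemma fac_diag (a : (ι → X) → ℂ) (b : (κ → X) → ℂ) :
    fac_emb (diagonal a) (diagonal b) =
      diagonal fun σ : ι ⊕ κ → X => a (σ ∘ Sum.inl) * b (σ ∘ Sum.inr) := by
  ext σ τ
  simp only [fac_emb, Matrix.of_apply, diagonal_apply]
  by_cases h : σ = τ
  · simp [h]
  · rw [if_neg h]
    by_cases h1 : σ ∘ Sum.inl = τ ∘ Sum.inl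
    · have h2 : ¬ σ ∘ Sum.inr = τ ∘ Sum.inr := fun h2 => h (funext fun x => by
        cases x with
        | inl x => exact congrFun h1 x
        | inr x => exact congrFun h2 x)
      rw [if_neg h2, mul_zero]
    · rw [if_neg h1, zero_mul]

omit [DecidableEq ι] [DecidableEq κ] [Fintype X] in
lemma fac_one : fac_emb (1 : Matrix (ι → X) (ι → X) ℂ) (1 : Matrix (κ → X) (κ → X) ℂ) = 1 := by
  rw [← diagonal_one, ← diagonal_one, fac_diag, ← diagonal_one]
  simp

omit [DecidableEq ι] [DecidableEq κ] [Fintype X] [DecidableEq X] in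
lemma fac_tens (f : ι ⊕ κ → Matrix X X ℂ) :
    tens f = fac_emb (tens fun x => f (Sum.inl x)) (tens fun y => f (Sum.inr y)) := by
  ext σ τ
  simp [fac_emb, tens, Fintype.prod_sum_type]

omit [Fintype X] in
lemma fac_site_inl (x : ι) (A : Matrix X X ℂ) :
    siteOp (Sum.inl x : ι ⊕ κ) A = fac_emb (siteOp x A) 1 := by
  rw [siteOp_eq_tens, siteOp_eq_tens, fac_tens, ← tens_one]
  simp

omit [Fintype X] in
lemma fac_site_inr (y : κ) (A : Matrix X X ℂ) :
    siteOp (Sum.inr y : ι ⊕ κ) A = fac_emb 1 (siteOp y A) := by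
  rw [siteOp_eq_tens, siteOp_eq_tens, fac_tens, ← tens_one]
  simp

lemma fac_dec (U : Matrix (ι → X) (ι → X) ℂ) (V : Matrix (κ → X) (κ → X) ℂ) (a : (ι → X) → ℝ)
    (b : (κ → X) → ℝ) : fac_emb (dec U a) (dec V b) =
      dec (fac_emb U V) fun σ => a (σ ∘ Sum.inl) * b (σ ∘ Sum.inr) := by
  unfold dec
  rw [← fac_mul, ← fac_mul, fac_star, fac_diag]
  simp only [Complex.ofReal_mul]

end emb

lemma fac_dec_add {m : Type} [Fintype m] [DecidableEq m] (U : Matrix m m ℂ) (a b : m → ℝ) :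
    dec U a + dec U b = dec U fun i => a i + b i := by
  unfold dec
  rw [← Matrix.add_mul, ← Matrix.mul_add, diagonal_add]
  simp only [Complex.ofReal_add]

section graph

variable {ι κ : Type} [Fintype ι] [DecidableEq ι] [Fintype κ] [DecidableEq κ] (n : ℕ)

lemma fac_sdot_inl (x y : ι) :
    sdot n (Sum.inl x : ι ⊕ κ) (Sum.inl y) = fac_L 1 (sdot n x y) := by
  unfold sdot
  rw [map_sum]
  refine Finset.sum_congr rfl fun a _ => ?_
  rw [fac_site_inl, fac_site_inl, fac_mul, Matrix.mul_one]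
  rfl

lemma fac_sdot_inr (x y : κ) :
    sdot n (Sum.inr x : ι ⊕ κ) (Sum.inr y) = fac_R 1 (sdot n x y) := by
  unfold sdot
  rw [map_sum]
  refine Finset.sum_congr rfl fun a _ => ?_
  rw [fac_site_inr, fac_site_inr, fac_mul, Matrix.mul_one]
  rfl

lemma fac_mag : magG n (ι ⊕ κ) = fac_L 1 (magG n ι) + fac_R 1 (magG n κ) := by
  unfold magG
  rw [Fintype.sum_sum_type, map_sum, map_sum]
  simp only [fac_site_inl, fac_site_inr]
  rfl

variable (a₁ : ι → ι → Prop) (a₂ : κ → κ → Prop) [DecidableRel a₁] [DecidableRel a₂]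

lemma fac_ham :
    hamG n (Sum.LiftRel a₁ a₂) = fac_L 1 (hamG n a₁) + fac_R 1 (hamG n a₂) := by
  unfold hamG
  simp only [Fintype.sum_sum_type, Sum.liftRel_inl_inl, Sum.liftRel_inr_inr,
    Sum.not_liftRel_inl_inr, Sum.not_liftRel_inr_inl, if_false, Finset.sum_const_zero, add_zero,
    zero_add, map_neg, map_smul, map_sum, fac_sdot_inl, fac_sdot_inr, smul_add, neg_add,
    apply_ite (fac_L (ι := ι) (κ := κ) (X := Fin (n + 1)) 1),
    apply_ite (fac_R (ι := ι) (κ := κ) (X := Fin (n + 1)) 1), map_zero]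

lemma fac_gen (β h : ℝ) :
    gen n (Sum.LiftRel a₁ a₂) β h = fac_emb (gen n a₁ β h) 1 + fac_emb 1 (gen n a₂ β h) := by
  change _ = fac_L 1 (gen n a₁ β h) + fac_R 1 (gen n a₂ β h)
  unfold gen
  rw [fac_ham, fac_mag]
  simp only [map_smul, map_sub]
  module

end graph

theorem gib_gen_sum {ι κ : Type} [Fintype ι] [DecidableEq ι] [Fintype κ] [DecidableEq κ] (n : ℕ)
    (a₁ : ι → ι → Prop) (a₂ : κ → κ → Prop) [DecidableRel a₁] [DecidableRel a₂]
    (h₁ : ∀ x y, a₁ x y → x ≠ y) (h₂ : ∀ x y, a₂ x y → x ≠ y) (β h : ℝ) :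
    gib (gen n (Sum.LiftRel a₁ a₂) β h) 1 = gib (gen n a₁ β h) 1 * gib (gen n a₂ β h) 1 := by
  obtain ⟨U, E₁, u1, u2, e1, -⟩ := exists_spec (gen_herm (n := n) h₁ β h)
  obtain ⟨V, E₂, v1, v2, e2, -⟩ := exists_spec (gen_herm (n := n) h₂ β h)
  have w1 : fac_emb U V * (fac_emb U V)ᴴ = 1 := by rw [fac_star, fac_mul, u1, v1, fac_one]
  have w2 : (fac_emb U V)ᴴ * fac_emb U V = 1 := by rw [fac_star, fac_mul, u2, v2, fac_one]
  have k1 : fac_emb (dec U E₁) (1 : Matrix (κ → Fin (n + 1)) _ ℂ) =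
      dec (fac_emb U V) fun σ => E₁ (σ ∘ Sum.inl) * 1 := by
    rw [← dec_one v1, fac_dec]
  have k2 : fac_emb (1 : Matrix (ι → Fin (n + 1)) _ ℂ) (dec V E₂) =
      dec (fac_emb U V) fun σ => 1 * E₂ (σ ∘ Sum.inr) := by
    rw [← dec_one u1, fac_dec]
  rw [fac_gen, e1, e2, k1, k2, fac_dec_add, gib_dec_one w1 w2, gib_dec_one u1 u2,
    gib_dec_one v1 v2, ← fac_sum]
  refine Finset.sum_congr rfl fun σ _ => ?_
  rw [← Real.exp_add, mul_one, one_mul, neg_add]

end Vale.Agent.P361
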