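import Vale.Agent.P361.Defs

/-! P361: the thermodynamic limit of subadditive functions along boxes. -/

open scoped Matrix Topology
open Matrix Filter

namespace Vale.Agent.P361

theorem fk_card (N : ℕ) : (box N).card = (2 * N + 1) ^ 3 := by
  have h : ((N : ℤ) + 1 - -(N : ℤ)).toNat = 2 * N + 1 := by omega
  simp only [box, Fintype.card_piFinset, Int.card_Icc, h, Finset.prod_const, Finset.card_univ,
    Fintype.card_fin]

theorem fk_mem {N : ℕ} {x : Fin 3 → ℤ} : x ∈ box N ↔ ∀ i, -(N : ℤ) ≤ x i ∧ x i ≤ N := by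
  simp only [box, Fintype.mem_piFinset, Finset.mem_Icc]

theorem fk_union {F : Finset (Fin 3 → ℤ) → ℝ} (h0 : F ∅ ≤ 0)
    (hsub : ∀ A B, Disjoint A B → F (A ∪ B) ≤ F A + F B) (c : (Fin 3 → ℤ) → Finset (Fin 3 → ℤ))
    (hc : ∀ s t, s ≠ t → Disjoint (c s) (c t)) (T : Finset (Fin 3 → ℤ)) :
    F (T.biUnion c) ≤ ∑ t ∈ T, F (c t) := by
  induction T using Finset.induction_on with
  | empty => simpa using h0
  | insert s T hs ih =>
    rw [Finset.biUnion_insert, Finset.sum_insert hs]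
    refine (hsub _ _ ((Finset.disjoint_biUnion_right _ _ _).2 fun t ht => hc s t ?_)).trans
      (by linarith)
    rintro rfl
    exact hs ht

/-- the cells of a tiling of the box of size `N` by boxes of size `M` -/
noncomputable def fk_cell (M N : ℕ) (t : Fin 3 → ℤ) : Finset (Fin 3 → ℤ) :=
  (box M).image fun x => x + fun i => -(N : ℤ) + M + (2 * M + 1) * t i

theorem fk_cell_mem {M N : ℕ} {t z : Fin 3 → ℤ} (h : z ∈ fk_cell M N t) (i : Fin 3) :
    (2 * M + 1) * t i ≤ z i + N ∧ z i + N < (2 * M + 1) * (t i + 1) := by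
  obtain ⟨x, hx, rfl⟩ := Finset.mem_image.1 h
  have h1 := fk_mem.1 hx i
  simp only [Pi.add_apply]
  constructor <;> linarith [h1.1, h1.2]

theorem fk_disj (M N : ℕ) (s t : Fin 3 → ℤ) (h : s ≠ t) :
    Disjoint (fk_cell M N s) (fk_cell M N t) := by
  refine Finset.disjoint_left.2 fun z h1 h2 => h (funext fun i => ?_)
  have k1 := fk_cell_mem h1 i
  have k2 := fk_cell_mem h2 i
  have k0 : (0 : ℤ) ≤ 2 * M + 1 := by positivity
  exact le_antisymm (Int.lt_add_one_iff.1 (lt_of_mul_lt_mul_left (k1.1.trans_lt k2.2) k0))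
    (Int.lt_add_one_iff.1 (lt_of_mul_lt_mul_left (k2.1.trans_lt k1.2) k0))

theorem fk_tile {F : Finset (Fin 3 → ℤ) → ℝ} {C : ℝ}
    (hsub : ∀ A B, Disjoint A B → F (A ∪ B) ≤ F A + F B)
    (htr : ∀ (A : Finset (Fin 3 → ℤ)) (a : Fin 3 → ℤ), F (A.image fun x => x + a) = F A)
    (hbd : ∀ A, |F A| ≤ C * (A.card : ℝ)) (M N q : ℕ) (hq : (2 * M + 1) * q ≤ 2 * N + 1) :
    F (box N) ≤ (q : ℝ) ^ 3 * F (box M) +
      C * ((2 * N + 1) ^ 3 - ((2 * M + 1) * q : ℝ) ^ 3) := by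
  obtain ⟨T, hT⟩ : ∃ T : Finset (Fin 3 → ℤ), T = Fintype.piFinset fun _ => Finset.Ico (0 : ℤ) q :=
    ⟨_, rfl⟩
  have h1 : T.card = q ^ 3 := by simp [hT]
  have h2 : T.biUnion (fk_cell M N) ⊆ box N := by
    refine Finset.biUnion_subset.2 fun t ht z hz => fk_mem.2 fun i => ?_
    have k1 := fk_cell_mem hz i
    rw [hT, Fintype.mem_piFinset] at ht
    have k2 := Finset.mem_Ico.1 (ht i)
    have k0 : (0 : ℤ) ≤ 2 * M + 1 := by positivity
    have k3 := mul_nonneg k0 k2.1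
    have k4 := mul_le_mul_of_nonneg_left (Int.add_one_le_iff.2 k2.2) k0
    have k5 : (2 * M + 1 : ℤ) * q ≤ 2 * N + 1 := by exact_mod_cast hq
    constructor <;> linarith [k1.1, k1.2]
  have h3 : (T.biUnion (fk_cell M N)).card = q ^ 3 * (2 * M + 1) ^ 3 := by
    rw [Finset.card_biUnion fun s _ t _ h => fk_disj M N s t h, ← h1, ← smul_eq_mul,
      ← Finset.sum_const]
    refine Finset.sum_congr rfl fun t _ => ?_
    rw [fk_cell, Finset.card_image_of_injective _ (add_left_injective _), fk_card]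
  have h4 := fk_union (by simpa using (abs_le.1 (hbd ∅)).2) hsub _ (fk_disj M N) T
  simp only [fk_cell, htr, Finset.sum_const, h1, nsmul_eq_mul] at h4
  have h5 := hsub _ _ (Finset.disjoint_sdiff (s := T.biUnion (fk_cell M N)) (t := box N))
  rw [Finset.union_sdiff_of_subset h2] at h5
  have h6 := (abs_le.1 (hbd (box N \ T.biUnion (fk_cell M N)))).2
  rw [Finset.card_sdiff_of_subset h2, Nat.cast_sub (Finset.card_le_card h2), h3, fk_card] at h6
  push_cast at h4 h6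
  have h7 : ((2 * M + 1) * q : ℝ) ^ 3 = q ^ 3 * (2 * M + 1) ^ 3 := by ring
  rw [h7]
  exact h5.trans (add_le_add h4 h6)

theorem fk_le {F : Finset (Fin 3 → ℤ) → ℝ} {C : ℝ}
    (hsub : ∀ A B, Disjoint A B → F (A ∪ B) ≤ F A + F B)
    (htr : ∀ (A : Finset (Fin 3 → ℤ)) (a : Fin 3 → ℤ), F (A.image fun x => x + a) = F A)
    (hbd : ∀ A, |F A| ≤ C * (A.card : ℝ)) (M N : ℕ) :
    F (box N) / ((box N).card : ℝ) ≤
      F (box M) / ((box M).card : ℝ) + 6 * C * (2 * M + 1) / (2 * N + 1) := by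
  have h1 := fk_tile hsub htr hbd M N ((2 * N + 1) / (2 * M + 1)) (Nat.mul_div_le _ _)
  have h2 : (2 * M + 1 : ℝ) * ((2 * N + 1) / (2 * M + 1) : ℕ) ≤ 2 * N + 1 := by
    exact_mod_cast Nat.mul_div_le (2 * N + 1) (2 * M + 1)
  have h3 : (2 * N + 1 : ℝ) ≤ (2 * M + 1 : ℝ) * ((2 * N + 1) / (2 * M + 1) : ℕ) + (2 * M + 1) := by
    exact_mod_cast (Nat.lt_mul_div_succ (2 * N + 1) (Nat.succ_pos (2 * M))).le
  have h4 := abs_le.1 (hbd (box M))
  rw [fk_card] at h4
  rw [fk_card, fk_card]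
  push_cast at h4 ⊢
  generalize ((2 * N + 1) / (2 * M + 1) : ℕ) = q at h1 h2 h3
  have hl : (0 : ℝ) < 2 * M + 1 := by positivity
  have hL : (0 : ℝ) < 2 * N + 1 := by positivity
  generalize (2 * M + 1 : ℝ) = l at *
  generalize (2 * N + 1 : ℝ) = L at *
  obtain ⟨a, ha⟩ : ∃ a, F (box M) = a * l ^ 3 := ⟨F (box M) / l ^ 3, by field_simp⟩
  rw [ha] at h1 h4 ⊢
  have k0 : 0 < l ^ 3 := by positivity
  have k1 : -C ≤ a := le_of_mul_le_mul_right (by linarith [h4.1]) k0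
  have k2 : a ≤ C := le_of_mul_le_mul_right h4.2 k0
  have k3 : 0 ≤ l * q := by positivity
  have k4 : (q : ℝ) ^ 3 * (a * l ^ 3) = a * (l * q) ^ 3 := by ring
  rw [k4] at h1
  generalize l * q = y at *
  have k5 : 0 ≤ L ^ 3 - y ^ 3 := sub_nonneg.2 (pow_le_pow_left₀ k3 h2 3)
  have k6 : L ^ 3 - y ^ 3 ≤ l * (3 * L ^ 2) := by
    have e : L ^ 3 - y ^ 3 = (L - y) * (L ^ 2 + L * y + y ^ 2) := by ring
    rw [e]
    exact mul_le_mul (by linarith) (by nlinarith) (by positivity) hl.le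
  have k7 : a * l ^ 3 / l ^ 3 + 6 * C * l / L = (a * L ^ 3 + 2 * C * (l * (3 * L ^ 2))) / L ^ 3 := by
    field_simp
    ring
  rw [k7]
  refine div_le_div_of_nonneg_right ?_ (by positivity)
  nlinarith [mul_le_mul_of_nonneg_left k6 (by linarith : 0 ≤ 2 * C),
    mul_nonneg k5 (by linarith : 0 ≤ C + a)]

theorem limit_of_subadd (F : Finset (Fin 3 → ℤ) → ℝ) (C : ℝ)
    (hsub : ∀ A B, Disjoint A B → F (A ∪ B) ≤ F A + F B)
    (htr : ∀ (A : Finset (Fin 3 → ℤ)) (a : Fin 3 → ℤ), F (A.image fun x => x + a) = F A)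
    (hbd : ∀ A, |F A| ≤ C * (A.card : ℝ)) :
    ∃ l : ℝ, Tendsto (fun N : ℕ => F (box N) / ((box N).card : ℝ)) atTop (𝓝 l) := by
  have h1 : BddBelow (Set.range fun N : ℕ => F (box N) / ((box N).card : ℝ)) := by
    refine ⟨-C, ?_⟩
    rintro _ ⟨N, rfl⟩
    have k : (0 : ℝ) < (box N).card := by
      rw [fk_card]
      positivity
    beta_reduce
    rw [le_div_iff₀ k]
    linarith [(abs_le.1 (hbd (box N))).1]
  refine ⟨⨅ N : ℕ, F (box N) / ((box N).card : ℝ), tendsto_order.2 ⟨fun a ha =>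
    Eventually.of_forall fun N => ha.trans_le (ciInf_le h1 N), fun a ha => ?_⟩⟩
  obtain ⟨M, hM⟩ := exists_lt_of_ciInf_lt ha
  have h2 : Tendsto (fun N : ℕ => (2 * N + 1 : ℝ)) atTop atTop :=
    tendsto_atTop_add_const_right _ _ (tendsto_natCast_atTop_atTop.const_mul_atTop two_pos)
  have h3 := (h2.const_div_atTop (6 * C * (2 * M + 1))).const_add (F (box M) / ((box M).card : ℝ))
  rw [add_zero] at h3
  exact (h3.eventually (eventually_lt_nhds hM)).mono fun N hN =>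
    (fk_le hsub htr hbd M N).trans_lt hN

end Vale.Agent.P361
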