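import Mathlib

open scoped Matrix Topology
open Matrix Filter

namespace Vale.Agent.P361

theorem gau_even (f : ℝ → ℝ) (hf : ∀ x, f (-x) = f x) (N : ℕ) :
    ∑ k ∈ Finset.Icc (-(N : ℤ)) (N : ℤ), f k = 2 * ∑ k ∈ Finset.range (N + 1), f k - f 0 := by
  induction N with
  | zero => simp; ring
  | succ N ih =>
    have e : Finset.Icc (-((N + 1 : ℕ) : ℤ)) ((N + 1 : ℕ) : ℤ) =
        insert (-((N + 1 : ℕ) : ℤ)) (insert ((N + 1 : ℕ) : ℤ) (Finset.Icc (-(N : ℤ)) (N : ℤ))) := by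
      ext k
      simp only [Finset.mem_Icc, Finset.mem_insert]
      omega
    rw [e, Finset.sum_insert (by simp only [Finset.mem_Icc, Finset.mem_insert]; omega),
      Finset.sum_insert (by simp only [Finset.mem_Icc]; omega), ih, Finset.sum_range_succ _ (N + 1),
      Int.cast_neg, hf, Int.cast_natCast]
    ring

theorem gau_tail {b c T : ℝ} (hb : 0 < b) (hc : 0 < c) (hT : c ≤ T) :
    ∫ x in Set.Ioi T, Real.exp (-b * x ^ 2) ≤ 1 / (b * c) := by
  have hbc : -(b * c) < 0 := neg_lt_zero.2 (mul_pos hb hc)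
  refine (MeasureTheory.setIntegral_mono_on (integrable_exp_neg_mul_sq hb).integrableOn
    (integrableOn_exp_mul_Ioi hbc T) measurableSet_Ioi fun x hx => ?_).trans ?_
  · have hx' : c ≤ x := hT.trans (le_of_lt hx)
    refine Real.exp_le_exp.2 ?_
    nlinarith [mul_nonneg (mul_nonneg hb.le (hc.le.trans hx')) (sub_nonneg.2 hx')]
  · rw [integral_exp_mul_Ioi hbc, neg_div_neg_eq]
    refine div_le_div_of_nonneg_right (Real.exp_le_one_iff.2 ?_) (mul_pos hb hc).le
    exact mul_nonpos_of_nonpos_of_nonneg hbc.le (hc.le.trans hT)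

theorem gau_sum {b c : ℝ} (hb : 0 < b) (hc : 0 < c) (N : ℕ) (hN : c ≤ (N + 1 : ℕ)) :
    Real.sqrt (Real.pi / b) - 2 / (b * c) - 1 ≤
      ∑ k ∈ Finset.Icc (-(N : ℤ)) (N : ℤ), Real.exp (-b * (k : ℝ) ^ 2) := by
  rw [gau_even (fun x => Real.exp (-b * x ^ 2)) (fun x => by rw [neg_sq]) N]
  have h1 : AntitoneOn (fun x : ℝ => Real.exp (-b * x ^ 2)) (Set.Icc 0 (0 + (N + 1 : ℕ))) := by
    intro x hx y _ hxy
    refine Real.exp_le_exp.2 ?_
    have := pow_le_pow_left₀ hx.1 hxy 2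
    nlinarith
  have h2 := h1.integral_le_sum
  simp only [zero_add] at h2
  have hi := (integrable_exp_neg_mul_sq hb)
  have h3 := intervalIntegral.integral_interval_add_Ioi (a := 0) (b := ((N + 1 : ℕ) : ℝ))
    hi.integrableOn hi.integrableOn
  rw [integral_gaussian_Ioi] at h3
  have h4 := gau_tail hb hc hN
  have h5 : 2 / (b * c) = 2 * (1 / (b * c)) := by ring
  have h6 : Real.exp (-b * 0 ^ 2) = 1 := by simp
  simp only [h6]
  linarith

theorem gauss_sum_ge {a : ℝ} (ha : 0 < a) (N : ℕ) :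
    1 / (2 * Real.sqrt (Real.pi * a)) - 1 / (Real.pi ^ 2 * a) - 1 / (2 * (N : ℝ) + 1) ≤
      (∑ k ∈ Finset.Icc (-(N : ℤ)) (N : ℤ),
        Real.exp (-(a * (2 * Real.pi * (k : ℝ) / (2 * (N : ℝ) + 1)) ^ 2))) / (2 * (N : ℝ) + 1) := by
  have hL : (0 : ℝ) < 2 * (N : ℝ) + 1 := by positivity
  have hπ := Real.pi_pos
  have hN : (2 * (N : ℝ) + 1) / 2 ≤ (N + 1 : ℕ) := by push_cast; linarith
  generalize 2 * (N : ℝ) + 1 = L at *
  have h := gau_sum (b := a * (2 * Real.pi / L) ^ 2) (by positivity) (by positivity) N hN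
  have e1 : ∀ k : ℤ, -(a * (2 * Real.pi / L) ^ 2) * (k : ℝ) ^ 2 =
      -(a * (2 * Real.pi * (k : ℝ) / L) ^ 2) := fun k => by ring
  have hs : 0 < Real.sqrt (Real.pi * a) := by positivity
  have e2 : Real.sqrt (Real.pi / (a * (2 * Real.pi / L) ^ 2)) =
      L / (2 * Real.sqrt (Real.pi * a)) := by
    rw [Real.sqrt_eq_iff_eq_sq (by positivity) (by positivity), div_pow L, mul_pow,
      Real.sq_sqrt (by positivity)]
    field_simp
  simp only [e1, e2] at h
  refine le_trans (le_of_eq ?_) (div_le_div_of_nonneg_right h hL.le)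
  field_simp

end Vale.Agent.P361
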