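import Mathlib

/-!
P361: abstract Gibbs-state inequalities for Hermitian matrices: positivity, the
Peierls–Bogoliubov inequality and the energy–entropy inequality.
-/

open scoped Matrix
open Matrix

namespace Vale.Agent.P361

variable {m : Type} [Fintype m] [DecidableEq m]

/-- `U diag(a) U*`. -/
noncomputable def dec (U : Matrix m m ℂ) (a : m → ℝ) : Matrix m m ℂ :=
  U * diagonal (fun i => (a i : ℂ)) * Uᴴ

/-- The unnormalised Gibbs expectation `Re Tr (e^{-K} X)`. -/
noncomputable def gib (K X : Matrix m m ℂ) : ℝ :=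
  (Matrix.trace (NormedSpace.exp (-K) * X)).re

lemma trace_dec_mul (U V A : Matrix m m ℂ) (a b : m → ℝ) :
    (Matrix.trace (dec U a * A * dec V b * Aᴴ)).re =
      ∑ i, ∑ j, a i * b j * Complex.normSq ((Uᴴ * A * V) i j) := by
  have h1 : Matrix.trace (dec U a * A * dec V b * Aᴴ) =
      Matrix.trace (diagonal (fun i => (a i : ℂ)) * (Uᴴ * A * V) * diagonal (fun i => (b i : ℂ)) *
        (Uᴴ * A * V)ᴴ) := by
    simp only [dec, conjTranspose_mul, conjTranspose_conjTranspose, Matrix.mul_assoc]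
    rw [Matrix.trace_mul_comm]
    simp only [Matrix.mul_assoc]
  rw [h1]
  generalize Uᴴ * A * V = B
  simp only [Matrix.trace, Matrix.diag, Matrix.mul_apply, conjTranspose_apply, diagonal_apply,
    ite_mul, mul_ite, zero_mul, mul_zero, Finset.sum_ite_eq, Finset.sum_ite_eq', Finset.mem_univ,
    if_true, Complex.re_sum]
  refine Finset.sum_congr rfl fun i _ => Finset.sum_congr rfl fun j _ => ?_
  have : (a i : ℂ) * B i j * (b j : ℂ) * star (B i j) =
      ((a i * b j * Complex.normSq (B i j) : ℝ) : ℂ) := by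
    push_cast
    rw [← Complex.mul_conj]
    simp only [Complex.star_def]
    ring
  rw [this, Complex.ofReal_re]

lemma dec_one {U : Matrix m m ℂ} (hU : U * Uᴴ = 1) : dec U (fun _ => 1) = 1 := by
  simp [dec, hU]

lemma dec_mul {U : Matrix m m ℂ} (hU : Uᴴ * U = 1) (a b : m → ℝ) :
    dec U a * dec U b = dec U (fun i => a i * b i) := by
  simp only [dec, Matrix.mul_assoc]
  rw [← Matrix.mul_assoc Uᴴ U, hU, Matrix.one_mul, ← Matrix.mul_assoc (diagonal _) (diagonal _),
    diagonal_mul_diagonal]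
  push_cast
  rfl

lemma exp_neg_dec {U : Matrix m m ℂ} (h1 : U * Uᴴ = 1) (E : m → ℝ) :
    NormedSpace.exp (-dec U E) = dec U (fun i => Real.exp (-E i)) := by
  have hinv : U⁻¹ = Uᴴ := Matrix.inv_eq_right_inv h1
  have hun : IsUnit U := (Matrix.isUnit_iff_isUnit_det _).2 (Matrix.isUnit_det_of_right_inverse h1)
  have h4 : -dec U E = U * diagonal (fun i => ((-E i : ℝ) : ℂ)) * U⁻¹ := by
    rw [hinv, dec]
    have : (diagonal fun i => ((-E i : ℝ) : ℂ)) = -diagonal (fun i => ((E i : ℝ) : ℂ)) := by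
      rw [diagonal_neg]
      push_cast
      rfl
    rw [this, Matrix.mul_neg, Matrix.neg_mul]
  rw [h4, Matrix.exp_conj _ _ hun, Matrix.exp_diagonal, hinv, dec]
  congr 3
  funext i
  rw [Pi.coe_exp, ← Complex.exp_eq_exp_ℂ, Complex.ofReal_exp]

lemma exists_spec {K : Matrix m m ℂ} (hK : K.IsHermitian) :
    ∃ (U : Matrix m m ℂ) (E : m → ℝ), U * Uᴴ = 1 ∧ Uᴴ * U = 1 ∧ K = dec U E ∧
      NormedSpace.exp (-K) = dec U (fun i => Real.exp (-E i)) := by
  have h1 : (hK.eigenvectorUnitary : Matrix m m ℂ) * (hK.eigenvectorUnitary : Matrix m m ℂ)ᴴ = 1 := by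
    have := Unitary.coe_mul_star_self hK.eigenvectorUnitary
    simpa [star_eq_conjTranspose] using this
  have h2 : (hK.eigenvectorUnitary : Matrix m m ℂ)ᴴ * (hK.eigenvectorUnitary : Matrix m m ℂ) = 1 := by
    have := Unitary.coe_star_mul_self hK.eigenvectorUnitary
    simpa [star_eq_conjTranspose] using this
  have h3 : K = dec (hK.eigenvectorUnitary : Matrix m m ℂ) hK.eigenvalues := by
    have := hK.spectral_theorem
    rw [Unitary.conjStarAlgAut_apply] at this
    simpa [dec, star_eq_conjTranspose, Function.comp_def] using this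
  refine ⟨_, hK.eigenvalues, h1, h2, h3, ?_⟩
  rw [← exp_neg_dec h1, ← h3]

lemma gib_add (K X Y : Matrix m m ℂ) : gib K (X + Y) = gib K X + gib K Y := by
  simp [gib, Matrix.mul_add]

lemma gib_sub (K X Y : Matrix m m ℂ) : gib K (X - Y) = gib K X - gib K Y := by
  simp [gib, Matrix.mul_sub]

lemma gib_neg (K X : Matrix m m ℂ) : gib K (-X) = -gib K X := by
  simp [gib]

lemma gib_zero (K : Matrix m m ℂ) : gib K 0 = 0 := by
  simp [gib]

lemma gib_smul (K X : Matrix m m ℂ) (c : ℝ) : gib K ((c : ℂ) • X) = c * gib K X := by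
  simp [gib]

lemma gib_sum {ι : Type} (K : Matrix m m ℂ) (s : Finset ι) (X : ι → Matrix m m ℂ) :
    gib K (∑ i ∈ s, X i) = ∑ i ∈ s, gib K (X i) := by
  simp [gib, Matrix.mul_sum, Matrix.trace_sum]

lemma gib_nonneg {K : Matrix m m ℂ} (hK : K.IsHermitian) (B : Matrix m m ℂ) :
    0 ≤ gib K (B * Bᴴ) := by
  obtain ⟨U, E, h1, h2, -, h4⟩ := exists_spec hK
  have := trace_dec_mul U U B (fun i => Real.exp (-E i)) (fun _ => 1)
  rw [dec_one h1, Matrix.mul_one, Matrix.mul_assoc] at this
  rw [gib, h4, this]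
  exact Finset.sum_nonneg fun i _ => Finset.sum_nonneg fun j _ =>
    mul_nonneg (mul_nonneg (Real.exp_pos _).le zero_le_one) (Complex.normSq_nonneg _)

lemma gib_nonneg' {K : Matrix m m ℂ} (hK : K.IsHermitian) (B : Matrix m m ℂ) :
    0 ≤ gib K (Bᴴ * B) := by
  simpa using gib_nonneg hK Bᴴ

lemma gib_diag_nonneg {K : Matrix m m ℂ} (hK : K.IsHermitian) (d : m → ℝ) (hd : ∀ i, 0 ≤ d i) :
    0 ≤ gib K (diagonal fun i => (d i : ℂ)) := by
  have := gib_nonneg hK (diagonal fun i => ((Real.sqrt (d i) : ℝ) : ℂ))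
  rw [diagonal_conjTranspose, diagonal_mul_diagonal] at this
  have h2 : (fun i => ((Real.sqrt (d i) : ℝ) : ℂ) * star (fun i => ((Real.sqrt (d i) : ℝ) : ℂ)) i) =
      fun i => (d i : ℂ) := by
    funext i
    simp only [Pi.star_apply, Complex.star_def, Complex.conj_ofReal]
    rw [← Complex.ofReal_mul, Real.mul_self_sqrt (hd i)]
  rwa [h2] at this

omit [Fintype m] in
lemma normSq_one_apply (i j : m) :
    Complex.normSq ((1 : Matrix m m ℂ) i j) = if i = j then 1 else 0 := by
  rw [Matrix.one_apply]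
  split_ifs <;> simp

lemma gib_one_eq {K U : Matrix m m ℂ} {E : m → ℝ} (h1 : U * Uᴴ = 1) (h2 : Uᴴ * U = 1)
    (h4 : NormedSpace.exp (-K) = dec U (fun i => Real.exp (-E i))) :
    gib K 1 = ∑ i, Real.exp (-E i) := by
  have := trace_dec_mul U U 1 (fun i => Real.exp (-E i)) (fun _ => 1)
  rw [dec_one h1, Matrix.mul_one, Matrix.mul_one, conjTranspose_one, Matrix.mul_one Uᴴ, h2] at this
  rw [gib, h4, this]
  simp [normSq_one_apply]

lemma gib_dec_one {U : Matrix m m ℂ} (h1 : U * Uᴴ = 1) (h2 : Uᴴ * U = 1) (E : m → ℝ) :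
    gib (dec U E) 1 = ∑ i, Real.exp (-E i) :=
  gib_one_eq h1 h2 (exp_neg_dec h1 E)

lemma gib_one_pos [Nonempty m] {K : Matrix m m ℂ} (hK : K.IsHermitian) : 0 < gib K 1 := by
  obtain ⟨U, E, h1, h2, -, h4⟩ := exists_spec hK
  rw [gib_one_eq h1 h2 h4]
  exact Finset.sum_pos (fun i _ => Real.exp_pos _) Finset.univ_nonempty

/-- The Peierls–Bogoliubov inequality. -/
lemma peierls_bogoliubov [Nonempty m] {K W : Matrix m m ℂ} (hK : K.IsHermitian)
    (hW : W.IsHermitian) :
    Real.log (gib K 1) - gib K W / gib K 1 ≤ Real.log (gib (K + W) 1) := by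
  have hZ := gib_one_pos hK
  have hZ' := gib_one_pos (hK.add hW)
  obtain ⟨U, E, h1, h2, h3, h4⟩ := exists_spec hK
  obtain ⟨V, F, g1, g2, g3, g4⟩ := exists_spec (hK.add hW)
  set w := gib K W / gib K 1 with hw
  set t : m → m → ℝ := fun i j => Complex.normSq ((Uᴴ * (1 : Matrix m m ℂ) * V) i j) with ht
  have ht0 : ∀ i j, 0 ≤ t i j := fun i j => Complex.normSq_nonneg _
  have e1 : gib (K + W) 1 = ∑ i, ∑ j, 1 * Real.exp (-F j) * t i j := by
    have := trace_dec_mul U V 1 (fun _ => 1) (fun j => Real.exp (-F j))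
    rw [dec_one h1, Matrix.mul_one, Matrix.one_mul, conjTranspose_one] at this
    rw [gib, g4, this]
  have e2 : gib K 1 = ∑ i, ∑ j, Real.exp (-E i) * 1 * t i j := by
    have := trace_dec_mul U V 1 (fun i => Real.exp (-E i)) (fun _ => 1)
    rw [dec_one g1, Matrix.mul_one, Matrix.mul_one, conjTranspose_one] at this
    rw [gib, h4, this]
  have e3 : gib K (K + W) = ∑ i, ∑ j, Real.exp (-E i) * F j * t i j := by
    have := trace_dec_mul U V 1 (fun i => Real.exp (-E i)) F
    rw [Matrix.mul_one, conjTranspose_one, Matrix.mul_one, ← g3] at this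
    rw [gib, h4, this]
  have e4 : gib K K = ∑ i, ∑ j, Real.exp (-E i) * E i * 1 * t i j := by
    have := trace_dec_mul U V 1 (fun i => Real.exp (-E i) * E i) (fun _ => 1)
    rw [dec_one g1, Matrix.mul_one, Matrix.mul_one, conjTranspose_one, Matrix.mul_one,
      ← dec_mul h2, ← h3] at this
    rw [gib, h4, this]
  have key : Real.exp (-w) * ((1 + w) * gib K 1 + gib K K - gib K (K + W)) ≤ gib (K + W) 1 := by
    rw [e1, e2, e3, e4]
    simp only [Finset.mul_sum, ← Finset.sum_add_distrib, ← Finset.sum_sub_distrib]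
    refine Finset.sum_le_sum fun i _ => Finset.sum_le_sum fun j _ => ?_
    have h5 : Real.exp (-w) * Real.exp (-E i) * (1 + w + E i - F j) ≤ Real.exp (-F j) := by
      have h6 := Real.add_one_le_exp (w + E i - F j)
      have h7 : Real.exp (-F j) = Real.exp (-w) * Real.exp (-E i) * Real.exp (w + E i - F j) := by
        rw [← Real.exp_add, ← Real.exp_add]
        congr 1
        ring
      rw [h7]
      exact mul_le_mul_of_nonneg_left (by linarith) (by positivity)
    have := mul_le_mul_of_nonneg_right h5 (ht0 i j)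
    nlinarith
  have e5 : (1 + w) * gib K 1 + gib K K - gib K (K + W) = gib K 1 := by
    rw [gib_add, hw]
    field_simp
    ring
  rw [e5] at key
  have := Real.log_le_log (by positivity) key
  rw [Real.log_mul (Real.exp_pos _).ne' hZ.ne', Real.log_exp] at this
  linarith

/-- The energy–entropy inequality, in the form used below. -/
lemma energy_entropy {K : Matrix m m ℂ} (hK : K.IsHermitian) (A : Matrix m m ℂ) (c : ℝ)
    (hw : 0 < gib K (Aᴴ * A - A * Aᴴ))
    (hD : gib K (Aᴴ * (K * A - A * K) - (K * A - A * K) * Aᴴ) ≤ c * gib K (Aᴴ * A - A * Aᴴ)) :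
    gib K (Aᴴ * A - A * Aᴴ) ≤ gib K (A * Aᴴ) * (Real.exp c - 1) := by
  obtain ⟨U, E, h1, h2, h3, h4⟩ := exists_spec hK
  set p : m → ℝ := fun i => Real.exp (-E i) with hp
  set t : m → m → ℝ := fun i j => Complex.normSq ((Uᴴ * A * U) i j) with ht
  have ht0 : ∀ i j, 0 ≤ t i j := fun i j => Complex.normSq_nonneg _
  have e1 : gib K (Aᴴ * A) = ∑ i, ∑ j, 1 * p j * t i j := by
    have := trace_dec_mul U U A (fun _ => 1) p
    rw [dec_one h1, Matrix.one_mul, Matrix.mul_assoc, Matrix.trace_mul_comm,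
      Matrix.mul_assoc] at this
    rw [gib, h4, this]
  have e2 : gib K (A * Aᴴ) = ∑ i, ∑ j, p i * 1 * t i j := by
    have := trace_dec_mul U U A p (fun _ => 1)
    rw [dec_one h1, Matrix.mul_one, Matrix.mul_assoc] at this
    rw [gib, h4, this]
  have e3 : gib K (Aᴴ * (K * A)) = ∑ i, ∑ j, E i * p j * t i j := by
    have := trace_dec_mul U U A E p
    rw [← h3, Matrix.mul_assoc, Matrix.trace_mul_comm, Matrix.mul_assoc] at this
    rw [gib, h4, this]
  have e4 : gib K (Aᴴ * (A * K)) = ∑ i, ∑ j, 1 * (E j * p j) * t i j := by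
    have := trace_dec_mul U U A (fun _ => 1) (fun j => E j * p j)
    rw [dec_one h1, Matrix.one_mul, ← dec_mul h2, ← h3, ← Matrix.mul_assoc, Matrix.mul_assoc,
      Matrix.trace_mul_comm, Matrix.mul_assoc] at this
    rw [gib, h4, this]
  have e5 : gib K (K * A * Aᴴ) = ∑ i, ∑ j, p i * E i * 1 * t i j := by
    have := trace_dec_mul U U A (fun i => p i * E i) (fun _ => 1)
    rw [dec_one h1, Matrix.mul_one, ← dec_mul h2, ← h3, Matrix.mul_assoc, Matrix.mul_assoc,
      ← Matrix.mul_assoc K] at this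
    rw [gib, h4, this]
  have e6 : gib K (A * K * Aᴴ) = ∑ i, ∑ j, p i * E j * t i j := by
    have := trace_dec_mul U U A p E
    rw [← h3, Matrix.mul_assoc, Matrix.mul_assoc, ← Matrix.mul_assoc A] at this
    rw [gib, h4, this]
  rw [Matrix.mul_sub, Matrix.sub_mul, gib_sub, gib_sub, gib_sub, gib_sub] at hD
  rw [gib_sub] at hw ⊢
  set u := gib K (A * Aᴴ) with hu
  set v := gib K (Aᴴ * A) with hv
  have key : ∀ s : ℝ, s * (v - u) + (v - Real.exp s * u) + (u - Real.exp (-s) * v) ≤
      c * (v - u) := by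
    intro s
    refine le_trans ?_ hD
    rw [e1, e2, e3, e4, e5, e6]
    simp only [Finset.mul_sum, ← Finset.sum_add_distrib, ← Finset.sum_sub_distrib]
    refine Finset.sum_le_sum fun i _ => Finset.sum_le_sum fun j _ => ?_
    have a1 : p j * (1 + (s - E i + E j)) ≤ Real.exp s * p i := by
      have h6 := Real.add_one_le_exp (s - E i + E j)
      have h7 : Real.exp s * p i = p j * Real.exp (s - E i + E j) := by
        simp only [hp]
        rw [← Real.exp_add, ← Real.exp_add]
        congr 1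
        ring
      rw [h7]
      exact mul_le_mul_of_nonneg_left (by linarith) (Real.exp_pos _).le
    have a2 : p i * (1 + (-s - E j + E i)) ≤ Real.exp (-s) * p j := by
      have h6 := Real.add_one_le_exp (-s - E j + E i)
      have h7 : Real.exp (-s) * p j = p i * Real.exp (-s - E j + E i) := by
        simp only [hp]
        rw [← Real.exp_add, ← Real.exp_add]
        congr 1
        ring
      rw [h7]
      exact mul_le_mul_of_nonneg_left (by linarith) (Real.exp_pos _).le
    have b1 := mul_le_mul_of_nonneg_right a1 (ht0 i j)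
    have b2 := mul_le_mul_of_nonneg_right a2 (ht0 i j)
    nlinarith
  have hu0 : 0 ≤ u := gib_nonneg hK A
  have hv0 : 0 < v := by linarith
  have hupos : 0 < u := by
    rcases hu0.lt_or_eq with h | h
    · exact h
    · exfalso
      have k1 := key (max c 0 + 1)
      rw [← h] at k1
      have k2 : Real.exp (-(max c 0 + 1)) ≤ 1 :=
        Real.exp_le_one_iff.2 (by have := le_max_right c 0; linarith)
      have k3 := le_max_left c 0
      nlinarith
  have k1 := key (Real.log (v / u))
  rw [Real.exp_neg, Real.exp_log (by positivity)] at k1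
  have k2 : v - v / u * u = 0 := by field_simp; ring
  have k3 : u - (v / u)⁻¹ * v = 0 := by field_simp; ring
  rw [k2, k3, add_zero, add_zero] at k1
  have k4 : Real.log (v / u) ≤ c := le_of_mul_le_mul_right k1 hw
  have k5 : v / u ≤ Real.exp c := by
    rw [← Real.exp_log (show 0 < v / u by positivity)]
    exact Real.exp_le_exp.2 k4
  rw [div_le_iff₀ hupos] at k5
  linarith

end Vale.Agent.P361
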