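import Vale.Agent.P361.Defs

/-!
P361: algebra of single-site operators on the tensor product.
-/

open scoped Matrix
open Matrix

namespace Vale.Agent.P361

variable {ι X : Type} [Fintype ι] [DecidableEq ι] [DecidableEq X]

/-- The Kronecker product of a family of matrices. -/
noncomputable def tens (f : ι → Matrix X X ℂ) : Matrix (ι → X) (ι → X) ℂ :=
  Matrix.of fun σ τ => ∏ y, f y (σ y) (τ y)

lemma siteOp_eq_tens (x : ι) (A : Matrix X X ℂ) :
    siteOp x A = tens (fun y => if y = x then A else 1) := rfl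

omit [DecidableEq X] in
lemma tens_mul [Fintype X] (f g : ι → Matrix X X ℂ) :
    tens f * tens g = tens (fun y => f y * g y) := by
  ext σ τ
  simp only [tens, Matrix.mul_apply, Matrix.of_apply, ← Finset.prod_mul_distrib]
  rw [Finset.prod_univ_sum, Fintype.piFinset_univ]

omit [DecidableEq ι] in
lemma tens_one : tens (fun _ : ι => (1 : Matrix X X ℂ)) = 1 := by
  ext σ τ
  simp only [tens, Matrix.of_apply, Matrix.one_apply]
  by_cases h : σ = τ
  · subst h
    simp
  · rw [if_neg h]
    obtain ⟨y, hy⟩ := Function.ne_iff.1 h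
    exact Finset.prod_eq_zero (Finset.mem_univ y) (if_neg hy)

lemma siteOp_apply (x : ι) (A : Matrix X X ℂ) (σ τ : ι → X) :
    siteOp x A σ τ = A (σ x) (τ x) * ∏ y ∈ Finset.univ.erase x, (1 : Matrix X X ℂ) (σ y) (τ y) := by
  simp only [siteOp, Matrix.of_apply]
  rw [← Finset.mul_prod_erase _ _ (Finset.mem_univ x), if_pos rfl]
  congr 1
  refine Finset.prod_congr rfl fun y hy => ?_
  rw [if_neg (Finset.ne_of_mem_erase hy)]

lemma siteOp_add (x : ι) (A B : Matrix X X ℂ) : siteOp x (A + B) = siteOp x A + siteOp x B := by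
  ext σ τ
  simp only [siteOp_apply, Matrix.add_apply, add_mul]

lemma siteOp_sub (x : ι) (A B : Matrix X X ℂ) : siteOp x (A - B) = siteOp x A - siteOp x B := by
  ext σ τ
  simp only [siteOp_apply, Matrix.sub_apply, sub_mul]

lemma siteOp_neg (x : ι) (A : Matrix X X ℂ) : siteOp x (-A) = -siteOp x A := by
  ext σ τ
  simp only [siteOp_apply, Matrix.neg_apply, neg_mul]

lemma siteOp_smul (x : ι) (c : ℂ) (A : Matrix X X ℂ) : siteOp x (c • A) = c • siteOp x A := by
  ext σ τ
  simp only [siteOp_apply, Matrix.smul_apply, smul_eq_mul, mul_assoc]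

lemma siteOp_one (x : ι) : siteOp x (1 : Matrix X X ℂ) = 1 := by
  rw [siteOp_eq_tens]
  simp only [ite_self]
  exact tens_one

lemma siteOp_mul [Fintype X] (x : ι) (A B : Matrix X X ℂ) :
    siteOp x A * siteOp x B = siteOp x (A * B) := by
  simp only [siteOp_eq_tens, tens_mul]
  congr 1
  funext y
  split_ifs <;> simp

lemma siteOp_comm [Fintype X] {x y : ι} (h : x ≠ y) (A B : Matrix X X ℂ) :
    siteOp y B * siteOp x A = siteOp x A * siteOp y B := by
  simp only [siteOp_eq_tens, tens_mul]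
  congr 1
  funext z
  by_cases h1 : z = x
  · have h2 : z ≠ y := fun h2 => h (h1.symm.trans h2)
    simp [h1, h]
  · simp [h1]

lemma siteOp_conjTranspose (x : ι) (A : Matrix X X ℂ) : (siteOp x A)ᴴ = siteOp x Aᴴ := by
  ext σ τ
  simp only [siteOp_apply, conjTranspose_apply, star_mul', star_prod]
  congr 1
  refine Finset.prod_congr rfl fun y _ => ?_
  simp only [Matrix.one_apply, eq_comm]
  split_ifs <;> simp

lemma siteOp_transpose (x : ι) (A : Matrix X X ℂ) : (siteOp x A)ᵀ = siteOp x Aᵀ := by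
  ext σ τ
  simp only [siteOp_apply, transpose_apply]
  congr 1
  refine Finset.prod_congr rfl fun y _ => ?_
  simp only [Matrix.one_apply, eq_comm]

lemma siteOp_diagonal (x : ι) (d : X → ℂ) :
    siteOp x (diagonal d) = diagonal (fun σ : ι → X => d (σ x)) := by
  ext σ τ
  rw [siteOp_apply, diagonal_apply, diagonal_apply]
  by_cases h : σ = τ
  · subst h
    simp
  · rw [if_neg h]
    obtain ⟨y, hy⟩ := Function.ne_iff.1 h
    by_cases hyx : y = x
    · subst hyx
      rw [if_neg hy, zero_mul]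
    · have h0 : ∏ y ∈ Finset.univ.erase x, (1 : Matrix X X ℂ) (σ y) (τ y) = 0 :=
        Finset.prod_eq_zero (Finset.mem_erase.2 ⟨hyx, Finset.mem_univ y⟩) (Matrix.one_apply_ne hy)
      rw [h0, mul_zero]

section two

variable [Fintype X] {x y : ι}

lemma two_mul_left (h : x ≠ y) (A B C : Matrix X X ℂ) :
    siteOp x A * siteOp y B * siteOp x C = siteOp x (A * C) * siteOp y B := by
  rw [Matrix.mul_assoc, siteOp_comm h, ← Matrix.mul_assoc, siteOp_mul]

lemma two_mul_right (A B C : Matrix X X ℂ) :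
    siteOp x A * siteOp y B * siteOp y C = siteOp x A * siteOp y (B * C) := by
  rw [Matrix.mul_assoc, siteOp_mul]

lemma left_mul_two (A B C : Matrix X X ℂ) :
    siteOp x C * (siteOp x A * siteOp y B) = siteOp x (C * A) * siteOp y B := by
  rw [← Matrix.mul_assoc, siteOp_mul]

lemma right_mul_two (h : x ≠ y) (A B C : Matrix X X ℂ) :
    siteOp y C * (siteOp x A * siteOp y B) = siteOp x A * siteOp y (C * B) := by
  rw [← Matrix.mul_assoc, siteOp_comm h, Matrix.mul_assoc, siteOp_mul]

lemma two_mul_two (h : x ≠ y) (A B C D : Matrix X X ℂ) :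
    siteOp x A * siteOp y B * (siteOp x C * siteOp y D) = siteOp x (A * C) * siteOp y (B * D) := by
  rw [← Matrix.mul_assoc, two_mul_left h, two_mul_right]

lemma two_comm_far {z : ι} (hx : z ≠ x) (hy : z ≠ y) (A B C : Matrix X X ℂ) :
    siteOp x A * siteOp y B * siteOp z C = siteOp z C * (siteOp x A * siteOp y B) := by
  rw [Matrix.mul_assoc, siteOp_comm hy, ← Matrix.mul_assoc, siteOp_comm hx, Matrix.mul_assoc]

lemma comm_sum (h : x ≠ y) (T : Matrix (ι → X) (ι → X) ℂ) (C : Matrix X X ℂ) (φ : ι → ℂ)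
    (hT : ∀ z, z ≠ x → z ≠ y → T * siteOp z C = siteOp z C * T) :
    T * (∑ z, φ z • siteOp z C) - (∑ z, φ z • siteOp z C) * T =
      φ x • (T * siteOp x C - siteOp x C * T) + φ y • (T * siteOp y C - siteOp y C * T) := by
  rw [Matrix.mul_sum, Matrix.sum_mul, ← Finset.sum_sub_distrib,
    Fintype.sum_eq_add x y h]
  · simp only [Matrix.mul_smul, Matrix.smul_mul, smul_sub]
  · intro z hz
    simp only [Matrix.mul_smul, Matrix.smul_mul, hT z hz.1 hz.2, sub_self]

end two

end Vale.Agent.P361
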