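import Vale.Agent.P361.Defs

/-!
P361: single-site spin algebra.
-/

open scoped Matrix
open Matrix

namespace Vale.Agent.P361

/-- The magnon number operator `diag j`. -/
noncomputable def numOp (n : ℕ) : Matrix (Fin (n + 1)) (Fin (n + 1)) ℂ :=
  diagonal fun j => ((j : ℕ) : ℂ)

/-- The truncated boson annihilator. -/
noncomputable def annOp (n : ℕ) : Matrix (Fin (n + 1)) (Fin (n + 1)) ℂ :=
  Matrix.of fun i j =>
    if (i : ℕ) + 1 = (j : ℕ) then ((Real.sqrt ((j : ℕ) : ℝ) : ℝ) : ℂ) else 0

/-- The diagonal factor `√(n - j)`. -/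
noncomputable def holOp (n : ℕ) : Matrix (Fin (n + 1)) (Fin (n + 1)) ℂ :=
  diagonal fun j => ((Real.sqrt ((n : ℝ) - ((j : ℕ) : ℝ)) : ℝ) : ℂ)

variable {n : ℕ}

lemma fin_le (j : Fin (n + 1)) : ((j : ℕ) : ℝ) ≤ n := by
  exact_mod_cast Nat.lt_succ_iff.1 j.2

lemma spin_two : spin n 2 = diagonal fun j : Fin (n + 1) => (n : ℂ) / 2 - ((j : ℕ) : ℂ) := rfl

lemma spin_two_eq : spin n 2 = ((n : ℂ) / 2) • (1 : Matrix _ _ ℂ) - numOp n := by
  rw [spin_two, numOp, ← diagonal_one, ← diagonal_smul, diagonal_sub]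
  congr 1
  funext j
  simp

lemma spin_two_herm : (spin n 2)ᴴ = spin n 2 := by
  rw [spin_two, diagonal_conjTranspose]
  congr 1
  funext j
  simp

lemma spin_two_transpose : (spin n 2)ᵀ = spin n 2 := by
  rw [spin_two, diagonal_transpose]

lemma splus_transpose : (splus n)ᵀ = (splus n)ᴴ := by
  ext i j
  simp only [splus, transpose_apply, conjTranspose_apply, Matrix.of_apply]
  split_ifs <;> simp

lemma sminus_transpose : ((splus n)ᴴ)ᵀ = splus n := by
  rw [← splus_transpose, transpose_transpose]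

lemma holOp_herm : (holOp n)ᴴ = holOp n := by
  rw [holOp, diagonal_conjTranspose]
  congr 1
  funext j
  simp

lemma hol_mul_hol : holOp n * holOp n = (n : ℂ) • (1 : Matrix _ _ ℂ) - numOp n := by
  rw [holOp, numOp, diagonal_mul_diagonal, ← diagonal_one, ← diagonal_smul, diagonal_sub]
  congr 1
  funext j
  rw [← Complex.ofReal_mul, Real.mul_self_sqrt (by linarith [fin_le j])]
  simp

lemma hol_mul_ann : holOp n * annOp n = splus n := by
  ext i j
  simp only [holOp, annOp, splus, diagonal_mul, Matrix.of_apply]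
  split_ifs with h
  · rw [← Complex.ofReal_mul, ← Real.sqrt_mul (by linarith [fin_le i])]
    have : ((j : ℕ) : ℝ) = ((i : ℕ) : ℝ) + 1 := by exact_mod_cast h.symm
    rw [this]
    congr 2
    ring
  · simp

/-- A matrix supported on the superdiagonal: `Bᴴ B` is diagonal. -/
lemma super_star_mul (c : ℕ → ℝ) (hc : c 0 = 0) :
    (Matrix.of fun i j : Fin (n + 1) => if (i : ℕ) + 1 = (j : ℕ) then ((c j : ℝ) : ℂ) else 0)ᴴ *
      (Matrix.of fun i j : Fin (n + 1) => if (i : ℕ) + 1 = (j : ℕ) then ((c j : ℝ) : ℂ) else 0) =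
      diagonal fun j : Fin (n + 1) => ((c j * c j : ℝ) : ℂ) := by
  ext j k
  simp only [Matrix.mul_apply, conjTranspose_apply, Matrix.of_apply, diagonal_apply]
  by_cases hj : (j : ℕ) = 0
  · rw [Finset.sum_eq_zero]
    · split_ifs with h
      · simp [hj, hc]
      · rfl
    · intro i _
      rw [if_neg (by omega)]
      simp
  · rw [Finset.sum_eq_single (⟨j - 1, by omega⟩ : Fin (n + 1))]
    · have h1 : (j : ℕ) - 1 + 1 = j := by omega
      simp only [h1, if_true]
      by_cases h : j = k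
      · subst h
        simp
      · rw [if_neg (fun h2 => h (Fin.ext h2)), if_neg h, mul_zero]
    · intro i _ hi
      rw [if_neg (fun h2 => hi (Fin.ext (by simp only; omega)))]
      simp
    · simp

/-- A matrix supported on the superdiagonal: `B Bᴴ` is diagonal. -/
lemma super_mul_star (c : ℕ → ℝ) (hc : c (n + 1) = 0) :
    (Matrix.of fun i j : Fin (n + 1) => if (i : ℕ) + 1 = (j : ℕ) then ((c j : ℝ) : ℂ) else 0) *
      (Matrix.of fun i j : Fin (n + 1) => if (i : ℕ) + 1 = (j : ℕ) then ((c j : ℝ) : ℂ) else 0)ᴴ =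
      diagonal fun i : Fin (n + 1) => ((c (i + 1) * c (i + 1) : ℝ) : ℂ) := by
  ext i k
  simp only [Matrix.mul_apply, conjTranspose_apply, Matrix.of_apply, diagonal_apply]
  by_cases hi : (i : ℕ) = n
  · rw [Finset.sum_eq_zero]
    · split_ifs with h
      · simp [hi, hc]
      · rfl
    · intro j _
      rw [if_neg (by omega)]
      simp
  · rw [Finset.sum_eq_single (⟨i + 1, by omega⟩ : Fin (n + 1))]
    · simp only [if_true]
      by_cases h : i = k
      · subst h
        simp
      · rw [if_neg (fun h2 => h (Fin.ext (by omega))), if_neg h]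
        simp
    · intro j _ hj
      rw [if_neg (fun h2 => hj (Fin.ext (by simp only; omega)))]
      simp
    · simp

lemma ann_star_mul : (annOp n)ᴴ * annOp n = numOp n := by
  have := super_star_mul (n := n) (fun j => Real.sqrt (j : ℝ)) (by simp)
  rw [annOp, this, numOp]
  congr 1
  funext j
  rw [Real.mul_self_sqrt (by positivity)]
  simp

lemma sminus_mul_splus : (splus n)ᴴ * splus n =
    diagonal fun j : Fin (n + 1) => ((((j : ℕ) : ℝ) * ((n : ℝ) + 1 - ((j : ℕ) : ℝ)) : ℝ) : ℂ) := by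
  have := super_star_mul (n := n) (fun j => Real.sqrt ((j : ℝ) * ((n : ℝ) + 1 - (j : ℝ)))) (by simp)
  rw [splus, this]
  congr 1
  funext j
  rw [Real.mul_self_sqrt (mul_nonneg (by positivity) (by linarith [fin_le j]))]

lemma splus_mul_sminus : splus n * (splus n)ᴴ =
    diagonal fun j : Fin (n + 1) => (((((j : ℕ) : ℝ) + 1) * ((n : ℝ) - ((j : ℕ) : ℝ)) : ℝ) : ℂ) := by
  have := super_mul_star (n := n) (fun j => Real.sqrt ((j : ℝ) * ((n : ℝ) + 1 - (j : ℝ)))) (by simp)
  rw [splus, this]
  congr 1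
  funext j
  push_cast
  rw [← Complex.ofReal_mul,
    Real.mul_self_sqrt (mul_nonneg (by positivity) (by linarith [fin_le j]))]
  push_cast
  ring

lemma splus_sminus_rel : splus n * (splus n)ᴴ = (splus n)ᴴ * splus n + (2 : ℂ) • spin n 2 := by
  rw [splus_mul_sminus, sminus_mul_splus, spin_two, ← diagonal_smul, diagonal_add]
  congr 1
  funext j
  simp only [Pi.smul_apply, smul_eq_mul]
  push_cast
  ring

lemma sz_splus_rel : spin n 2 * splus n = splus n * spin n 2 + splus n := by
  ext i j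
  simp only [spin_two, diagonal_mul, mul_diagonal, Matrix.add_apply, splus, Matrix.of_apply]
  split_ifs with h
  · have : ((j : ℕ) : ℂ) = ((i : ℕ) : ℂ) + 1 := by exact_mod_cast h.symm
    rw [this]
    ring
  · simp

lemma sz_sminus_rel : spin n 2 * (splus n)ᴴ = (splus n)ᴴ * spin n 2 - (splus n)ᴴ := by
  have := congrArg conjTranspose (sz_splus_rel (n := n))
  rw [conjTranspose_add, conjTranspose_mul, conjTranspose_mul, spin_two_herm] at this
  rw [this]
  abel

lemma spin_zero : spin n 0 = (1 / 2 : ℂ) • (splus n + (splus n)ᴴ) := rfl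

lemma spin_one : spin n 1 = (1 / (2 * Complex.I) : ℂ) • (splus n - (splus n)ᴴ) := rfl

end Vale.Agent.P361
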