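import Vale.Agent.P361.Gibbs
import Vale.Agent.P361.Site
import Vale.Agent.P361.Spin

/-!
P361: the Heisenberg Hamiltonian on a finite graph, symmetry properties and operator bounds.
-/

open scoped Matrix
open Matrix

namespace Vale.Agent.P361

variable {ι : Type} [Fintype ι] [DecidableEq ι] {n : ℕ}

/-- `Sₓ · S_y`. -/
noncomputable def sdot (n : ℕ) (x y : ι) : Matrix (ι → Fin (n + 1)) (ι → Fin (n + 1)) ℂ :=
  ∑ a, siteOp x (spin n a) * siteOp y (spin n a)

/-- The Heisenberg Hamiltonian of a graph. -/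
noncomputable def hamG (n : ℕ) (adj : ι → ι → Prop) [DecidableRel adj] :
    Matrix (ι → Fin (n + 1)) (ι → Fin (n + 1)) ℂ :=
  -((1 / 2 : ℂ) • ∑ x, ∑ y, if adj x y then sdot n x y else 0)

/-- The total magnetization. -/
noncomputable def magG (n : ℕ) (ι : Type) [Fintype ι] [DecidableEq ι] :
    Matrix (ι → Fin (n + 1)) (ι → Fin (n + 1)) ℂ :=
  ∑ x : ι, siteOp x (spin n 2)

/-- `β (H - h M)`. -/
noncomputable def gen (n : ℕ) (adj : ι → ι → Prop) [DecidableRel adj] (β h : ℝ) :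
    Matrix (ι → Fin (n + 1)) (ι → Fin (n + 1)) ℂ :=
  (β : ℂ) • (hamG n adj - (h : ℂ) • magG n ι)

/-- Nearest-neighbour relation on a finite subset of `ℤ³`. -/
def nbr (Λ : Finset (Fin 3 → ℤ)) (x y : Λ) : Prop := ∑ i, |x.1 i - y.1 i| = 1

instance (Λ : Finset (Fin 3 → ℤ)) : DecidableRel (nbr Λ) := fun x y =>
  inferInstanceAs (Decidable (∑ i, |x.1 i - y.1 i| = 1))

lemma nbr_ne {Λ : Finset (Fin 3 → ℤ)} (x y : Λ) (h : nbr Λ x y) : x ≠ y := by
  rintro rfl
  simp [nbr] at h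

lemma partFn_eq (Λ : Finset (Fin 3 → ℤ)) (β h : ℝ) :
    partFn n Λ β h = gib (gen n (nbr Λ) β h) 1 := by
  rw [partFn, gib, Matrix.mul_one, gen, neg_smul]
  rfl

lemma sdot_eq (x y : ι) : sdot n x y =
    (1 / 2 : ℂ) • (siteOp x (splus n) * siteOp y (splus n)ᴴ +
      siteOp x (splus n)ᴴ * siteOp y (splus n)) + siteOp x (spin n 2) * siteOp y (spin n 2) := by
  rw [sdot, Fin.sum_univ_three, spin_zero, spin_one]
  simp only [siteOp_smul, siteOp_add, siteOp_sub, Matrix.smul_mul, Matrix.mul_smul,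
    Matrix.add_mul, Matrix.mul_add, Matrix.sub_mul, Matrix.mul_sub]
  have : (1 / (2 * Complex.I) * (1 / (2 * Complex.I)) : ℂ) = -(1 / 4) := by
    field_simp
    rw [Complex.I_sq]
    norm_num
  simp only [smul_sub, smul_add, smul_smul, this]
  module

lemma sdot_herm {x y : ι} (h : x ≠ y) : (sdot n x y)ᴴ = sdot n x y := by
  rw [sdot_eq]
  simp only [conjTranspose_add, conjTranspose_smul, conjTranspose_mul, siteOp_conjTranspose,
    conjTranspose_conjTranspose, spin_two_herm, siteOp_comm h]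
  rw [add_comm (siteOp x (splus n)ᴴ * _)]
  simp

lemma sdot_transpose {x y : ι} (h : x ≠ y) : (sdot n x y)ᵀ = sdot n x y := by
  rw [sdot_eq]
  simp only [transpose_add, transpose_smul, transpose_mul, siteOp_transpose,
    sminus_transpose, splus_transpose, spin_two_transpose, siteOp_comm h]
  rw [add_comm (siteOp x (splus n)ᴴ * _)]

section graph

variable {adj : ι → ι → Prop} [DecidableRel adj]

lemma hamG_herm (hadj : ∀ x y, adj x y → x ≠ y) : (hamG n adj).IsHermitian := by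
  unfold Matrix.IsHermitian hamG
  simp only [conjTranspose_neg, conjTranspose_smul, conjTranspose_sum]
  have : star (1 / 2 : ℂ) = 1 / 2 := by simp
  rw [this]
  congr 2
  refine Finset.sum_congr rfl fun x _ => Finset.sum_congr rfl fun y _ => ?_
  split_ifs with h
  · exact sdot_herm (hadj x y h)
  · simp

lemma hamG_transpose (hadj : ∀ x y, adj x y → x ≠ y) : (hamG n adj)ᵀ = hamG n adj := by
  unfold hamG
  simp only [transpose_neg, transpose_smul, transpose_sum]
  congr 2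
  refine Finset.sum_congr rfl fun x _ => Finset.sum_congr rfl fun y _ => ?_
  split_ifs with h
  · exact sdot_transpose (hadj x y h)
  · simp

lemma magG_herm : (magG n ι).IsHermitian := by
  unfold Matrix.IsHermitian magG
  simp only [conjTranspose_sum, siteOp_conjTranspose, spin_two_herm]

lemma magG_transpose : (magG n ι)ᵀ = magG n ι := by
  unfold magG
  simp only [transpose_sum, siteOp_transpose, spin_two_transpose]

omit [DecidableEq ι] in
lemma herm_real_smul {m : Type} {A : Matrix m m ℂ} (hA : A.IsHermitian) (c : ℝ) :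
    ((c : ℂ) • A).IsHermitian := by
  unfold Matrix.IsHermitian
  rw [conjTranspose_smul, hA.eq]
  simp

lemma gen_herm (hadj : ∀ x y, adj x y → x ≠ y) (β h : ℝ) : (gen n adj β h).IsHermitian :=
  herm_real_smul ((hamG_herm hadj).sub (herm_real_smul magG_herm h)) β

lemma gen_transpose (hadj : ∀ x y, adj x y → x ≠ y) (β h : ℝ) :
    (gen n adj β h)ᵀ = gen n adj β h := by
  rw [gen, transpose_smul, transpose_sub, transpose_smul, hamG_transpose hadj, magG_transpose]

end graph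

lemma gib_antisym {m : Type} [Fintype m] [DecidableEq m] {K : Matrix m m ℂ} (hK : Kᵀ = K)
    (T : Matrix m m ℂ) (c : ℂ) : gib K (c • (T - Tᵀ)) = 0 := by
  have h1 : (NormedSpace.exp (-K))ᵀ = NormedSpace.exp (-K) := by
    rw [← Matrix.exp_transpose, transpose_neg, hK]
  have h2 : Matrix.trace (NormedSpace.exp (-K) * Tᵀ) = Matrix.trace (NormedSpace.exp (-K) * T) := by
    rw [← Matrix.trace_transpose, transpose_mul, transpose_transpose, h1, Matrix.trace_mul_comm]
  rw [gib, Matrix.mul_smul, Matrix.mul_sub, Matrix.trace_smul, Matrix.trace_sub, h2]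
  simp

section bounds

variable {K : Matrix (ι → Fin (n + 1)) (ι → Fin (n + 1)) ℂ}

lemma gib_diag_le (hK : K.IsHermitian) (d : (ι → Fin (n + 1)) → ℝ) (c : ℝ) (hd : ∀ σ, d σ ≤ c) :
    gib K (diagonal fun σ => (d σ : ℂ)) ≤ c * gib K 1 := by
  have h1 := gib_diag_nonneg hK (fun σ => c - d σ) (fun σ => sub_nonneg.2 (hd σ))
  have h2 : (diagonal fun σ => ((c - d σ : ℝ) : ℂ)) =
      (c : ℂ) • (1 : Matrix _ _ ℂ) - diagonal fun σ => (d σ : ℂ) := by
    rw [← diagonal_one, ← diagonal_smul, diagonal_sub]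
    congr 1
    funext σ
    simp
  rw [h2, gib_sub, gib_smul] at h1
  linarith

lemma siteOp_sz (x : ι) : siteOp x (spin n 2) =
    diagonal fun σ : ι → Fin (n + 1) => (((n : ℝ) / 2 - ((σ x : ℕ) : ℝ) : ℝ) : ℂ) := by
  rw [spin_two, siteOp_diagonal]
  congr 1
  funext σ
  push_cast
  rfl

lemma abs_sz_le (j : Fin (n + 1)) : |(n : ℝ) / 2 - ((j : ℕ) : ℝ)| ≤ n / 2 := by
  have h1 := fin_le j
  have h2 : (0 : ℝ) ≤ ((j : ℕ) : ℝ) := by positivity
  rw [abs_le]
  constructor <;> linarith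

lemma gib_sz_le (hK : K.IsHermitian) (x : ι) (s : ℝ) :
    s * gib K (siteOp x (spin n 2)) ≤ |s| * (n / 2) * gib K 1 := by
  rw [← gib_smul, siteOp_sz, ← diagonal_smul]
  have := gib_diag_le hK (fun σ => s * ((n : ℝ) / 2 - ((σ x : ℕ) : ℝ))) (|s| * (n / 2)) (fun σ => by
    refine (le_abs_self _).trans ?_
    rw [abs_mul]
    exact mul_le_mul_of_nonneg_left (abs_sz_le _) (abs_nonneg _))
  refine le_of_eq_of_le ?_ this
  congr 2
  funext σ
  simp

lemma gib_zz_le (hK : K.IsHermitian) (x y : ι) (s : ℝ) :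
    s * gib K (siteOp x (spin n 2) * siteOp y (spin n 2)) ≤ |s| * (n / 2) ^ 2 * gib K 1 := by
  rw [← gib_smul, siteOp_sz, siteOp_sz, diagonal_mul_diagonal, ← diagonal_smul]
  have := gib_diag_le hK (fun σ => s * (((n : ℝ) / 2 - ((σ x : ℕ) : ℝ)) *
    ((n : ℝ) / 2 - ((σ y : ℕ) : ℝ)))) (|s| * (n / 2) ^ 2) (fun σ => by
    refine (le_abs_self _).trans ?_
    rw [abs_mul, abs_mul, sq]
    exact mul_le_mul_of_nonneg_left
      (mul_le_mul (abs_sz_le _) (abs_sz_le _) (abs_nonneg _) (by positivity)) (abs_nonneg _))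
  refine le_of_eq_of_le ?_ this
  congr 2
  funext σ
  simp

lemma gib_mag_le (hK : K.IsHermitian) (s : ℝ) :
    s * gib K (magG n ι) ≤ |s| * (n / 2) * Fintype.card ι * gib K 1 := by
  rw [magG, gib_sum, Finset.mul_sum]
  refine (Finset.sum_le_sum fun x _ => gib_sz_le hK x s).trans (le_of_eq ?_)
  rw [Finset.sum_const, Finset.card_univ, nsmul_eq_mul]
  ring

/-- `S⁻ₓ S⁺ₓ ≤ 2S (S - S³ₓ)`. -/
lemma gib_qp_le (hK : K.IsHermitian) (x : ι) :
    gib K (siteOp x ((splus n)ᴴ * splus n)) ≤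
      n * ((n / 2) * gib K 1 - gib K (siteOp x (spin n 2))) := by
  have h1 := gib_diag_le hK (fun σ => ((σ x : ℕ) : ℝ) * ((n : ℝ) + 1 - ((σ x : ℕ) : ℝ)) +
    n * ((n : ℝ) / 2 - ((σ x : ℕ) : ℝ))) (n * (n / 2)) (fun σ => by
      have h2 : ((σ x : ℕ) : ℝ) ≤ ((σ x : ℕ) : ℝ) * ((σ x : ℕ) : ℝ) := by
        exact_mod_cast Nat.le_mul_self _
      nlinarith)
  have h2 : (diagonal fun σ : ι → Fin (n + 1) =>
      ((((σ x : ℕ) : ℝ) * ((n : ℝ) + 1 - ((σ x : ℕ) : ℝ)) +
        n * ((n : ℝ) / 2 - ((σ x : ℕ) : ℝ)) : ℝ) : ℂ)) =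
      siteOp x ((splus n)ᴴ * splus n) + ((n : ℝ) : ℂ) • siteOp x (spin n 2) := by
    rw [sminus_mul_splus, siteOp_diagonal, siteOp_sz, ← diagonal_smul, diagonal_add]
    congr 1
    funext σ
    simp
  rw [h2, gib_add, gib_smul] at h1
  linarith

/-- `Sₓ · S_y ≤ S²`. -/
lemma gib_sdot_le (hK : K.IsHermitian) {x y : ι} (h : x ≠ y) :
    gib K (sdot n x y) ≤ (n / 2) ^ 2 * gib K 1 := by
  have h1 := gib_nonneg' hK (siteOp x (annOp n) * siteOp y (holOp n) -
    siteOp x (holOp n) * siteOp y (annOp n))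
  have h2 : (annOp n)ᴴ * holOp n = (splus n)ᴴ := by
    rw [← hol_mul_ann, conjTranspose_mul, holOp_herm]
  have h3 : (siteOp x (annOp n) * siteOp y (holOp n) - siteOp x (holOp n) * siteOp y (annOp n))ᴴ *
      (siteOp x (annOp n) * siteOp y (holOp n) - siteOp x (holOp n) * siteOp y (annOp n)) =
      ((2 : ℝ) : ℂ) • (((((n : ℝ) / 2) ^ 2 : ℝ) : ℂ) • (1 : Matrix _ _ ℂ) - sdot n x y) := by
    rw [sdot_eq, spin_two_eq]
    simp only [conjTranspose_sub, conjTranspose_mul, siteOp_conjTranspose, holOp_herm,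
      siteOp_comm h, Matrix.sub_mul, Matrix.mul_sub, two_mul_two h, ann_star_mul, hol_mul_hol,
      hol_mul_ann, h2, siteOp_sub, siteOp_smul, siteOp_one, Matrix.smul_mul, Matrix.mul_smul,
      Matrix.mul_one, Matrix.one_mul]
    push_cast
    module
  rw [h3, gib_smul, gib_sub, gib_smul] at h1
  linarith

/-- A crude lower bound on `Sₓ · S_y`. -/
lemma gib_sdot_ge (hK : K.IsHermitian) {x y : ι} (h : x ≠ y) :
    -(2 * n ^ 2) * gib K 1 ≤ gib K (sdot n x y) := by
  have h1 := gib_nonneg' hK (siteOp x (splus n) + siteOp y (splus n))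
  have h3 : (siteOp x (splus n) + siteOp y (splus n))ᴴ * (siteOp x (splus n) + siteOp y (splus n)) =
      siteOp x ((splus n)ᴴ * splus n) + siteOp y ((splus n)ᴴ * splus n) +
        ((2 : ℝ) : ℂ) • (sdot n x y - siteOp x (spin n 2) * siteOp y (spin n 2)) := by
    rw [sdot_eq]
    simp only [conjTranspose_add, siteOp_conjTranspose, siteOp_comm h, Matrix.add_mul,
      Matrix.mul_add, siteOp_mul]
    push_cast
    module
  rw [h3, gib_add, gib_add, gib_smul, gib_sub] at h1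
  have h4 := gib_qp_le hK x
  have h5 := gib_qp_le hK y
  have h6 := gib_sz_le hK x (-1)
  have h7 := gib_sz_le hK y (-1)
  have h8 := gib_zz_le hK x y (-1)
  have h9 := (gib_one_pos hK).le
  have hn : (0 : ℝ) ≤ n := by positivity
  rw [abs_neg, abs_one] at h6 h7 h8
  have h10 := mul_le_mul_of_nonneg_left h6 hn
  have h11 := mul_le_mul_of_nonneg_left h7 hn
  have h12 : 0 ≤ (n : ℝ) ^ 2 * gib K 1 := by positivity
  nlinarith

end bounds

end Vale.Agent.P361
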