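import Vale.Agent.P361.Ham

/-! # The number of nearest-neighbour pairs in a box -/

open scoped Matrix Topology
open Matrix Filter

namespace Vale.Agent.P361

/-- The six unit vectors. -/
def prs_S : Finset (Fin 3 → ℤ) :=
  {![1, 0, 0], ![-1, 0, 0], ![0, 1, 0], ![0, -1, 0], ![0, 0, 1], ![0, 0, -1]}

lemma prs_card : prs_S.card = 6 := by decide

lemma prs_mem (d : Fin 3 → ℤ) : d ∈ prs_S ↔ ∑ i, |d i| = 1 := by
  simp only [prs_S, Finset.mem_insert, Finset.mem_singleton, funext_iff, Fin.forall_fin_succ,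
    Fin.sum_univ_three]
  simp
  rcases abs_cases (d 0) with h0 | h0 <;> rcases abs_cases (d 1) with h1 | h1 <;>
    rcases abs_cases (d 2) with h2 | h2 <;> omega

lemma prs_box (N : ℕ) : ((box N).card : ℝ) = (2 * N + 1) ^ 3 := by
  have : ((N : ℤ) + 1 + N).toNat = 2 * N + 1 := by omega
  simp [box, Fintype.card_piFinset, this]

/-- The neighbours of a point inside a set. -/
def prs_nb (Λ : Finset (Fin 3 → ℤ)) (x : Fin 3 → ℤ) : Finset (Fin 3 → ℤ) :=
  Λ.filter fun y => ∑ i, |x i - y i| = 1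

lemma prs_sum (Λ : Finset (Fin 3 → ℤ)) :
    (∑ x : Λ, ∑ y : Λ, if nbr Λ x y then (1 : ℝ) else 0) = ∑ x ∈ Λ, ((prs_nb Λ x).card : ℝ) := by
  rw [← Finset.sum_coe_sort Λ]
  refine Finset.sum_congr rfl fun x _ => ?_
  rw [prs_nb, ← Finset.sum_boole, ← Finset.sum_coe_sort Λ]
  rfl

lemma prs_le (Λ : Finset (Fin 3 → ℤ)) (x : Fin 3 → ℤ) : (prs_nb Λ x).card ≤ 6 := by
  rw [← prs_card]
  refine Finset.card_le_card_of_injOn (fun y => x - y) (fun y hy => ?_)
    fun a _ b _ h => sub_right_injective h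
  exact (prs_mem _).2 (Finset.mem_filter.1 hy).2

lemma prs_ge (N : ℕ) {x : Fin 3 → ℤ} (hx : x ∈ box N) : 6 ≤ (prs_nb (box (N + 1)) x).card := by
  rw [← prs_card]
  refine Finset.card_le_card_of_injOn (fun d => x - d) (fun d hd => ?_)
    fun a _ b _ h => sub_right_injective h
  have h := (prs_mem d).1 hd
  refine Finset.mem_filter.2 ⟨Fintype.mem_piFinset.2 fun i => ?_, by simpa using h⟩
  have h1 := Finset.mem_Icc.1 (Fintype.mem_piFinset.1 hx i)
  have h2 : |d i| ≤ 1 :=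
    h ▸ Finset.single_le_sum (f := fun i => |d i|) (fun _ _ => abs_nonneg _) (Finset.mem_univ i)
  have h3 := abs_le.1 h2
  simp only [Pi.sub_apply, Finset.mem_Icc]
  omega

lemma prs_sub (N : ℕ) : box N ⊆ box (N + 1) :=
  Fintype.piFinset_subset _ _ fun _ => Finset.Icc_subset_Icc (by omega) (by omega)

theorem pairs_tendsto :
    Tendsto (fun N : ℕ => (∑ x : box N, ∑ y : box N, if nbr (box N) x y then (1 : ℝ) else 0) /
      ((box N).card : ℝ)) atTop (𝓝 6) := by
  rw [← tendsto_add_atTop_iff_nat 1]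
  have h0 : Tendsto (fun N : ℕ => (2 : ℝ) / (2 * N + 3)) atTop (𝓝 0) :=
    tendsto_const_nhds.div_atTop (tendsto_atTop_add_const_right _ _
      (tendsto_natCast_atTop_atTop.const_mul_atTop two_pos))
  have h1 : Tendsto (fun N : ℕ => 6 * (1 - (2 : ℝ) / (2 * N + 3)) ^ 3) atTop (𝓝 6) := by
    simpa using ((h0.const_sub 1).pow 3).const_mul 6
  refine tendsto_of_tendsto_of_tendsto_of_le_of_le h1 tendsto_const_nhds (fun N => ?_) fun N => ?_
  · have hp : (0 : ℝ) < 2 * N + 3 := by positivity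
    have e : ((box (N + 1)).card : ℝ) = (2 * N + 3) ^ 3 := by
      rw [prs_box]
      push_cast
      ring
    have h2 : ∑ _x ∈ box N, (6 : ℝ) ≤ ∑ x ∈ box (N + 1), ((prs_nb (box (N + 1)) x).card : ℝ) :=
      (Finset.sum_le_sum fun x hx => by exact_mod_cast prs_ge N hx).trans
        (Finset.sum_le_sum_of_subset_of_nonneg (prs_sub N) fun _ _ _ => Nat.cast_nonneg _)
    rw [Finset.sum_const, nsmul_eq_mul, prs_box] at h2
    simp only
    rw [prs_sum, e, le_div_iff₀ (pow_pos hp 3)]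
    refine le_trans (le_of_eq ?_) h2
    field_simp
    ring
  · have h2 : ∑ x ∈ box (N + 1), ((prs_nb (box (N + 1)) x).card : ℝ) ≤
        ∑ _x ∈ box (N + 1), (6 : ℝ) :=
      Finset.sum_le_sum fun x _ => by exact_mod_cast prs_le _ x
    rw [Finset.sum_const, nsmul_eq_mul, mul_comm] at h2
    simp only
    rw [prs_sum]
    exact div_le_of_le_mul₀ (Nat.cast_nonneg _) (by norm_num) h2

end Vale.Agent.P361
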