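import Vale.Agent.P361.Ham

/-!
P361: the partition function only depends on the graph up to isomorphism.
-/

open scoped Matrix Topology
open Matrix Filter

namespace Vale.Agent.P361

lemma rel_gib {m k : Type} [Fintype m] [DecidableEq m] [Fintype k] [DecidableEq k] (E : m ≃ k)
    {K : Matrix m m ℂ} (hK : K.IsHermitian) :
    gib (Matrix.reindexAlgEquiv ℂ ℂ E K) 1 = gib K 1 := by
  obtain ⟨U, F, h1, h2, rfl, -⟩ := exists_spec hK
  have h3 : (Matrix.reindexAlgEquiv ℂ ℂ E U)ᴴ = Matrix.reindexAlgEquiv ℂ ℂ E Uᴴ := rfl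
  have h4 : Matrix.reindexAlgEquiv ℂ ℂ E (dec U F) =
      dec (Matrix.reindexAlgEquiv ℂ ℂ E U) (fun i => F (E.symm i)) := by
    rw [dec, dec, map_mul, map_mul, h3]
    exact congrArg (_ * · * _) (Matrix.submatrix_diagonal_equiv (fun i => (F i : ℂ)) E.symm)
  rw [h4, gib_dec_one h1 h2, gib_dec_one (by rw [h3, ← map_mul, h1, map_one])
    (by rw [h3, ← map_mul, h2, map_one])]
  exact Equiv.sum_comp E.symm fun i => Real.exp (-F i)

lemma rel_site {ι κ X : Type} [Fintype ι] [DecidableEq ι] [Fintype κ] [DecidableEq κ] [Fintype X]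
    [DecidableEq X] (e : ι ≃ κ) (x : ι) (A : Matrix X X ℂ) :
    Matrix.reindexAlgEquiv ℂ ℂ (Equiv.arrowCongr e (Equiv.refl X)) (siteOp x A) =
      siteOp (e x) A := by
  ext σ τ
  rw [siteOp_eq_tens, siteOp_eq_tens, tens, tens, Matrix.of_apply, ← Equiv.prod_comp e]
  simp only [e.injective.eq_iff]
  rfl

theorem gib_gen_equiv {ι κ : Type} [Fintype ι] [DecidableEq ι] [Fintype κ] [DecidableEq κ] (n : ℕ)
    (e : ι ≃ κ) (a₁ : ι → ι → Prop) (a₂ : κ → κ → Prop) [DecidableRel a₁] [DecidableRel a₂]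
    (h₁ : ∀ x y, a₁ x y → x ≠ y) (he : ∀ x y, a₁ x y ↔ a₂ (e x) (e y)) (β h : ℝ) :
    gib (gen n a₁ β h) 1 = gib (gen n a₂ β h) 1 := by
  rw [← rel_gib (Equiv.arrowCongr e (Equiv.refl (Fin (n + 1)))) (gen_herm h₁ β h)]
  refine congrArg (gib · 1) ?_
  simp only [gen, hamG, magG, sdot, map_smul, map_sub, map_neg, map_sum, map_mul, map_zero,
    apply_ite (Matrix.reindexAlgEquiv ℂ ℂ (Equiv.arrowCongr e (Equiv.refl (Fin (n + 1))))),
    rel_site, he, ← Equiv.sum_comp e]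

end Vale.Agent.P361
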