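import Vale.Agent.P361.Waves
import Vale.Agent.P361.Factor
import Vale.Agent.P361.Relabel
import Vale.Agent.P361.Fekete
import Vale.Agent.P361.Pairs

/-!
P361: existence of the thermodynamic limit of the pressure.
-/

open scoped Matrix Topology
open Matrix Filter

namespace Vale.Agent.P361

variable {n : ℕ}

/-- The number of ordered nearest-neighbour pairs. -/
noncomputable def pairs (Λ : Finset (Fin 3 → ℤ)) : ℝ :=
  ∑ x : Λ, ∑ y : Λ, if nbr Λ x y then (1 : ℝ) else 0

lemma pairs_nonneg (Λ : Finset (Fin 3 → ℤ)) : 0 ≤ pairs Λ :=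
  Finset.sum_nonneg fun _ _ => Finset.sum_nonneg fun _ _ => by split_ifs <;> norm_num

lemma pairs_le (Λ : Finset (Fin 3 → ℤ)) : pairs Λ ≤ 6 * Λ.card := by
  have h1 : ∀ x : Λ, (∑ y : Λ, if nbr Λ x y then (1 : ℝ) else 0) ≤ 6 := by
    intro x
    refine (sum_nbr_le Λ x (fun _ => 1) (fun _ => zero_le_one)).trans (le_of_eq ?_)
    simp
    norm_num
  refine (Finset.sum_le_sum fun x _ => h1 x).trans (le_of_eq ?_)
  rw [Finset.sum_const, Finset.card_univ, Fintype.card_coe, nsmul_eq_mul, mul_comm]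

lemma gib_zero_one {m : Type} [Fintype m] [DecidableEq m] :
    gib (0 : Matrix m m ℂ) 1 = Fintype.card m := by
  simp [gib]

lemma abs_gib_gen_le (Λ : Finset (Fin 3 → ℤ)) {β : ℝ} (hβ : 0 ≤ β) (h : ℝ)
    {K : Matrix (Λ → Fin (n + 1)) (Λ → Fin (n + 1)) ℂ} (hK : K.IsHermitian) :
    |gib K (gen n (nbr Λ) β h)| ≤ β * (6 * n ^ 2 + |h| * (n / 2)) * Λ.card * gib K 1 := by
  have hZ := gib_one_pos hK
  have e1 : gen n (nbr Λ) β h = (β : ℂ) •
      (-((((1 / 2 : ℝ) : ℝ) : ℂ) • ∑ x, ∑ y, if nbr Λ x y then sdot n x y else 0) -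
        (h : ℂ) • magG n Λ) := by
    rw [gen, hamG]
    push_cast
    rfl
  have h1 : |gib K (∑ x, ∑ y, if nbr Λ x y then sdot n x y else 0)| ≤
      pairs Λ * (2 * n ^ 2 * gib K 1) := by
    rw [gib_sum, pairs, Finset.sum_mul]
    refine (Finset.abs_sum_le_sum_abs _ _).trans (Finset.sum_le_sum fun x _ => ?_)
    rw [gib_sum, Finset.sum_mul]
    refine (Finset.abs_sum_le_sum_abs _ _).trans (Finset.sum_le_sum fun y _ => ?_)
    split_ifs with hxy
    · have a1 := gib_sdot_le hK (nbr_ne x y hxy)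
      have a2 := gib_sdot_ge hK (nbr_ne x y hxy)
      have a3 : 0 ≤ (n : ℝ) ^ 2 * gib K 1 := by positivity
      rw [abs_le]
      constructor <;> nlinarith
    · simp [gib_zero]
  have h2 := gib_mag_le hK h
  have h3 := gib_mag_le hK (-h)
  rw [abs_neg] at h3
  rw [Fintype.card_coe] at h2 h3
  have h4 : pairs Λ * (2 * n ^ 2 * gib K 1) ≤ 6 * Λ.card * (2 * n ^ 2 * gib K 1) :=
    mul_le_mul_of_nonneg_right (pairs_le Λ) (by positivity)
  rw [e1, gib_smul, gib_sub, gib_neg, gib_smul, gib_smul, abs_mul, abs_of_nonneg hβ, mul_assoc,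
    mul_assoc]
  refine mul_le_mul_of_nonneg_left ?_ hβ
  have h5 := abs_le.1 (h1.trans h4)
  rw [abs_le]
  constructor <;> nlinarith [h5.1, h5.2]

lemma abs_log_partFn_le (Λ : Finset (Fin 3 → ℤ)) {β : ℝ} (hβ : 0 ≤ β) (h : ℝ) :
    |Real.log (partFn n Λ β h)| ≤
      (Real.log (n + 1) + β * (6 * n ^ 2 + |h| * (n / 2))) * Λ.card := by
  have hK := gen_herm (n := n) (nbr_ne (Λ := Λ)) β h
  have h0 : (0 : Matrix (Λ → Fin (n + 1)) (Λ → Fin (n + 1)) ℂ).IsHermitian := isHermitian_zero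
  have a1 := peierls_bogoliubov hK hK.neg
  have a2 := peierls_bogoliubov h0 hK
  have b1 := abs_le.1 (abs_gib_gen_le Λ hβ h hK)
  have b2 := abs_le.1 (abs_gib_gen_le Λ hβ h h0)
  have hZ := gib_one_pos hK
  have hZ0 := gib_one_pos h0
  have hl : Real.log (gib (0 : Matrix (Λ → Fin (n + 1)) (Λ → Fin (n + 1)) ℂ) 1) =
      Real.log (n + 1) * Λ.card := by
    rw [gib_zero_one, Fintype.card_fun, Fintype.card_fin, Fintype.card_coe]
    push_cast
    rw [Real.log_pow, mul_comm]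
  have hl0 : 0 ≤ Real.log (n + 1) * Λ.card :=
    mul_nonneg (Real.log_nonneg (by linarith [(Nat.cast_nonneg n : (0 : ℝ) ≤ n)])) (by positivity)
  rw [add_neg_cancel, gib_neg, hl] at a1
  rw [zero_add, hl] at a2
  rw [partFn_eq, abs_le]
  have c1 : -gib (gen n (nbr Λ) β h) (gen n (nbr Λ) β h) / gib (gen n (nbr Λ) β h) 1 ≤
      β * (6 * n ^ 2 + |h| * (n / 2)) * Λ.card := by
    rw [div_le_iff₀ hZ]
    linarith [b1.1]
  have c2 : gib 0 (gen n (nbr Λ) β h) / gib (0 : Matrix (Λ → Fin (n + 1)) (Λ → Fin (n + 1)) ℂ) 1 ≤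
      β * (6 * n ^ 2 + |h| * (n / 2)) * Λ.card := by
    rw [div_le_iff₀ hZ0]
    exact b2.2
  constructor <;> nlinarith

/-- Removing bonds, with the energy shift `S²` per bond. -/
lemma drop_bonds {ι : Type} [Fintype ι] [DecidableEq ι] (a b : ι → ι → Prop) [DecidableRel a]
    [DecidableRel b] (ha : ∀ x y, a x y → x ≠ y) (hb : ∀ x y, b x y → a x y) {β : ℝ} (hβ : 0 ≤ β)
    (h : ℝ) :
    Real.log (gib (gen n a β h) 1) -
        β * (n / 2) ^ 2 / 2 * (∑ x, ∑ y, if a x y then (1 : ℝ) else 0) ≤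
      Real.log (gib (gen n b β h) 1) -
        β * (n / 2) ^ 2 / 2 * (∑ x, ∑ y, if b x y then (1 : ℝ) else 0) := by
  have hK := gen_herm (n := n) ha β h
  have hK' := gen_herm (n := n) (fun x y hxy => ha x y (hb x y hxy)) β h
  have a1 := peierls_bogoliubov hK (hK'.sub hK)
  rw [add_sub_cancel] at a1
  have hZ := gib_one_pos hK
  have e1 : gen n b β h - gen n a β h = ((β / 2 : ℝ) : ℂ) • ∑ x, ∑ y,
      ((if a x y then sdot n x y else 0) - if b x y then sdot n x y else 0) := by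
    simp only [gen, hamG, Finset.sum_sub_distrib]
    push_cast
    module
  have h1 : gib (gen n a β h) (gen n b β h - gen n a β h) / gib (gen n a β h) 1 ≤
      β * (n / 2) ^ 2 / 2 * ((∑ x, ∑ y, if a x y then (1 : ℝ) else 0) -
        ∑ x, ∑ y, if b x y then (1 : ℝ) else 0) := by
    rw [div_le_iff₀ hZ, e1, gib_smul, gib_sum]
    have h2 : ∑ x, gib (gen n a β h) (∑ y,
        ((if a x y then sdot n x y else 0) - if b x y then sdot n x y else 0)) ≤
        ((∑ x, ∑ y, if a x y then (1 : ℝ) else 0) - ∑ x, ∑ y, if b x y then (1 : ℝ) else 0) *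
          ((n / 2) ^ 2 * gib (gen n a β h) 1) := by
      rw [← Finset.sum_sub_distrib, Finset.sum_mul]
      refine Finset.sum_le_sum fun x _ => ?_
      rw [← Finset.sum_sub_distrib, Finset.sum_mul, gib_sum]
      refine Finset.sum_le_sum fun y _ => ?_
      by_cases h3 : b x y
      · simp [h3, hb x y h3, gib_zero]
      · by_cases h4 : a x y
        · simpa [h3, h4] using gib_sdot_le hK (ha x y h4)
        · simp [h3, h4, gib_zero]
    have h5 := mul_le_mul_of_nonneg_left h2 (by positivity : 0 ≤ β / 2)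
    refine h5.trans (le_of_eq ?_)
    ring
  linarith

/-- The shifted logarithm of the partition function. -/
noncomputable def shiftLog (n : ℕ) (β h : ℝ) (Λ : Finset (Fin 3 → ℤ)) : ℝ :=
  Real.log (partFn n Λ β h) - β * (n / 2) ^ 2 / 2 * pairs Λ

lemma count_equiv {ι κ : Type} [Fintype ι] [Fintype κ] (e : ι ≃ κ) (a₁ : ι → ι → Prop)
    (a₂ : κ → κ → Prop) [DecidableRel a₁] [DecidableRel a₂]
    (he : ∀ x y, a₁ x y ↔ a₂ (e x) (e y)) :
    (∑ x, ∑ y, if a₁ x y then (1 : ℝ) else 0) = ∑ x, ∑ y, if a₂ x y then (1 : ℝ) else 0 := by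
  rw [← Equiv.sum_comp e]
  refine Finset.sum_congr rfl fun x _ => ?_
  rw [← Equiv.sum_comp e]
  exact Finset.sum_congr rfl fun y _ => if_congr (he x y) rfl rfl

lemma shiftLog_union {β : ℝ} (hβ : 0 ≤ β) (h : ℝ) (A B : Finset (Fin 3 → ℤ))
    (hAB : Disjoint A B) : shiftLog n β h (A ∪ B) ≤ shiftLog n β h A + shiftLog n β h B := by
  classical
  let e : A ⊕ B ≃ (A ∪ B : Finset (Fin 3 → ℤ)) := Equiv.Finset.union A B hAB
  let a : A ⊕ B → A ⊕ B → Prop := fun x y => nbr (A ∪ B) (e x) (e y)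
  have ha : ∀ x y, a x y → x ≠ y := fun x y hxy hh => nbr_ne _ _ hxy (by rw [hh])
  have hb : ∀ x y, Sum.LiftRel (nbr A) (nbr B) x y → a x y := by
    intro x y hxy
    cases hxy with
    | inl h1 => exact h1
    | inr h1 => exact h1
  have h1 := drop_bonds (n := n) a (Sum.LiftRel (nbr A) (nbr B)) ha hb hβ h
  rw [gib_gen_equiv n e a (nbr (A ∪ B)) ha (fun _ _ => Iff.rfl),
    count_equiv e a (nbr (A ∪ B)) (fun _ _ => Iff.rfl),
    gib_gen_sum n (nbr A) (nbr B) nbr_ne nbr_ne,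
    Real.log_mul (gib_one_pos (gen_herm nbr_ne β h)).ne' (gib_one_pos (gen_herm nbr_ne β h)).ne']
    at h1
  have h2 : (∑ x, ∑ y, if Sum.LiftRel (nbr A) (nbr B) x y then (1 : ℝ) else 0) =
      pairs A + pairs B := by
    simp only [Fintype.sum_sum_type, pairs, Sum.liftRel_inl_inl, Sum.liftRel_inr_inr,
      Sum.not_liftRel_inl_inr, Sum.not_liftRel_inr_inl, if_false, Finset.sum_const_zero, add_zero,
      zero_add]
  rw [h2] at h1
  simp only [shiftLog, partFn_eq, pairs] at h1 ⊢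
  linarith

lemma shiftLog_translate (β h : ℝ) (A : Finset (Fin 3 → ℤ)) (a : Fin 3 → ℤ) :
    shiftLog n β h (A.image fun x => x + a) = shiftLog n β h A := by
  let e : A ≃ (A.image fun x => x + a : Finset (Fin 3 → ℤ)) :=
    { toFun := fun x => ⟨x.1 + a, Finset.mem_image_of_mem _ x.2⟩
      invFun := fun y => ⟨y.1 - a, by
        obtain ⟨x, hx, hy⟩ := Finset.mem_image.1 y.2
        rw [← hy, add_sub_cancel_right]
        exact hx⟩
      left_inv := fun x => Subtype.ext (add_sub_cancel_right _ _)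
      right_inv := fun y => Subtype.ext (sub_add_cancel _ _) }
  have he : ∀ x y, nbr A x y ↔ nbr (A.image fun x => x + a) (e x) (e y) := by
    intro x y
    simp [nbr, e]
  simp only [shiftLog, partFn_eq, pairs]
  rw [gib_gen_equiv n e (nbr A) _ nbr_ne he, count_equiv e (nbr A) _ he]

theorem pressure_tendsto (n : ℕ) {β : ℝ} (hβ : 0 < β) (h : ℝ) :
    Tendsto (pressureN n β h) atTop (𝓝 (pressure n β h)) := by
  obtain ⟨l, hl⟩ := limit_of_subadd (shiftLog n β h)
    (Real.log (n + 1) + β * (6 * n ^ 2 + |h| * (n / 2)) + β * (n / 2) ^ 2 / 2 * 6)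
    (shiftLog_union hβ.le h) (shiftLog_translate β h) (fun A => by
      have h1 := abs_le.1 (abs_log_partFn_le (n := n) A hβ.le h)
      have h2 := pairs_le A
      have h3 := pairs_nonneg A
      have h4 : 0 ≤ β * ((n : ℝ) / 2) ^ 2 / 2 := by positivity
      have h5 := mul_le_mul_of_nonneg_left h2 h4
      have h6 := mul_nonneg h4 h3
      have h7 : 0 ≤ β * ((n : ℝ) / 2) ^ 2 / 2 * 6 * A.card := by positivity
      rw [shiftLog, abs_le]
      constructor <;> nlinarith [h1.1, h1.2])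
  have h2 := ((hl.add (pairs_tendsto.const_mul (β * ((n : ℝ) / 2) ^ 2 / 2))).div_const β)
  have h3 : Tendsto (pressureN n β h) atTop (𝓝 ((l + β * ((n : ℝ) / 2) ^ 2 / 2 * 6) / β)) := by
    refine h2.congr fun N => ?_
    have := card_box_pos N
    simp only [shiftLog, pressureN, pairs]
    field_simp
    ring
  rw [pressure, h3.limsup_eq]
  exact h3

end Vale.Agent.P361
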