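import Vale.Agent.P361.Def3

/-!
P361: the complete graph and the total spin.
-/

open scoped Matrix Topology
open Matrix Filter

namespace Vale.Agent.P361

variable {ι : Type} [Fintype ι] [DecidableEq ι] {n : ℕ}

lemma cas_diag (x : ι) : siteOp x (splus n)ᴴ * siteOp x (splus n) =
    ((n : ℂ) + 1) • eta n x - eta n x * eta n x := by
  rw [siteOp_mul, sminus_mul_splus, siteOp_diagonal, eta_eq, diagonal_mul_diagonal,
    ← diagonal_smul, diagonal_sub]
  congr 1
  funext σ
  simp only [Pi.smul_apply, smul_eq_mul]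
  push_cast
  ring

lemma cas_term (x z : ι) : (if x = z then 0 else hop n x z) =
    ((n : ℂ) / 2) • eta n x + ((n : ℂ) / 2) • eta n z - eta n x * eta n z
      - (1 / 2 : ℂ) • (siteOp z (splus n)ᴴ * siteOp x (splus n))
      - (1 / 2 : ℂ) • (siteOp x (splus n)ᴴ * siteOp z (splus n))
      + if x = z then eta n x else 0 := by
  split_ifs with h
  · subst h
    rw [cas_diag]
    module
  · rw [hop, sdot_eq, siteOp_sz_eta, siteOp_sz_eta, ← siteOp_comm h (splus n)]
    simp only [Matrix.sub_mul, Matrix.mul_sub, Matrix.smul_mul, Matrix.mul_smul, Matrix.one_mul,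
      Matrix.mul_one]
    push_cast
    module

theorem cas_pf : S_Cas := by
  intro ι _ _ n
  have hA : (ann n fun _ : ι => 1)ᴴ * (ann n fun _ : ι => 1) =
      ∑ x : ι, ∑ z : ι, siteOp x (splus n)ᴴ * siteOp z (splus n) := by
    simp only [ann, Complex.ofReal_one, one_smul, conjTranspose_sum, siteOp_conjTranspose,
      Finset.sum_mul_sum]
  have hB : (∑ x : ι, ∑ z : ι, siteOp z (splus n)ᴴ * siteOp x (splus n)) =
      ∑ x : ι, ∑ z : ι, siteOp x (splus n)ᴴ * siteOp z (splus n) := Finset.sum_comm
  simp only [cas_term, Finset.sum_add_distrib, Finset.sum_sub_distrib, ← Finset.smul_sum, hA, hB,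
    numT, Finset.sum_mul_sum, Finset.sum_const, Finset.card_univ, Finset.sum_ite_eq,
    Finset.mem_univ, if_true, ← Nat.cast_smul_eq_nsmul ℂ]
  push_cast
  module

end Vale.Agent.P361
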