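import Vale.Agent.P361.Def3

/-!
P361: commutators of the shifted Hamiltonian with the annihilator and the number operator.
-/

open scoped Matrix Topology
open Matrix Filter

namespace Vale.Agent.P361

variable {ι : Type} [Fintype ι] [DecidableEq ι] {n : ℕ}

lemma com_cre (f : ι → ℝ) : (cre n fun x => (f x : ℂ))ᴴ = ann n f := by
  simp only [cre_star, ann, Complex.star_def, Complex.conj_ofReal]

lemma com_sdot {x y : ι} (h : x ≠ y) (f : ι → ℝ) :
    sdot n x y * ann n f - ann n f * sdot n x y =
      ((f x : ℂ) - f y) • (siteOp x (splus n) * siteOp y (spin n 2) -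
        siteOp x (spin n 2) * siteOp y (splus n)) := by
  rw [ann, comm_sum h]
  · rw [sdot_eq]
    simp only [Matrix.add_mul, Matrix.mul_add, Matrix.smul_mul, Matrix.mul_smul, two_mul_left h,
      two_mul_right, left_mul_two, right_mul_two h, splus_sminus_rel, sz_splus_rel, siteOp_add,
      siteOp_smul]
    module
  · intro z hx hy
    rw [sdot, Matrix.sum_mul, Matrix.mul_sum]
    exact Finset.sum_congr rfl fun a _ => two_comm_far hx hy _ _ _

/-- One half of the commutator with a bond. -/
noncomputable def com_G (n : ℕ) (f : ι → ℝ) (x y : ι) :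
    Matrix (ι → Fin (n + 1)) (ι → Fin (n + 1)) ℂ :=
  ((f x - f y : ℝ) : ℂ) • (eta n y * siteOp x (splus n)) -
    (((n : ℝ) / 2 : ℝ) : ℂ) • (((f x - f y : ℝ) : ℂ) • siteOp x (splus n))

lemma com_hop {x y : ι} (h : x ≠ y) (f : ι → ℝ) :
    hop n x y * ann n f - ann n f * hop n x y = com_G n f x y + com_G n f y x := by
  have h1 := com_sdot (n := n) h f
  have h2 : siteOp x (splus n) * eta n y = eta n y * siteOp x (splus n) :=
    (siteOp_comm h _ _).symm
  rw [siteOp_sz_eta, siteOp_sz_eta] at h1
  simp only [Matrix.mul_sub, Matrix.sub_mul, Matrix.mul_smul, Matrix.smul_mul, Matrix.mul_one,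
    Matrix.one_mul, h2] at h1
  have h3 : hop n x y * ann n f - ann n f * hop n x y =
      -(sdot n x y * ann n f - ann n f * sdot n x y) := by
    simp only [hop, Matrix.mul_sub, Matrix.sub_mul, Matrix.mul_smul, Matrix.smul_mul,
      Matrix.mul_one, Matrix.one_mul]
    abel
  rw [h3, h1, com_G, com_G]
  push_cast
  module

lemma com_num (f : ι → ℝ) : numT n ι * ann n f - ann n f * numT n ι = -ann n f := by
  have h1 := congrArg conjTranspose (mag_comm_cre (n := n) fun x => (f x : ℂ))
  rw [conjTranspose_sub, conjTranspose_mul, conjTranspose_mul, conjTranspose_neg, com_cre,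
    magG_herm.eq] at h1
  rw [numT_eq_mag, ← h1]
  simp only [Matrix.mul_sub, Matrix.sub_mul, Matrix.mul_smul, Matrix.smul_mul, Matrix.mul_one,
    Matrix.one_mul]
  abel

lemma com_mag {x y : ι} (h : x ≠ y) : Commute (sdot n x y) (magG n ι) := by
  have h1 := comm_sum h (sdot n x y) (spin n 2) (fun _ => 1) fun z hx hy => by
    rw [sdot, Matrix.sum_mul, Matrix.mul_sum]
    exact Finset.sum_congr rfl fun a _ => two_comm_far hx hy _ _ _
  simp only [one_smul] at h1
  refine sub_eq_zero.1 (h1.trans ?_)
  rw [sdot_eq]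
  simp only [Matrix.add_mul, Matrix.mul_add, Matrix.smul_mul, Matrix.mul_smul, two_mul_left h,
    two_mul_right, left_mul_two, right_mul_two h, sz_splus_rel, sz_sminus_rel, siteOp_add,
    siteOp_sub, Matrix.sub_mul, Matrix.mul_sub]
  module

variable {adj : ι → ι → Prop} [DecidableRel adj]

lemma com_htil (h1 : ∀ x y, adj x y → x ≠ y) (h2 : ∀ x y, adj x y → adj y x) (f : ι → ℝ) :
    htil n adj * ann n f - ann n f * htil n adj =
      ∑ x, ∑ y, if adj x y then com_G n f x y else 0 := by
  have e1 : htil n adj * ann n f - ann n f * htil n adj = ((1 / 2 : ℝ) : ℂ) •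
      ((∑ x, ∑ y, if adj x y then com_G n f x y else 0) +
        ∑ x, ∑ y, if adj x y then com_G n f y x else 0) := by
    rw [htil, Matrix.smul_mul, Matrix.mul_smul, ← smul_sub, Matrix.sum_mul, Matrix.mul_sum,
      ← Finset.sum_sub_distrib, ← Finset.sum_add_distrib]
    congr 1
    refine Finset.sum_congr rfl fun x _ => ?_
    rw [Matrix.sum_mul, Matrix.mul_sum, ← Finset.sum_sub_distrib, ← Finset.sum_add_distrib]
    refine Finset.sum_congr rfl fun y _ => ?_
    split_ifs with h
    · exact com_hop (h1 x y h) f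
    · simp
  have e2 : (∑ x, ∑ y, if adj x y then com_G n f y x else 0) =
      ∑ x, ∑ y, if adj x y then com_G n f x y else 0 := by
    rw [Finset.sum_comm]
    exact Finset.sum_congr rfl fun x _ => Finset.sum_congr rfl fun y _ =>
      if_congr ⟨h2 _ _, h2 _ _⟩ rfl rfl
  rw [e1, e2]
  push_cast
  module

lemma com_sumG (f : ι → ℝ) : (∑ x, ∑ y, if adj x y then com_G n f x y else 0) =
    (∑ x, ∑ y, if adj x y then ((f x - f y : ℝ) : ℂ) • (eta n y * siteOp x (splus n)) else 0) -
      (((n : ℝ) / 2 : ℝ) : ℂ) • ann n (fun x => ∑ y, if adj x y then f x - f y else 0) := by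
  rw [ann, Finset.smul_sum, ← Finset.sum_sub_distrib]
  refine Finset.sum_congr rfl fun x _ => ?_
  rw [Complex.ofReal_sum, Finset.sum_smul, Finset.smul_sum, ← Finset.sum_sub_distrib]
  refine Finset.sum_congr rfl fun y _ => ?_
  split_ifs
  · rfl
  · simp

theorem com_pf : S_Com := by
  intro ι _ _ n adj _ β δ h1 h2
  refine ⟨fun f => ?_, fun f => ?_, ?_⟩
  · have e : ktil n adj β δ * ann n f - ann n f * ktil n adj β δ =
        (β : ℂ) • (htil n adj * ann n f - ann n f * htil n adj) +
          (δ : ℂ) • (numT n ι * ann n f - ann n f * numT n ι) := by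
      simp only [ktil, Matrix.add_mul, Matrix.mul_add, Matrix.smul_mul, Matrix.mul_smul]
      module
    rw [e, com_htil h1 h2, com_sumG, com_num]
    generalize (∑ x, ∑ y, if adj x y then
      ((f x - f y : ℝ) : ℂ) • (eta n y * siteOp x (splus n)) else 0) = X
    push_cast
    module
  · have e := cre_comm (n := n) fun x => (f x : ℂ)
    rw [← com_cre, conjTranspose_conjTranspose, e]
    simp only [Complex.normSq_ofReal, sq]
  · have e : Commute (htil n adj) (numT n ι) := by
      rw [htil]
      refine Commute.smul_left (Commute.sum_left _ _ _ fun x _ =>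
        Commute.sum_left _ _ _ fun y _ => ?_) _
      split_ifs with h
      · rw [hop, numT_eq_mag]
        exact Commute.sub_left ((Commute.one_left _).smul_left _)
          (((Commute.one_right _).smul_right _).sub_right (com_mag (h1 x y h)))
      · exact Commute.zero_left _
    exact (e.smul_left _).add_left ((Commute.refl _).smul_left _)

end Vale.Agent.P361
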