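import Vale.Agent.P361.Def3

/-!
P361: the density bound in a box.
-/

open scoped Matrix Topology
open Matrix Filter

namespace Vale.Agent.P361

lemma dbp_O {ι : Type} [Fintype ι] {adj : ι → ι → Prop} [DecidableRel adj]
    (hs : ∀ x y, adj x y → adj y x) (hn : ∀ x, ∃ y, adj x y) {o : ι → ℝ} (ho : ∀ x, 0 ≤ o x)
    {a b : ι → ι → ℝ} (h : ∀ x y, adj x y → o x + o y ≤ 2 * a x y + 2 * b x y) :
    ∑ x, o x ≤ (∑ x, ∑ y, if adj x y then a x y else 0) +
      ∑ x, ∑ y, if adj x y then b x y else 0 := by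
  have h1 : ∑ x, o x ≤ ∑ x, ∑ y, if adj x y then o x else 0 := by
    refine Finset.sum_le_sum fun x _ => ?_
    obtain ⟨y, hy⟩ := hn x
    refine le_trans (le_of_eq (if_pos hy).symm) (Finset.single_le_sum
      (f := fun y => if adj x y then o x else 0) (fun z _ => ?_) (Finset.mem_univ y))
    split_ifs
    exacts [ho x, le_rfl]
  have h2 : (∑ x, ∑ y, if adj x y then o x else 0) = ∑ x, ∑ y, if adj x y then o y else 0 := by
    rw [Finset.sum_comm]
    exact Finset.sum_congr rfl fun x _ => Finset.sum_congr rfl fun y _ =>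
      if_congr ⟨hs _ _, hs _ _⟩ rfl rfl
  have h3 : (∑ x, ∑ y, if adj x y then o x else 0) + (∑ x, ∑ y, if adj x y then o y else 0) ≤
      2 * (∑ x, ∑ y, if adj x y then a x y else 0) +
        2 * ∑ x, ∑ y, if adj x y then b x y else 0 := by
    simp only [Finset.mul_sum, ← Finset.sum_add_distrib]
    refine Finset.sum_le_sum fun x _ => Finset.sum_le_sum fun y _ => ?_
    split_ifs with hxy
    · exact h x y hxy
    · simp
  linarith

lemma dbp_nbr {N : ℕ} (hN : 1 ≤ N) (x : box N) : ∃ y, nbr (box N) x y := by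
  have hx := fk_mem.1 x.2
  have key : ∀ e : ℤ, |e| = 1 → -(N : ℤ) ≤ x.1 0 + e → x.1 0 + e ≤ N → ∃ y, nbr (box N) x y := by
    intro e he h1 h2
    refine ⟨⟨Function.update x.1 0 (x.1 0 + e), fk_mem.2 fun i => ?_⟩, ?_⟩
    · rcases eq_or_ne i 0 with rfl | hi
      · rw [Function.update_self]
        exact ⟨h1, h2⟩
      · rw [Function.update_of_ne hi]
        exact hx i
    · simp [nbr, Fin.sum_univ_three, he]
  have h0 := hx 0
  rcases lt_or_ge (x.1 0) N with h | h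
  · exact key 1 rfl (by omega) (by omega)
  · exact key (-1) rfl (by omega) (by omega)

lemma dbp_fin {n Nn O Z U c N2 g P H m h j j' : ℝ} (hn : 1 ≤ n) (hZ : 0 < Z) (hc : 0 ≤ c)
    (hg : 0 ≤ g) (hj : 0 ≤ j) (hj' : 0 ≤ j') (hP : 0 ≤ P) (hH : 0 ≤ H)
    (h1 : n * Nn - O ≤ n * Z * U + c * (n * N2) + n * g * P) (h2 : O ≤ 2 * H + P)
    (h3 : P ≤ j * N2 + 24 * j' * (2 * H)) (h4 : H / Z ≤ h) (h5 : N2 / Z ≤ m) :
    Nn / Z ≤ U + (c * m + (g + 1) * (j * m + 48 * j' * h) + 2 * h) := by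
  rw [div_le_iff₀ hZ] at h4 h5 ⊢
  have k1 : Nn ≤ Z * U + c * N2 + (g + 1) * P + 2 * H := by
    refine le_of_mul_le_mul_left ?_ (zero_lt_one.trans_le hn)
    nlinarith [mul_nonneg (sub_nonneg.2 hn) (add_nonneg hP (add_nonneg hH hH))]
  have k2 : P ≤ (j * m + 48 * j' * h) * Z := by
    nlinarith [mul_le_mul_of_nonneg_left h5 hj, mul_le_mul_of_nonneg_left h4 hj']
  nlinarith [mul_le_mul_of_nonneg_left h5 hc,
    mul_le_mul_of_nonneg_left k2 (add_nonneg hg zero_le_one)]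

theorem db_pf (h3 : S_Mode3) (h1 : S_One) (hS : S_Sum) (hG : S_Gam) (hW : S_Win) (hT : S_Tri)
    (hM : S_Mom) : S_DB := by
  intro n N J β δ₀ δ θ τ R hn hJ hJN hβ hδ₀ hδ hθ hθ1 hτ hR r1 r2
  have hδ' : 0 < δ := hδ₀.trans_le hδ
  have hn' : (1 : ℝ) ≤ n := by exact_mod_cast hn
  have p1 : 0 ≤ 3 * τ / θ := by positivity
  have p2 : 0 ≤ 4 / (θ * τ) * (2 * β / ((n : ℝ) / 2 * (2 * (N : ℝ) + 1) ^ 2 * δ₀) +
      (1 + Real.log (2 * (N : ℝ) + 1)) ^ 2 / (2 * ((n : ℝ) / 2) ^ 2)) := by positivity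
  have p3 : 0 ≤ 18 / (J : ℝ) := by positivity
  have p4 : 0 ≤ 8 / (2 * (N : ℝ) + 1) ^ 3 := by positivity
  have p5 : 0 ≤ n * (8 / (2 * (N : ℝ) + 1) ^ 3) / (2 * θ * τ) := by positivity
  have g1 := mul_le_mul_of_nonneg_left
    (hG (2 * N + 1) β δ (n / 2) (by omega) hβ hδ' (by positivity)) p5
  have g2 : _ ≤ n * (4 / (θ * τ) * (2 * β / ((n : ℝ) / 2 * (2 * (N : ℝ) + 1) ^ 2 * δ₀) +
      (1 + Real.log (2 * (N : ℝ) + 1)) ^ 2 / (2 * ((n : ℝ) / 2) ^ 2))) := g1.trans (by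
    have e : ∀ G : ℝ, n * (8 / (2 * (N : ℝ) + 1) ^ 3) / (2 * θ * τ) * ((2 * (N : ℝ) + 1) ^ 3 * G) =
        n * (4 / (θ * τ) * G) := fun G => by
      field_simp
      ring
    push_cast
    rw [e]
    clear g1
    gcongr)
  obtain ⟨f, f1, f2, f3, f4⟩ := h3 N
  have hK := ktil_herm (n := n) (nbr_ne (Λ := box N)) β δ
  obtain ⟨s1, s2, s3, s4, s5⟩ := hS (box N) _ n f _ hK f1
  obtain ⟨t1, t2, t3⟩ := hT (box N) n _ hn hK
  obtain ⟨m1, m2⟩ := hM n (box N) β δ₀ δ R hβ hδ₀ hδ hR r1 r2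
  have hl : ∀ k, 0 ≤ lam (2 * N + 1) k := fun k => Finset.sum_nonneg fun i _ =>
    mul_nonneg zero_le_two (sub_nonneg.2 (Real.cos_le_one _))
  have a1 := Finset.sum_le_sum fun k (_ : k ∈ Finset.univ) => h1 (box N) n (nbr (box N)) β δ θ τ
    (lam (2 * N + 1) k) (8 / (2 * (N : ℝ) + 1) ^ 3) (f k) nbr_ne nbr_symm (nbr_deg _) hβ hδ' hθ hθ1
    hτ (hl k) p4 (f2 k) (f3 k) (f4 k)
  have a2 := dbp_O nbr_symm (dbp_nbr (by omega)) s5 fun x y h => t3 x y (nbr_ne x y h)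
  have a3 := hW N J (dd n (ktil n (nbr (box N)) β δ))
    (fun x y => gib (ktil n (nbr (box N)) β δ) (eta n x * eta n y)) hJ hJN
    (fun x y => by
      unfold dd
      split_ifs with h
      exacts [le_rfl, gib_hop_nonneg hK h])
    (fun x => if_pos rfl) t1 s4 fun x y z k1 k2 k3 => by
      rw [dd, if_neg k3]
      exact t2 x y z k1 k2 k3
  have a4 : (∑ x, ∑ y, if nbr (box N) x y then dd n (ktil n (nbr (box N)) β δ) x y else 0) =
      2 * gib (ktil n (nbr (box N)) β δ) (htil n (nbr (box N))) := by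
    rw [← gib_htil]
    exact Finset.sum_congr rfl fun x _ => Finset.sum_congr rfl fun y _ =>
      if_ctx_congr Iff.rfl (fun h => if_neg (nbr_ne x y h)) fun _ => rfl
  have a5 : 0 ≤ ∑ x, ∑ y, if nbr (box N) x y then
      gib (ktil n (nbr (box N)) β δ) (eta n x * eta n y) else 0 :=
    Finset.sum_nonneg fun x _ => Finset.sum_nonneg fun y _ => by
      split_ifs
      exacts [s4 x y, le_rfl]
  rw [a4, s3] at a3
  rw [gib_htil] at a2
  rw [s1, Finset.sum_add_distrib, Finset.sum_add_distrib, ← Finset.mul_sum, ← Finset.sum_mul,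
    ← Finset.mul_sum] at a1
  refine dbp_fin hn' (gib_one_pos hK) p1 p2 p3 (sq_nonneg _) a5 (gib_htil_nonneg nbr_ne hK)
    (a1.trans ?_) a2 a3 m1 m2
  refine add_le_add (add_le_add (le_of_eq ?_) (mul_le_mul_of_nonneg_left s2 p1))
    (mul_le_mul_of_nonneg_right g2 a5)
  rw [Finset.mul_sum]
  exact Finset.sum_congr rfl fun k _ => (mul_one_div _ _).symm

end Vale.Agent.P361
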