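import Vale.Agent.P361.Def3

open scoped Matrix Topology
open Matrix Filter

namespace Vale.Agent.P361

theorem ent_geo {y : ℝ} (h0 : 0 ≤ y) (h1 : y ≤ 1 / 2) (m : ℕ) :
    ∑ j ∈ Finset.range m, y ^ j ≤ Real.exp (2 * y) := by
  have h2 : y < 1 := by linarith
  have h3 := (summable_geometric_of_lt_one h0 h2).sum_le_tsum (Finset.range m)
    fun j _ => pow_nonneg h0 j
  rw [tsum_geometric_of_lt_one h0 h2] at h3
  have h4 : (1 - y)⁻¹ ≤ 2 * y + 1 := by
    rw [inv_le_iff_one_le_mul₀ (by linarith)]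
    nlinarith
  exact h3.trans (h4.trans (Real.add_one_le_exp _))

theorem ent_prod (ι : Type) [Fintype ι] [DecidableEq ι] (n : ℕ) {μ : ℝ}
    (h : Real.exp (-μ) ≤ 1 / 2) :
    ∑ σ : ι → Fin (n + 1), Real.exp (-(μ * ∑ x, ((σ x : ℕ) : ℝ))) ≤
      Real.exp (2 * Fintype.card ι * Real.exp (-μ)) := by
  have h1 : ∀ σ : ι → Fin (n + 1), Real.exp (-(μ * ∑ x, ((σ x : ℕ) : ℝ))) =
      ∏ x, Real.exp (-μ) ^ (σ x : ℕ) := by
    intro σ
    rw [Finset.mul_sum, ← Finset.sum_neg_distrib, Real.exp_sum]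
    refine Finset.prod_congr rfl fun x _ => ?_
    rw [← Real.exp_nat_mul]
    ring_nf
  have h2 := Finset.prod_univ_sum (fun _ : ι => (Finset.univ : Finset (Fin (n + 1))))
    fun _ j => Real.exp (-μ) ^ (j : ℕ)
  rw [Fintype.piFinset_univ, Finset.prod_const, Finset.card_univ,
    Fin.sum_univ_eq_sum_range (fun j => Real.exp (-μ) ^ j)] at h2
  simp only [h1]
  rw [← h2]
  refine (pow_le_pow_left₀ (Finset.sum_nonneg fun j _ => by positivity)
    (ent_geo (Real.exp_pos _).le h _) _).trans (le_of_eq ?_)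
  rw [← Real.exp_nat_mul]
  ring_nf

theorem ent_hole (ι : Type) [Fintype ι] [DecidableEq ι] (n : ℕ) (μ : ℝ) :
    ∑ σ : ι → Fin (n + 1),
        Real.exp (-(μ * ((n : ℝ) * Fintype.card ι - ∑ x, ((σ x : ℕ) : ℝ)))) =
      ∑ σ : ι → Fin (n + 1), Real.exp (-(μ * ∑ x, ((σ x : ℕ) : ℝ))) := by
  refine Fintype.sum_equiv (Equiv.piCongrRight fun _ => Fin.revPerm) _ _ fun σ => ?_
  have h1 : ∀ x, (((Equiv.piCongrRight fun _ : ι => Fin.revPerm) σ x : ℕ) : ℝ) =
      n - ((σ x : ℕ) : ℝ) := by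
    intro x
    have h2 : (σ x : ℕ) ≤ n := Nat.lt_succ_iff.1 (σ x).2
    change ((Fin.rev (σ x) : ℕ) : ℝ) = _
    rw [Fin.val_rev, Nat.add_sub_add_right, Nat.cast_sub h2]
  simp only [h1]
  rw [Finset.sum_sub_distrib, Finset.sum_const, Finset.card_univ, nsmul_eq_mul,
    mul_comm (n : ℝ)]

theorem ent_pf : S_Ent := by
  refine ⟨fun ι _ _ n hV => ?_, fun n Λ β δ hβ hδ => ?_⟩
  · have h1 : (2 : ℝ) ≤ Fintype.card ι := by exact_mod_cast hV
    have h0 : (0 : ℝ) < Fintype.card ι := by linarith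
    have h2 : Real.exp (-Real.log (Fintype.card ι)) = (Fintype.card ι : ℝ)⁻¹ := by
      rw [Real.exp_neg, Real.exp_log h0]
    have h3 := ent_prod ι n (μ := Real.log (Fintype.card ι)) (by
      rw [h2, one_div]
      exact inv_anti₀ two_pos h1)
    rw [h2, mul_assoc, mul_inv_cancel₀ h0.ne', mul_one] at h3
    have h4 : Real.exp 2 ≤ 8 := by
      have h5 : Real.exp 2 = Real.exp 1 * Real.exp 1 := by
        rw [← Real.exp_add]
        norm_num
      nlinarith [Real.exp_one_lt_d9, Real.exp_pos 1]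
    have h5 := ent_hole ι n (Real.log (Fintype.card ι))
    refine (Finset.sum_le_sum (g := fun σ : ι → Fin (n + 1) =>
      Real.exp (-(Real.log (Fintype.card ι) * ∑ x, ((σ x : ℕ) : ℝ))) +
        Real.exp (-(Real.log (Fintype.card ι) *
          ((n : ℝ) * Fintype.card ι - ∑ x, ((σ x : ℕ) : ℝ))))) fun σ _ => ?_).trans ?_
    · rcases min_choice (∑ x, ((σ x : ℕ) : ℝ))
        ((n : ℝ) * Fintype.card ι - ∑ x, ((σ x : ℕ) : ℝ)) with h | h
      · rw [h]
        exact le_add_of_nonneg_right (Real.exp_pos _).le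
      · rw [h]
        exact le_add_of_nonneg_left (Real.exp_pos _).le
    · rw [Finset.sum_add_distrib, h5]
      linarith
  · refine (lzt_anti Λ hβ le_rfl).trans ?_
    have h1 : ktil n (nbr Λ) 0 δ =
        diagonal fun σ : Λ → Fin (n + 1) => ((δ * ∑ x, ((σ x : ℕ) : ℝ) : ℝ) : ℂ) := by
      rw [ktil, numT_eq, Complex.ofReal_zero, zero_smul, zero_add, ← diagonal_smul]
      congr 1
      funext σ
      simp
    have h2 : Real.exp (-δ) ≤ 1 / 2 := by
      rw [Real.exp_neg, one_div]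
      exact inv_anti₀ two_pos (by linarith [Real.add_one_le_exp δ])
    have h3 := ent_prod Λ n h2
    rw [Fintype.card_coe] at h3
    rw [lzt, h1, gib_diagonal_one, Real.log_le_iff_le_exp]
    · exact h3
    · exact Finset.sum_pos (fun σ _ => Real.exp_pos _) Finset.univ_nonempty

end Vale.Agent.P361
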