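import Vale.Agent.P361.Def3

/-!
P361, second part: the two-sided law from the bounds on the pressure.
-/

open scoped Matrix Topology
open Matrix Filter

namespace Vale.Agent.P361

theorem fin_cS (n : ℕ) : 0 ≤ cS n := by
  unfold cS
  positivity

theorem fin_ev1 (K ε : ℝ) (hε : 0 < ε) (C : ℝ) :
    ∀ᶠ β : ℝ in atTop, C / Real.sqrt β * K ≤ ε := by
  have h : Tendsto (fun β : ℝ => C / Real.sqrt β * K) atTop (𝓝 (0 * K)) :=
    (Real.tendsto_sqrt_atTop.const_div_atTop C).mul_const K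
  rw [zero_mul] at h
  exact h.eventually (eventually_le_nhds hε)

theorem fin_ev2 (K ε : ℝ) (hε : 0 < ε) (C : ℝ) : ∀ᶠ β : ℝ in atTop,
    C / Real.sqrt β * K + β ^ (-(1 / 90) : ℝ) ≤ β ^ (-(1 / 200) : ℝ) / 2 * ε := by
  have h : Tendsto (fun β : ℝ => C * K * β ^ (-(1 / 2 - 1 / 200) : ℝ)
      + β ^ (-(1 / 90 - 1 / 200) : ℝ)) atTop (𝓝 (C * K * 0 + 0)) :=
    ((tendsto_rpow_neg_atTop (by norm_num)).const_mul _).add (tendsto_rpow_neg_atTop (by norm_num))
  rw [mul_zero, add_zero] at h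
  filter_upwards [h.eventually (eventually_le_nhds (half_pos hε)), eventually_gt_atTop 0]
    with β h1 hβ
  have e1 : C / Real.sqrt β = C * (β ^ (-(1 / 2 - 1 / 200) : ℝ) * β ^ (-(1 / 200) : ℝ)) := by
    rw [← Real.rpow_add hβ, Real.sqrt_eq_rpow, div_eq_mul_inv, ← Real.rpow_neg hβ.le]
    norm_num
  have e2 : β ^ (-(1 / 90) : ℝ) = β ^ (-(1 / 90 - 1 / 200) : ℝ) * β ^ (-(1 / 200) : ℝ) := by
    rw [← Real.rpow_add hβ]
    norm_num
  have h2 := mul_le_mul_of_nonneg_right h1 (Real.rpow_pos_of_pos hβ (-(1 / 200) : ℝ)).le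
  rw [e1, e2]
  linarith

theorem fin_slope {p : ℝ → ℝ} (hp : ConvexOn ℝ Set.univ p) (h k : ℝ) (hk : 0 < k) :
    derivWithin p (Set.Ici h) h ≤ (p (h + k) - p h) / (h + k - h) ∧
      p h - p (h - k) ≤ derivWithin p (Set.Ici h) h * k := by
  rw [← derivWithin_Ioi_eq_Ici]
  constructor
  · have := hp.rightDeriv_le_slope_of_mem_interior (x := h) (y := h + k) (by simp)
      (Set.mem_univ _) (by linarith)
    rwa [slope_def_field] at this
  · have h1 := hp.slope_le_leftDeriv_of_mem_interior (x := h - k) (y := h) (Set.mem_univ _)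
      (by simp) (by linarith)
    have h2 := hp.leftDeriv_le_rightDeriv_of_mem_interior (x := h) (by simp)
    rw [slope_def_field, sub_sub_cancel] at h1
    exact (div_le_iff₀ hk).1 (h1.trans h2)

theorem fin_pf (hU : S_Up) (hL : S_Lo) (hS : S_Slope) (hG : S_G) : S_Fin := by
  intro n hn ε hε
  obtain ⟨C1, β1, hC1, hβ1, h1⟩ := hS n hn
  obtain ⟨C2, β2, hC2, -, h2⟩ := hL n hn
  obtain ⟨g1, -, g3, -, g5, -⟩ := hG
  have hc := fin_cS n
  set c := cS n with hcd
  obtain ⟨η₀, hη₀, g6⟩ := g5 (ε / 2 / (c + 1)) (by positivity)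
  have hce : c * (ε / 2 / (c + 1)) ≤ ε / 2 := by
    rw [mul_div_assoc', div_le_iff₀ (by positivity)]
    nlinarith
  generalize ε / 2 / (c + 1) = e at g6 hce
  have t0 : Tendsto (fun β : ℝ => β ^ (-(1 / 200) : ℝ)) atTop (𝓝 0) :=
    tendsto_rpow_neg_atTop (by norm_num)
  filter_upwards [hU n hn, eventually_ge_atTop β1, eventually_ge_atTop β2,
    t0.eventually (eventually_le_nhds (lt_min hη₀ one_pos)),
    fin_ev1 (c * gser (3 / 2) 0) _ (half_pos hε) C1,
    fin_ev2 (c * gser (5 / 2) 0) _ (half_pos hε) C2] with β u1 b1 b2 e1 e2 e3 h hh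
  have hβ : 0 < β := lt_of_lt_of_le hβ1 b1
  have ha : 0 < β ^ (-(1 / 200) : ℝ) := Real.rpow_pos_of_pos hβ _
  have hδ : β ^ (-(1 / 200) : ℝ) ≤ β * h := by
    refine le_trans (le_of_eq ?_) (mul_le_mul_of_nonneg_left hh hβ.le)
    rw [mul_comm, ← Real.rpow_add_one hβ.ne']
    norm_num
  have hb : 0 < β ^ (-(1 / 90) : ℝ) := Real.rpow_pos_of_pos hβ _
  have e4 := e1.trans (min_le_left _ _)
  have e5 := e1.trans (min_le_right _ _)
  generalize β ^ (-(1 / 90) : ℝ) = b at u1 e3 hb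
  obtain ⟨η, hη⟩ : ∃ η, η = β ^ (-(1 / 200) : ℝ) / 2 := ⟨_, rfl⟩
  rw [← hη] at u1 e3
  have η1 : 0 < η := by linarith
  have η2 : 2 * η ≤ β * h := by linarith
  have η3 : η ≤ η₀ := by linarith
  have η4 : η ≤ 1 := by linarith
  have h0 : 0 ≤ h := (Real.rpow_pos_of_pos hβ _).le.trans hh
  have hB : 0 < β ^ (3 / 2 : ℝ) := Real.rpow_pos_of_pos hβ _
  have eB : β ^ (5 / 2 : ℝ) = β ^ (3 / 2 : ℝ) * β := by
    rw [← Real.rpow_add_one hβ.ne']
    norm_num
  have s1 : 0 ≤ C1 / Real.sqrt β := by positivity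
  have s2 : 0 ≤ C2 / Real.sqrt β := by positivity
  have k0 : 0 < η / β := div_pos η1 hβ
  have k1 : β * (η / β) = η := by field_simp
  obtain ⟨m1, m2⟩ := fin_slope (pressure_convex n hβ) h (η / β) k0
  have l1 := h1 β h (h + η / β) b1 h0 (by linarith)
  have l2 := h2 β (β * h) b2 (by linarith)
  have l3 := u1 (β * h) (by linarith)
  have l4 := u1 (β * h - η) (by linarith)
  have d1 : β * h / β = h := by field_simp
  have d2 : (β * h - η) / β = h - η / β := by field_simp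
  rw [d1] at l2 l3
  rw [d2] at l4
  rw [mul_add, k1] at l1
  have a1 := g1 (3 / 2) (β * h + η) (by norm_num) (by linarith)
  have a2 := g1 (5 / 2) (β * h) (by norm_num) (by linarith)
  have a3 := g3 (β * h - η) (β * h) (by linarith) (by linarith)
  have a4 := abs_le.1 (g6 (β * h + η) (β * h) (by linarith) (by linarith) (by
    rw [add_sub_cancel_left, abs_of_pos η1]; exact η3))
  have a5 := abs_le.1 (g6 (β * h - η) (β * h) (by linarith) (by linarith) (by
    rw [sub_sub_cancel_left, abs_neg, abs_of_pos η1]; exact η3))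
  rw [sub_sub_cancel] at a3
  have p1 := mul_le_mul_of_nonneg_left (mul_le_mul_of_nonneg_left a1.2.2 hc) s1
  have p2 := mul_le_mul_of_nonneg_left (mul_le_mul_of_nonneg_left a2.2.2 hc) s2
  have p3 := mul_le_mul_of_nonneg_left a4.1 hc
  have p4 := mul_le_mul_of_nonneg_left a5.2 hc
  have p5 := mul_le_mul_of_nonneg_left a3 hc
  have p6 := mul_le_mul_of_nonneg_left m1 hB.le
  have p7 := mul_le_mul_of_nonneg_left m2 (mul_pos hB hβ).le
  have p8 : η * (ε / 2) ≤ ε / 2 := mul_le_of_le_one_left (half_pos hε).le η4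
  have p9 : 0 ≤ C2 / Real.sqrt β * (c * gser (5 / 2) 0) :=
    mul_nonneg s2 (mul_nonneg hc (a2.2.1.le.trans a2.2.2))
  refine ⟨abs_le.2 ⟨by linarith, ?_⟩, abs_le.2 ⟨by linarith, by linarith⟩⟩
  have q1 : η * (c * gser (3 / 2) (β * h - η)) ≤ η * (c * gser (3 / 2) (β * h) + ε / 2) :=
    mul_le_mul_of_nonneg_left (by linarith) η1.le
  have q2 : β ^ (5 / 2 : ℝ) * qfun n β (h - η / β) - β ^ (5 / 2 : ℝ) * qfun n β h =
      β ^ (3 / 2 : ℝ) * ((n : ℝ) / 2) * η -
        β ^ (3 / 2 : ℝ) * β * (pressure n β h - pressure n β (h - η / β)) := by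
    rw [eB]
    unfold qfun
    linear_combination β ^ (3 / 2 : ℝ) * ((n : ℝ) / 2) * k1
  have q3 : β ^ (3 / 2 : ℝ) * β * (derivWithin (pressure n β) (Set.Ici h) h * (η / β)) =
      β ^ (3 / 2 : ℝ) * derivWithin (pressure n β) (Set.Ici h) h * η := by
    linear_combination β ^ (3 / 2 : ℝ) * derivWithin (pressure n β) (Set.Ici h) h * k1
  refine le_of_mul_le_mul_left ?_ η1
  linarith

end Vale.Agent.P361
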