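import Vale.Agent.P361.Def2

/-! P361: properties of the Bose functions. -/

open scoped Matrix Topology
open Matrix Filter

namespace Vale.Agent.P361

theorem gpf_s0 {a : ℝ} (ha : 1 < a) : Summable fun j : ℕ => 1 / ((j : ℝ) + 1) ^ a := by
  simpa only [Nat.cast_add, Nat.cast_one] using (summable_nat_add_iff 1).2
    (Real.summable_one_div_nat_rpow.2 ha)

theorem gpf_exp {δ : ℝ} (hδ : 0 ≤ δ) (j : ℕ) : Real.exp (-(((j : ℝ) + 1) * δ)) ≤ 1 :=
  Real.exp_le_one_iff.2 (neg_nonpos.2 (by positivity))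

theorem gpf_le (a : ℝ) {δ : ℝ} (hδ : 0 ≤ δ) (j : ℕ) :
    Real.exp (-(((j : ℝ) + 1) * δ)) / ((j : ℝ) + 1) ^ a ≤ 1 / ((j : ℝ) + 1) ^ a :=
  div_le_div_of_nonneg_right (gpf_exp hδ j) (by positivity)

theorem gpf_sum {a δ : ℝ} (ha : 1 < a) (hδ : 0 ≤ δ) :
    Summable fun j : ℕ => Real.exp (-(((j : ℝ) + 1) * δ)) / ((j : ℝ) + 1) ^ a :=
  Summable.of_nonneg_of_le (fun j => by positivity) (gpf_le a hδ) (gpf_s0 ha)

theorem gpf_zero (a : ℝ) : gser a 0 = ∑' j : ℕ, 1 / ((j : ℝ) + 1) ^ a := by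
  simp only [gser, mul_zero, neg_zero, Real.exp_zero]

theorem gpf_pos {a δ : ℝ} (ha : 1 < a) (hδ : 0 ≤ δ) : 0 < gser a δ :=
  (gpf_sum ha hδ).tsum_pos (fun j => by positivity) 0 (by positivity)

theorem gpf_key {a b c d : ℝ} (ha : 0 ≤ a) (hb : 0 ≤ b) (hd : 0 ≤ d)
    (h : ∀ x : ℝ, 1 ≤ x → Real.exp (-(x * a)) - Real.exp (-(x * b)) ≤
      c * (x * Real.exp (-(x * d)))) : gser (5 / 2) a - gser (5 / 2) b ≤ c * gser (3 / 2) d := by
  have s1 := gpf_sum (a := 5 / 2) (by norm_num) ha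
  have s2 := gpf_sum (a := 5 / 2) (by norm_num) hb
  have s3 := gpf_sum (a := 3 / 2) (by norm_num) hd
  rw [gser, gser, gser, ← s1.tsum_sub s2, ← tsum_mul_left]
  refine (s1.sub s2).tsum_le_tsum (fun j => ?_) (s3.mul_left c)
  have hx : (1 : ℝ) ≤ (j : ℝ) + 1 := le_add_of_nonneg_left (Nat.cast_nonneg j)
  generalize (j : ℝ) + 1 = x at hx
  have h0 : 0 < x := by linarith
  have e : x ^ (5 / 2 : ℝ) = x * x ^ (3 / 2 : ℝ) := by
    rw [show (5 / 2 : ℝ) = 1 + 3 / 2 by norm_num, Real.rpow_add h0, Real.rpow_one]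
  rw [← sub_div, ← mul_div_mul_left _ (x ^ (3 / 2 : ℝ)) h0.ne', ← e, ← mul_div_assoc]
  exact div_le_div_of_nonneg_right (h x hx) (by positivity)

theorem gpf_e (x y : ℝ) : Real.exp (-x) - Real.exp (-y) ≤ (y - x) * Real.exp (-x) := by
  have h1 : Real.exp (-y) = Real.exp (-x) * Real.exp (x - y) := by
    rw [← Real.exp_add]
    congr 1
    ring
  have h2 := mul_le_mul_of_nonneg_left (Real.add_one_le_exp (x - y)) (Real.exp_pos (-x)).le
  linarith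

theorem gpf_3 {a b : ℝ} (ha : 0 ≤ a) (hb : 0 ≤ b) :
    gser (5 / 2) a - gser (5 / 2) b ≤ (b - a) * gser (3 / 2) a :=
  gpf_key ha hb ha fun x _ => (gpf_e (x * a) (x * b)).trans_eq (by ring)

theorem gpf_4 {δ θ : ℝ} (hδ : 0 ≤ δ) (h0 : 0 ≤ θ) (h1 : θ ≤ 1 / 2) :
    gser (5 / 2) ((1 - θ) * δ) - gser (5 / 2) δ ≤ 2 * θ * gser (3 / 2) 0 := by
  have hθ : 0 ≤ (1 - θ) * δ := mul_nonneg (by linarith) hδ
  refine gpf_key hθ hδ le_rfl fun x hx => ?_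
  have a1 : Real.exp (-(x * ((1 - θ) * δ))) ≤ Real.exp (-((1 - θ) * δ)) :=
    Real.exp_le_exp.2 (neg_le_neg (le_mul_of_one_le_left hθ hx))
  have a2 := gpf_e ((1 - θ) * δ) δ
  have a3 := gpf_e (x * ((1 - θ) * δ)) (x * δ)
  have a4 : δ * Real.exp (-((1 - θ) * δ)) ≤ 2 := by
    have b1 := Real.add_one_le_exp ((1 - θ) * δ)
    have b2 : 1 / 2 * δ ≤ (1 - θ) * δ := mul_le_mul_of_nonneg_right (by linarith) hδ
    rw [Real.exp_neg, ← div_eq_mul_inv, div_le_iff₀ (Real.exp_pos _)]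
    linarith
  have a5 : δ * Real.exp (-(x * ((1 - θ) * δ))) ≤ 2 :=
    (mul_le_mul_of_nonneg_left a1 hδ).trans a4
  have a6 := mul_le_mul_of_nonneg_left a5 (mul_nonneg h0 (zero_le_one.trans hx))
  rw [mul_zero, neg_zero, Real.exp_zero]
  linarith

theorem gpf_d {x y : ℝ} (hx : 0 ≤ x) (hy : 0 ≤ y) :
    Real.exp (-x) - Real.exp (-y) ≤ min 1 |x - y| := by
  have h1 : Real.exp (-x) ≤ 1 := Real.exp_le_one_iff.2 (neg_nonpos.2 hx)
  have _ := hy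
  refine le_min (by linarith [Real.exp_pos (-y)]) ((gpf_e x y).trans ?_)
  refine (mul_le_mul_of_nonneg_right (le_abs_self _) (Real.exp_pos _).le).trans ?_
  rw [abs_sub_comm]
  exact mul_le_of_le_one_right (abs_nonneg _) h1

theorem gpf_5 {ε : ℝ} (hε : 0 < ε) : ∃ η : ℝ, 0 < η ∧ ∀ a b : ℝ, 0 ≤ a → 0 ≤ b → |a - b| ≤ η →
    |gser (3 / 2) a - gser (3 / 2) b| ≤ ε := by
  have h32 : (1 : ℝ) < 3 / 2 := by norm_num
  have hb : ∀ (η : ℝ) (j : ℕ), ‖min 1 |((j : ℝ) + 1) * η| / ((j : ℝ) + 1) ^ (3 / 2 : ℝ)‖ ≤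
      1 / ((j : ℝ) + 1) ^ (3 / 2 : ℝ) := fun η j => by
    rw [Real.norm_of_nonneg (by positivity)]
    exact div_le_div_of_nonneg_right (min_le_left _ _) (by positivity)
  have h : Tendsto (fun η : ℝ => ∑' j : ℕ, min 1 |((j : ℝ) + 1) * η| / ((j : ℝ) + 1) ^ (3 / 2 : ℝ))
      (𝓝 0) (𝓝 (∑' _ : ℕ, (0 : ℝ))) := by
    refine tendsto_tsum_of_dominated_convergence (gpf_s0 h32) (fun j => ?_)
      (Eventually.of_forall hb)
    refine Continuous.tendsto' (by fun_prop) _ _ ?_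
    simp
  rw [tsum_zero, Metric.tendsto_nhds_nhds] at h
  obtain ⟨η, hη, h⟩ := h ε hε
  refine ⟨η / 2, half_pos hη, fun a b ha hb' hab => ?_⟩
  have h1 := h (x := a - b) (by rw [Real.dist_0_eq_abs]; linarith)
  rw [Real.dist_0_eq_abs] at h1
  refine le_trans ?_ ((le_abs_self _).trans h1.le)
  rw [gser, gser, ← (gpf_sum h32 ha).tsum_sub (gpf_sum h32 hb')]
  rw [← Real.norm_eq_abs]
  refine tsum_of_norm_bounded (Summable.of_norm_bounded (gpf_s0 h32) (hb (a - b))).hasSum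
    fun j => ?_
  have p1 : 0 ≤ ((j : ℝ) + 1) * a := by positivity
  have p2 : 0 ≤ ((j : ℝ) + 1) * b := by positivity
  have p3 := gpf_d p2 p1
  rw [abs_sub_comm] at p3
  rw [← sub_div, Real.norm_eq_abs, abs_div, abs_of_pos (a := ((j : ℝ) + 1) ^ (3 / 2 : ℝ))
    (by positivity), mul_sub]
  exact div_le_div_of_nonneg_right (abs_sub_le_iff.2 ⟨gpf_d p1 p2, p3⟩) (by positivity)

theorem gpf_6 {a : ℝ} (ha : 1 < a) : ContinuousOn (gser a) (Set.Ici 0) :=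
  continuousOn_tsum (fun j => Continuous.continuousOn (by fun_prop)) (gpf_s0 ha) fun j δ hδ => by
    rw [Real.norm_of_nonneg (by positivity)]
    exact gpf_le a hδ j

theorem gpf_7 {δ : ℝ} (hδ : 0 ≤ δ) :
    HasDerivWithinAt (gser (5 / 2)) (-gser (3 / 2) δ) (Set.Ici δ) δ := by
  refine HasDerivWithinAt.Ici_of_Ioi ?_
  rw [hasDerivWithinAt_iff_tendsto_slope' (show δ ∉ Set.Ioi δ from lt_irrefl δ)]
  have h1 : Tendsto (fun z => -gser (3 / 2) z) (𝓝[>] δ) (𝓝 (-gser (3 / 2) δ)) :=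
    ((gpf_6 (by norm_num) δ hδ).mono fun z hz => hδ.trans (le_of_lt hz)).tendsto.neg
  refine tendsto_of_tendsto_of_tendsto_of_le_of_le' tendsto_const_nhds h1
    (eventually_nhdsWithin_of_forall fun z hz => ?_)
    (eventually_nhdsWithin_of_forall fun z hz => ?_)
  · rw [slope_def_field, le_div_iff₀ (sub_pos.2 hz)]
    linarith [gpf_3 hδ (hδ.trans (le_of_lt hz))]
  · rw [slope_def_field, div_le_iff₀ (sub_pos.2 hz)]
    linarith [gpf_3 (hδ.trans (le_of_lt hz)) hδ]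

theorem gpf_8 : Tendsto (gser (5 / 2)) atTop (𝓝 0) := by
  have h52 : (1 : ℝ) < 5 / 2 := by norm_num
  have h1 : Tendsto (fun D : ℝ => Real.exp (-D) * gser (5 / 2) 0) atTop (𝓝 0) := by
    simpa using Real.tendsto_exp_neg_atTop_nhds_zero.mul_const (gser (5 / 2) 0)
  refine tendsto_of_tendsto_of_tendsto_of_le_of_le' tendsto_const_nhds h1
    ((eventually_ge_atTop 0).mono fun D hD => (gpf_pos h52 hD).le)
    ((eventually_ge_atTop 0).mono fun D hD => ?_)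
  rw [gpf_zero, gser, ← tsum_mul_left]
  refine (gpf_sum h52 hD).tsum_le_tsum (fun j => ?_) ((gpf_s0 h52).mul_left _)
  rw [mul_one_div]
  refine div_le_div_of_nonneg_right (Real.exp_le_exp.2 (neg_le_neg ?_)) (by positivity)
  exact le_mul_of_one_le_left hD (le_add_of_nonneg_left (Nat.cast_nonneg j))

theorem g_pf : S_G := by
  refine ⟨fun a δ ha hδ => ⟨gpf_sum ha hδ, gpf_pos ha hδ, ?_⟩, ?_, fun a b ha hab =>
    gpf_3 ha (ha.trans hab), fun δ θ hδ h0 h1 => ?_, fun ε hε => gpf_5 hε, gpf_6 (by norm_num),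
    fun δ hδ => gpf_7 hδ, gpf_8⟩
  · rw [gpf_zero]
    exact (gpf_sum ha hδ).tsum_le_tsum (gpf_le a hδ) (gpf_s0 ha)
  · rw [gpf_zero]
    exact asy_zeta.tsum_eq
  · linarith [gpf_4 hδ h0 h1]

end Vale.Agent.P361
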