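import Vale.Agent.P361.Def2

/-! The lattice sum in the error term. -/

open scoped Matrix Topology
open Matrix Filter

namespace Vale.Agent.P361

lemma gam_cos {l : ℕ} (t : Fin l) :
    4 * (((t : ℕ) : ℝ) / l) ^ 2 ≤ 2 * (1 - Real.cos (Real.pi * ((t : ℕ) : ℝ) / l)) := by
  have hl : (0 : ℝ) < l := Nat.cast_pos.2 t.pos
  have h1 : ((t : ℕ) : ℝ) / l ≤ 1 := (div_le_one hl).2 (Nat.cast_le.2 t.2.le)
  have hp := Real.pi_pos
  have h2 := Real.cos_le_one_sub_mul_cos_sq (x := Real.pi * ((t : ℕ) : ℝ) / l) (by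
    rw [abs_of_nonneg (by positivity), mul_div_assoc]
    exact mul_le_of_le_one_right hp.le h1)
  have e : 2 / Real.pi ^ 2 * (Real.pi * ((t : ℕ) : ℝ) / l) ^ 2 = 2 * (((t : ℕ) : ℝ) / l) ^ 2 := by
    field_simp
  linarith

lemma gam_le {l : ℕ} (k : Fin 3 → Fin l) (i : Fin 3) : 4 * (((k i : ℕ) : ℝ) / l) ^ 2 ≤ lam l k :=
  (gam_cos (k i)).trans (Finset.single_le_sum
    (f := fun i => 2 * (1 - Real.cos (Real.pi * ((k i : ℕ) : ℝ) / l)))
    (fun j _ => le_trans (by positivity) (gam_cos (k j))) (Finset.mem_univ i))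

/-- The one dimensional factor. -/
noncomputable def gam_f (l : ℕ) (b δ : ℝ) (t : ℕ) : ℝ := (√(δ + b * (4 * ((t : ℝ) / l) ^ 2)))⁻¹

lemma gam_sum {l : ℕ} {b δ : ℝ} (hl : 1 ≤ l) (hb : 0 < b) (hδ : 0 < δ) :
    ∑ t : Fin l, gam_f l b δ t ≤ (√δ)⁻¹ + l / (2 * √b) * (1 + Real.log l) := by
  have hl' : (0 : ℝ) < l := Nat.cast_pos.2 hl
  have hs := Real.sqrt_pos.2 hb
  have h1 : ∀ t : ℕ, gam_f l b δ (t + 1) ≤ l / (2 * √b) * ((t + 1 : ℕ) : ℝ)⁻¹ := fun t => by
    have ht : (0 : ℝ) < (t + 1 : ℕ) := by positivity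
    have e : (l : ℝ) / (2 * √b) * ((t + 1 : ℕ) : ℝ)⁻¹ = (√b * (2 * ((t + 1 : ℕ) / l)))⁻¹ := by
      field_simp
    rw [e]
    refine inv_anti₀ (by positivity) (Real.le_sqrt_of_sq_le ?_)
    rw [mul_pow, Real.sq_sqrt hb.le, mul_pow]
    linarith
  have h2 : ∑ t ∈ Finset.range l, ((t + 1 : ℕ) : ℝ)⁻¹ ≤ 1 + Real.log l := by
    have := harmonic_le_one_add_log l
    rw [harmonic] at this
    push_cast at this ⊢
    exact this
  rw [Fin.sum_univ_eq_sum_range (gam_f l b δ)]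
  calc ∑ t ∈ Finset.range l, gam_f l b δ t ≤ ∑ t ∈ Finset.range (l + 1), gam_f l b δ t := by
        rw [Finset.sum_range_succ]
        exact le_add_of_nonneg_right (by unfold gam_f; positivity)
    _ ≤ _ := by
        rw [Finset.sum_range_succ', add_comm]
        refine add_le_add (le_of_eq (by simp [gam_f])) ((Finset.sum_le_sum fun t _ => h1 t).trans ?_)
        rw [← Finset.mul_sum]
        exact mul_le_mul_of_nonneg_left h2 (by positivity)

lemma gam_pt {l : ℕ} {β δ S : ℝ} (hβ : 0 < β) (hδ : 0 < δ) (hS : 0 < S) (k : Fin 3 → Fin l) :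
    β ^ 2 * lam l k / (δ + β * S * lam l k) ^ 2 ≤
      β / S * (gam_f l (β * S) δ (k 0) * gam_f l (β * S) δ (k 1)) := by
  have h0 : 0 ≤ lam l k := le_trans (by positivity) (gam_le k 0)
  have ha : 0 < δ + β * S * lam l k := by positivity
  have h1 : ∀ i, (√(δ + β * S * lam l k))⁻¹ ≤ gam_f l (β * S) δ (k i) := fun i =>
    inv_anti₀ (by positivity) (Real.sqrt_le_sqrt (by gcongr; exact gam_le k i))
  have h2 := mul_le_mul (h1 0) (h1 1) (by positivity) (le_trans (by positivity) (h1 0))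
  rw [← mul_inv, Real.mul_self_sqrt ha.le] at h2
  refine le_trans ?_ (mul_le_mul_of_nonneg_left h2 (by positivity))
  rw [← div_eq_mul_inv, div_div, div_le_div_iff₀ (by positivity) (by positivity)]
  nlinarith [mul_pos (mul_pos hβ hδ) ha]

theorem gam_pf : S_Gam := by
  intro l β δ S hl hβ hδ hS
  have hl' : (0 : ℝ) < l := Nat.cast_pos.2 hl
  have hb : 0 < β * S := mul_pos hβ hS
  refine (Finset.sum_le_sum fun k _ => gam_pt hβ hδ hS k).trans ?_
  set φ : Fin l → ℝ := fun t => gam_f l (β * S) δ t with hφ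
  have e := Finset.prod_univ_sum (fun _ : Fin 3 => (Finset.univ : Finset (Fin l)))
    ![φ, φ, fun _ => 1]
  simp only [Fin.prod_univ_three, Fintype.piFinset_univ, cons_val_zero, cons_val_one, cons_val,
    mul_one, Finset.sum_const, Finset.card_univ, Fintype.card_fin, nsmul_eq_mul] at e
  rw [← Finset.mul_sum, ← e]
  have h1 : ∑ t, φ t ≤ _ := gam_sum hl hb hδ
  have h2 := mul_self_le_mul_self (Finset.sum_nonneg fun t _ => by unfold φ gam_f; positivity) h1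
  have e1 : (√δ)⁻¹ ^ 2 = δ⁻¹ := by rw [inv_pow, Real.sq_sqrt hδ.le]
  have e2 : (l / (2 * √(β * S)) * (1 + Real.log l)) ^ 2 =
      l ^ 2 / (4 * (β * S)) * (1 + Real.log l) ^ 2 := by
    rw [mul_pow, div_pow, mul_pow, Real.sq_sqrt hb.le]
    norm_num
  have h3 : (∑ t, φ t) * ∑ t, φ t ≤ 2 * δ⁻¹ + 2 * (l ^ 2 / (4 * (β * S)) * (1 + Real.log l) ^ 2) := by
    rw [← e1, ← e2]
    nlinarith [sq_nonneg ((√δ)⁻¹ - l / (2 * √(β * S)) * (1 + Real.log l))]
  refine (mul_le_mul_of_nonneg_left (mul_le_mul_of_nonneg_right h3 hl'.le)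
    (by positivity)).trans (le_of_eq ?_)
  field_simp
  ring

end Vale.Agent.P361
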