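import Vale.Agent.P361.Def3

/-! P361: the sharp lower bound on the pressure. -/

open scoped Matrix Topology
open Matrix Filter

namespace Vale.Agent.P361

theorem lop_cont (hG : S_G) {x : ℝ} (hx : 0 ≤ x) :
    Tendsto (gser (3 / 2)) (𝓝[>] x) (𝓝 (gser (3 / 2) x)) := by
  refine Metric.tendsto_nhdsWithin_nhds.2 fun ε hε => ?_
  obtain ⟨η, hη, h⟩ := hG.2.2.2.2.1 (ε / 2) (half_pos hε)
  exact ⟨η, hη, fun z hz hd => (h z x (hx.trans (le_of_lt hz)) hx hd.le).trans_lt (half_lt_self hε)⟩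

theorem lop_slope (n : ℕ) {β x z : ℝ} (hβ : 0 < β) (h : x < z) :
    slope (fun y => β ^ (5 / 2 : ℝ) * qfun n β (y / β)) x z =
      -(β ^ (3 / 2 : ℝ) * ((n : ℝ) / 2 -
        (pressure n β (z / β) - pressure n β (x / β)) / (z / β - x / β))) := by
  have e : β ^ (5 / 2 : ℝ) = β ^ (3 / 2 : ℝ) * β := by
    rw [show (5 / 2 : ℝ) = 3 / 2 + 1 by norm_num, Real.rpow_add hβ, Real.rpow_one]
  have h1 : z - x ≠ 0 := (sub_pos.2 h).ne'
  rw [slope_def_field, e, ← sub_div z x β]
  unfold qfun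
  generalize pressure n β (z / β) = a
  generalize pressure n β (x / β) = b
  field_simp
  ring

theorem lo_pf (hS : S_Slope) (hQ : S_Q) (hG : S_G) : S_Lo := by
  intro n hn
  obtain ⟨C, β₀, hC, h0, hs⟩ := hS n hn
  refine ⟨C, β₀, hC, h0, fun β δ hb hδ => ?_⟩
  have hβ : 0 < β := h0.trans_le hb
  have hp : Continuous (pressure n β) :=
    continuousOn_univ.1 ((pressure_convex n hβ).continuousOn isOpen_univ)
  have hf : Continuous fun y => β ^ (5 / 2 : ℝ) * qfun n β (y / β) := by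
    unfold qfun
    fun_prop
  rw [← mul_assoc]
  have hs' : ∀ x z : ℝ, 0 ≤ x → x < z → slope (fun y => β ^ (5 / 2 : ℝ) * qfun n β (y / β)) x z ≤
      (1 - C / Real.sqrt β) * cS n * -gser (3 / 2) z := fun x z hx hxz => by
    have h1 := hs β (x / β) (z / β) hb (div_nonneg hx hβ.le) (div_lt_div_of_pos_right hxz hβ)
    rw [mul_div_cancel₀ _ hβ.ne'] at h1
    rw [lop_slope n hβ hxz]
    linarith
  generalize (1 - C / Real.sqrt β) * cS n = κ at hs' ⊢
  have key : ∀ D, δ ≤ D → β ^ (5 / 2 : ℝ) * qfun n β (D / β) ≤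
      β ^ (5 / 2 : ℝ) * qfun n β (δ / β) + κ * (gser (5 / 2) D - gser (5 / 2) δ) := fun D hD => by
    refine image_le_of_liminf_slope_right_le_deriv_boundary (a := δ) (b := D) hf.continuousOn
      (B := fun x => β ^ (5 / 2 : ℝ) * qfun n β (δ / β) + κ * (gser (5 / 2) x - gser (5 / 2) δ))
      (B' := fun x => κ * -gser (3 / 2) x) (by simp) ?_ (fun x hx => ?_) (fun x hx r hr => ?_)
      ⟨hD, le_rfl⟩
    · exact continuousOn_const.add (continuousOn_const.mul
        ((hG.2.2.2.2.2.1.mono fun x hx => hδ.trans hx.1).sub continuousOn_const))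
    · exact (((hG.2.2.2.2.2.2.1 x (hδ.trans hx.1)).sub_const _).const_mul κ).const_add _
    · have h1 := ((lop_cont hG (hδ.trans hx.1)).neg.const_mul κ).eventually (gt_mem_nhds hr)
      exact (h1.and self_mem_nhdsWithin).frequently.mono fun z hz =>
        (hs' x z (hδ.trans hx.1) hz.2).trans_lt hz.1
  have h2 := ((hG.2.2.2.2.2.2.2.sub_const (gser (5 / 2) δ)).const_mul κ).const_add
    (β ^ (5 / 2 : ℝ) * qfun n β (δ / β))
  have h3 := ge_of_tendsto h2 ((eventually_ge_atTop δ).mono fun D hD =>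
    (mul_nonneg (Real.rpow_nonneg hβ.le _) ((hQ n).2.2 β (D / β) hβ).1).trans (key D hD))
  linarith

end Vale.Agent.P361
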