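import Vale.Agent.P361.Def2
import Vale.Agent.P361.Asym

/-! P361: the explicit consequence of the self-consistent inequality. -/

open scoped Matrix Topology
open Matrix Filter

namespace Vale.Agent.P361

theorem loa_alg {p q t s w x : ℝ} (hp : 0 < p) (hp3 : 2 ≤ p ^ 3) (hq : 1 ≤ q) (ht : 0 < t)
    (hs : 0 < s) (hw : 0 < w) (hws : w ≤ s) (hx : x * s ≤ w)
    (hy : 0 ≤ 1 - 1 / s / t) :
    x * (1 - 1 / s / t) / (2 * p * q * t * s) ≤
      1 / (2 * (p * q * t * s ^ 2 / w)) - 1 / (p ^ 4 * (q ^ 2 * t ^ 2 * s ^ 4 / w ^ 2)) := by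
  have hq0 : 0 < q := by linarith
  have e : 1 / (2 * (p * q * t * s ^ 2 / w)) - 1 / (p ^ 4 * (q ^ 2 * t ^ 2 * s ^ 4 / w ^ 2)) =
      w / (2 * p * q * t * s ^ 2) * (1 - 2 * w / (p ^ 3 * q * t * s ^ 2)) := by
    field_simp
  have e' : x * (1 - 1 / s / t) / (2 * p * q * t * s) =
      x * s / (2 * p * q * t * s ^ 2) * (1 - 1 / s / t) := by
    field_simp
  have h1 : 2 * w ≤ p ^ 3 * q * s := by
    have a1 : 2 * s ≤ p ^ 3 * s := mul_le_mul_of_nonneg_right hp3 hs.le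
    have a2 : p ^ 3 * s * 1 ≤ p ^ 3 * s * q := mul_le_mul_of_nonneg_left hq (by positivity)
    linarith
  have h2 : 2 * w / (p ^ 3 * q * t * s ^ 2) ≤ 1 / s / t := by
    calc 2 * w / (p ^ 3 * q * t * s ^ 2) ≤ p ^ 3 * q * s / (p ^ 3 * q * t * s ^ 2) := by gcongr
      _ = 1 / s / t := by field_simp
  rw [e, e']
  exact mul_le_mul (by gcongr) (by linarith) hy (by positivity)

theorem loa_pi : 2 ≤ Real.sqrt Real.pi ^ 3 := by
  have h1 : (3 / 2 : ℝ) ≤ Real.sqrt Real.pi :=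
    Real.le_sqrt_of_sq_le (by linarith [Real.pi_gt_three])
  calc (2 : ℝ) ≤ (3 / 2) ^ 3 := by norm_num
    _ ≤ _ := by gcongr

theorem loa_term {S k t u x : ℝ} (hS : 0 < S) (hk : 1 ≤ k) (ht : 0 < t) (hu : 0 < u) (huS : u ≤ S)
    (hx0 : 0 ≤ x) (hx1 : x ≤ 1) (hx : x * S ≤ u) (hy : 0 ≤ 1 - 1 / Real.sqrt S / t) :
    x ^ 3 * (1 - 1 / Real.sqrt S / t) ^ 3 *
        (1 / (8 * Real.pi ^ (3 / 2 : ℝ) * S ^ (3 / 2 : ℝ))) / t ^ 3 * (1 / k ^ (3 / 2 : ℝ)) ≤
      (max 0 (1 / (2 * Real.sqrt (Real.pi * (k * t ^ 2 * S ^ 2 / u))) -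
        1 / (Real.pi ^ 2 * (k * t ^ 2 * S ^ 2 / u)))) ^ 3 := by
  have hk0 : 0 < k := by linarith
  have hp := Real.pi_pos
  have h1 := Real.sqrt_pos.2 hS
  have h2 := Real.sqrt_pos.2 hp
  have h3 := Real.sqrt_pos.2 hk0
  have h4 := Real.sqrt_pos.2 hu
  have e1 := Real.sq_sqrt hS.le
  have e2 := Real.sq_sqrt hp.le
  have e3 := Real.sq_sqrt hk0.le
  have e4 := Real.sq_sqrt hu.le
  have hq : 1 ≤ Real.sqrt k := Real.one_le_sqrt.2 hk
  have hws : Real.sqrt u ≤ Real.sqrt S := Real.sqrt_le_sqrt huS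
  have hxs : x * Real.sqrt S ≤ Real.sqrt u := by
    refine Real.le_sqrt_of_sq_le ?_
    rw [mul_pow, e1]
    have : x ^ 2 ≤ x := by nlinarith
    nlinarith
  have hal := loa_alg h2 loa_pi hq ht h1 h4 hws hxs hy
  rw [asy_pow hS.le, asy_pow hp.le, asy_pow hk0.le]
  generalize Real.sqrt S = s at *
  generalize Real.sqrt k = q at *
  generalize Real.sqrt u = w at *
  have e5 : Real.sqrt (Real.pi * (k * t ^ 2 * S ^ 2 / u)) =
      Real.sqrt Real.pi * q * t * s ^ 2 / w := by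
    rw [← Real.sqrt_sq (x := Real.sqrt Real.pi * q * t * s ^ 2 / w) (by positivity), div_pow,
      mul_pow, mul_pow, mul_pow, e1, e2, e3, e4]
    congr 1
    ring
  have e6 : Real.pi ^ 2 * (k * t ^ 2 * S ^ 2 / u) =
      Real.sqrt Real.pi ^ 4 * (q ^ 2 * t ^ 2 * s ^ 4 / w ^ 2) := by
    rw [show Real.sqrt Real.pi ^ 4 = (Real.sqrt Real.pi ^ 2) ^ 2 by ring,
      show s ^ 4 = (s ^ 2) ^ 2 by ring, e1, e2, e3, e4]
  rw [e5, e6]
  generalize Real.sqrt Real.pi = p at *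
  calc _ = (x * (1 - 1 / s / t) / (2 * p * q * t * s)) ^ 3 := by
        field_simp
        norm_num
    _ ≤ _ := pow_le_pow_left₀ (by positivity) (hal.trans (le_max_right _ _)) 3

theorem loa_fin {a b : ℝ} (ha : 0 ≤ a) (ha1 : a ≤ 1) (hb : 0 ≤ b) (hb1 : b ≤ 1) :
    1 - (4 * a + 3 * b) ≤ (1 - a) ^ 4 * (1 - b) ^ 3 := by
  have h1 := one_add_mul_le_pow (a := -a) (by linarith) 4
  have h2 := one_add_mul_le_pow (a := -b) (by linarith) 3
  have h3 : (1 - a) ^ 4 ≤ 1 := pow_le_one₀ (by linarith) (by linarith)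
  have h4 : (1 - b) ^ 3 ≤ 1 := pow_le_one₀ (by linarith) (by linarith)
  have h5 := mul_nonneg (sub_nonneg.2 h3) (sub_nonneg.2 h4)
  rw [← sub_eq_add_neg] at h1 h2
  push_cast at h1 h2
  nlinarith

theorem loa_main {S c g z t m δ : ℝ} (hS : 0 < S) (hc : 0 < c) (hg : 0 < g) (hz : g ≤ z)
    (hce : c = 1 / (8 * Real.pi ^ (3 / 2 : ℝ) * S ^ (3 / 2 : ℝ)))
    (hs : HasSum (fun j : ℕ => Real.exp (-(((j : ℝ) + 1) * δ)) / ((j : ℝ) + 1) ^ (3 / 2 : ℝ)) g)
    {A B C : ℝ} (hA : A = c * z / S) (hB : B = 1 / Real.sqrt S) (hC : C = 4 * A + 3 * B + 1)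
    (ht : 2 * A + B + C + 1 ≤ t)
    (H : ∀ (J : ℕ) (u : ℝ), 0 < u → u < m →
      u * ∑ j ∈ Finset.range J, Real.exp (-(((j : ℝ) + 1) * δ)) *
        (max 0 (1 / (2 * Real.sqrt (Real.pi * (((j : ℝ) + 1) * t ^ 2 * S ^ 2 / u))) -
          1 / (Real.pi ^ 2 * (((j : ℝ) + 1) * t ^ 2 * S ^ 2 / u)))) ^ 3 ≤ S * (S - u)) :
    (1 - C / t) * (c * g) ≤ t ^ 3 * (S - m) := by
  have hz0 : 0 < z := hg.trans_le hz
  have hA0 : 0 < A := by rw [hA]; positivity
  have hB0 : 0 < B := by rw [hB]; have := Real.sqrt_pos.2 hS; positivity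
  have hC0 : 0 < C := by linarith
  have ht1 : 1 ≤ t := by linarith
  have ht0 : 0 < t := by linarith
  have ht3 : 0 < t ^ 3 := by positivity
  have hCt : C / t < 1 := (div_lt_one ht0).2 (by linarith)
  have hAt : A / t ≤ 1 / 2 := (div_le_iff₀ ht0).2 (by linarith)
  have hBt : B / t ≤ 1 := (div_le_one ht0).2 (by linarith)
  have hAp : 0 < A / t := by positivity
  have hBp : 0 < B / t := by positivity
  have hCp : 0 < C / t := by positivity
  by_contra hn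
  rw [not_le] at hn
  set X := (1 - C / t) * (c * g) with hX
  have hX0 : 0 < X := mul_pos (by linarith) (by positivity)
  have hX1 : X ≤ c * z := by
    calc X ≤ 1 * (c * z) :=
          mul_le_mul (by linarith) (by gcongr) (by positivity) zero_le_one
      _ = c * z := one_mul _
  have hX2 : X / t ^ 3 ≤ A / t * S := by
    have a1 : t ≤ t ^ 3 := le_self_pow₀ ht1 (by norm_num)
    calc X / t ^ 3 ≤ c * z / t := by gcongr
      _ = A / t * S := by rw [hA]; field_simp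
  have hX3 : 0 < X / t ^ 3 := by positivity
  have hum : S - X / t ^ 3 < m := by
    rw [← lt_div_iff₀' ht3] at hn
    linarith
  have hxu : (1 - A / t) * S ≤ S - X / t ^ 3 := by linarith
  have hxS : 0 < (1 - A / t) * S := mul_pos (by linarith) hS
  have hu0 : 0 < S - X / t ^ 3 := hxS.trans_le hxu
  have hy : 0 ≤ 1 - 1 / Real.sqrt S / t := by rw [← hB]; linarith
  set K := (1 - A / t) ^ 3 * (1 - B / t) ^ 3 * c / t ^ 3 with hK
  have hK0 : 0 ≤ K := by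
    have a1 : 0 ≤ 1 - A / t := by linarith
    have a2 : 0 ≤ 1 - B / t := by linarith
    positivity
  have hJ : ∀ J : ℕ, (1 - A / t) * S * (K * ∑ j ∈ Finset.range J,
      Real.exp (-(((j : ℝ) + 1) * δ)) / ((j : ℝ) + 1) ^ (3 / 2 : ℝ)) ≤ S * (X / t ^ 3) := by
    intro J
    have h1 := H J _ hu0 hum
    rw [sub_sub_cancel] at h1
    refine le_trans (mul_le_mul hxu ?_ ?_ hu0.le) h1
    · rw [Finset.mul_sum]
      refine Finset.sum_le_sum fun j _ => ?_
      have h2 := loa_term (k := (j : ℝ) + 1) hS (by linarith [Nat.cast_nonneg (α := ℝ) j]) ht0 hu0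
        (by linarith) (by linarith) (by linarith) hxu hy
      rw [← hB, ← hce, ← hK] at h2
      calc _ = Real.exp (-(((j : ℝ) + 1) * δ)) * (K * (1 / ((j : ℝ) + 1) ^ (3 / 2 : ℝ))) := by ring
        _ ≤ _ := mul_le_mul_of_nonneg_left h2 (Real.exp_pos _).le
    · exact mul_nonneg hK0 (Finset.sum_nonneg fun j _ => by positivity)
  have hL := le_of_tendsto' ((hs.tendsto_sum_nat.const_mul K).const_mul ((1 - A / t) * S)) hJ
  have e1 : (1 - A / t) * S * (K * g) =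
      (1 - A / t) ^ 4 * (1 - B / t) ^ 3 * (S * (c * g) / t ^ 3) := by rw [hK]; ring
  have e2 : S * (X / t ^ 3) = (1 - C / t) * (S * (c * g) / t ^ 3) := by rw [hX]; ring
  rw [e1, e2] at hL
  have h5 := le_of_mul_le_mul_right hL (by positivity)
  have h6 := loa_fin hAp.le (by linarith) hBp.le hBt
  have e3 : C / t = 4 * (A / t) + 3 * (B / t) + 1 / t := by rw [hC]; ring
  have h7 : 0 < 1 / t := by positivity
  linarith

theorem loan_pf (hG : S_G) : S_LoAn := by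
  intro n hn
  have hS : (0 : ℝ) < (n : ℝ) / 2 := by
    have : (1 : ℝ) ≤ n := by exact_mod_cast hn
    linarith
  have hp := Real.pi_pos
  have hc : 0 < cS n := by unfold cS; positivity
  have hz : 0 < gser (3 / 2) 0 := (hG.1 _ 0 (by norm_num) le_rfl).2.1
  have hs := Real.sqrt_pos.2 hS
  set A := cS n * gser (3 / 2) 0 / ((n : ℝ) / 2) with hA
  set B := 1 / Real.sqrt ((n : ℝ) / 2) with hB
  have hA0 : 0 < A := by positivity
  have hB0 : 0 < B := by positivity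
  refine ⟨4 * A + 3 * B + 1, (2 * A + B + (4 * A + 3 * B + 1) + 1) ^ 2, by positivity,
    by positivity, fun β δ m hβ hδ H => ?_⟩
  have hβ0 : 0 ≤ β := le_trans (by positivity) hβ
  obtain ⟨g1, g2, g3⟩ := hG.1 (3 / 2) δ (by norm_num) hδ
  rw [asy_pow hβ0]
  refine loa_main (δ := δ) hS hc g2 g3 rfl g1.hasSum hA hB rfl (Real.le_sqrt_of_sq_le hβ) ?_
  rw [Real.sq_sqrt hβ0]
  exact H

end Vale.Agent.P361
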