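import Vale.Agent.P361.Def2

/-! P361: the one-dimensional Neumann modes. -/

namespace Vale.Agent.P361

open scoped Matrix Topology
open Matrix Filter

/-- The normalising constant. -/
noncomputable def md1_c (l k : ℕ) : ℝ := if k = 0 then √(1 / l) else √(2 / l)

/-- The modes. -/
noncomputable def md1_G (l k : ℕ) (x : ℝ) : ℝ :=
  md1_c l k * Real.cos (Real.pi * k / l * (x + 1 / 2))

theorem md1_sum {l : ℕ} {d : ℤ} (hd : d ≠ 0) (h1 : -(2 * (l : ℤ)) < d) (h2 : d < 2 * l) :
    ∑ x ∈ Finset.range l, Real.cos (Real.pi * d / l * (x + 1 / 2)) = 0 := by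
  have hl : (0 : ℝ) < l := by exact_mod_cast (by omega : 0 < l)
  have k1 : -(2 * (l : ℝ)) < d := by exact_mod_cast h1
  have k2 : (d : ℝ) < 2 * l := by exact_mod_cast h2
  have hs : Real.sin (Real.pi * d / l / 2) ≠ 0 := by
    rw [Ne, Real.sin_eq_zero_iff_of_lt_of_lt]
    · have : (d : ℝ) ≠ 0 := by exact_mod_cast hd
      have := Real.pi_pos
      positivity
    · rw [lt_div_iff₀ two_pos, lt_div_iff₀ hl]
      nlinarith [Real.pi_pos]
    · rw [div_lt_iff₀ two_pos, div_lt_iff₀ hl]
      nlinarith [Real.pi_pos]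
  have h := Finset.sum_range_sub (fun x : ℕ => Real.sin (Real.pi * d / l * x)) l
  rw [div_mul_cancel₀ _ hl.ne', mul_comm Real.pi, Real.sin_int_mul_pi, Nat.cast_zero, mul_zero,
    Real.sin_zero, sub_zero, mul_comm (d : ℝ)] at h
  refine (mul_eq_zero.1 (?_ : 2 * Real.sin (Real.pi * d / l / 2) * _ = 0)).resolve_left
    (mul_ne_zero two_ne_zero hs)
  rw [← h, Finset.mul_sum]
  refine Finset.sum_congr rfl fun x _ => ?_
  rw [Real.sin_sub_sin]
  push_cast
  congr 2
  · congr 1
    ring
  · ring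

theorem md1_orth {l k k' : ℕ} (hk : k < l) (hk' : k' < l) :
    ∑ x ∈ Finset.range l, md1_G l k x * md1_G l k' x = if k = k' then 1 else 0 := by
  have hl : (0 : ℝ) < l := by exact_mod_cast (by omega : 0 < l)
  have e : ∑ x ∈ Finset.range l, md1_G l k x * md1_G l k' x = md1_c l k * md1_c l k' / 2 *
      ((∑ x ∈ Finset.range l, Real.cos (Real.pi * ((k - k' : ℤ) : ℝ) / l * (x + 1 / 2))) +
        ∑ x ∈ Finset.range l, Real.cos (Real.pi * ((k + k' : ℤ) : ℝ) / l * (x + 1 / 2))) := by
    rw [← Finset.sum_add_distrib, Finset.mul_sum]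
    refine Finset.sum_congr rfl fun x _ => ?_
    push_cast
    rw [mul_sub, mul_add Real.pi, sub_div, add_div, sub_mul, add_mul (Real.pi * k / l),
      Real.cos_sub, Real.cos_add (Real.pi * k / l * _), md1_G, md1_G]
    ring
  rw [e]
  split_ifs with h
  · subst h
    by_cases h0 : k = 0
    · subst h0
      rw [md1_c, if_pos rfl, Real.mul_self_sqrt (by positivity)]
      simp
      field_simp
      norm_num
    · rw [md1_sum (d := k + k) (by omega) (by omega) (by omega), md1_c, if_neg h0,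
        Real.mul_self_sqrt (by positivity)]
      simp
      field_simp
  · rw [md1_sum (by omega) (by omega) (by omega), md1_sum (by omega) (by omega) (by omega),
      add_zero, mul_zero]

theorem md1_compl {l : ℕ} (x y : Fin l) :
    ∑ k : Fin l, md1_G l k (x : ℕ) * md1_G l k (y : ℕ) = if x = y then 1 else 0 := by
  let U : Matrix (Fin l) (Fin l) ℝ := fun k x => md1_G l k (x : ℕ)
  have h : U * Uᵀ = 1 := by
    ext k k'
    rw [Matrix.mul_apply, Matrix.one_apply]
    simp only [Fin.ext_iff]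
    rw [← md1_orth k.2 k'.2]
    exact Fin.sum_univ_eq_sum_range (fun x => md1_G l k x * md1_G l k' x) l
  have h' : Uᵀ * U = 1 := mul_eq_one_comm.1 h
  have : (Uᵀ * U) x y = (1 : Matrix (Fin l) (Fin l) ℝ) x y := by rw [h']
  rwa [Matrix.mul_apply, Matrix.one_apply] at this

theorem md1_csq (l k : ℕ) : md1_c l k ^ 2 ≤ 2 / l := by
  unfold md1_c
  split_ifs
  · rw [Real.sq_sqrt (by positivity)]
    gcongr
    norm_num
  · rw [Real.sq_sqrt (by positivity)]

theorem mode1_pf : S_Mode1 := by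
  intro N
  have hl : (((2 * N + 1 : ℕ) : ℝ)) = 2 * N + 1 := by push_cast; rfl
  have hl0 : (((2 * N + 1 : ℕ) : ℝ)) ≠ 0 := by positivity
  refine ⟨fun k t => md1_G (2 * N + 1) k (t + N), fun s hs t ht => ?_, fun k => ?_, fun k => ?_,
    fun k t => ?_, fun k t => ?_, fun k t => ?_⟩
  · rw [Finset.mem_Icc] at hs ht
    obtain ⟨x, rfl⟩ : ∃ x : ℕ, s = x - N := ⟨(s + N).toNat, by omega⟩
    obtain ⟨y, rfl⟩ : ∃ y : ℕ, t = y - N := ⟨(t + N).toNat, by omega⟩
    have := md1_compl (l := 2 * N + 1) ⟨x, by omega⟩ ⟨y, by omega⟩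
    simpa [Fin.ext_iff] using this
  · have := md1_orth k.2 k.2
    rw [if_pos rfl] at this
    rw [← this, Int.Icc_eq_finset_map, Finset.sum_map,
      show ((N : ℤ) + 1 - -(N : ℤ)).toNat = 2 * N + 1 by omega]
    refine Finset.sum_congr rfl fun x _ => ?_
    simp [sq]
  · simp only [md1_G]
    constructor
    · rw [← Real.cos_neg]
      congr 2
      push_cast
      ring
    · have e : ∀ a : ℝ, Real.cos (((k : ℕ) : ℝ) * Real.pi + a) =
          Real.cos (((k : ℕ) : ℝ) * Real.pi - a) := fun a => by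
        rw [Real.cos_add, Real.cos_sub, Real.sin_nat_mul_pi, zero_mul, sub_zero, add_zero]
      have e1 := e (Real.pi * (k : ℕ) / ((2 * N + 1 : ℕ) : ℝ) / 2)
      congr 1
      refine Eq.trans (congrArg _ ?_) (e1.trans (congrArg _ ?_))
      · field_simp
        push_cast
        ring
      · field_simp
        push_cast
        ring
  · simp only [md1_G]
    generalize Real.pi * (k : ℕ) / ((2 * N + 1 : ℕ) : ℝ) = a
    rw [show a * (((t + 1 : ℤ) : ℝ) + N + 1 / 2) = a * (t + N + 1 / 2) + a by push_cast; ring,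
      show a * (((t - 1 : ℤ) : ℝ) + N + 1 / 2) = a * (t + N + 1 / 2) - a by push_cast; ring,
      Real.cos_add, Real.cos_sub]
    ring
  · simp only [md1_G]
    rw [mul_pow, ← hl]
    exact (mul_le_of_le_one_right (sq_nonneg _) (Real.cos_sq_le_one _)).trans (md1_csq _ _)
  · simp only [md1_G]
    rw [← mul_sub, mul_pow, ← hl]
    refine mul_le_mul (md1_csq _ _) ?_ (sq_nonneg _) (by positivity)
    generalize Real.pi * (k : ℕ) / ((2 * N + 1 : ℕ) : ℝ) = a
    rw [show a * (((t + 1 : ℤ) : ℝ) + N + 1 / 2) = a * (t + N + 1 / 2) + a by push_cast; ring]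
    generalize a * (t + N + 1 / 2) = b
    have h1 := Real.cos_sub (b + a) b
    rw [add_sub_cancel_left] at h1
    nlinarith [Real.sin_sq_add_cos_sq b, Real.sin_sq_add_cos_sq (b + a),
      sq_nonneg (Real.sin (b + a) - Real.sin b)]

end Vale.Agent.P361
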