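import Vale.Agent.P361.Def2

/-! P361: the Neumann modes of the box. -/

open scoped Matrix Topology
open Matrix Filter

namespace Vale.Agent.P361

lemma md3_inj : ∀ p q : Fin 3 × Bool, (Pi.single p.1 (if p.2 then 1 else -1) : Fin 3 → ℤ) =
    Pi.single q.1 (if q.2 then 1 else -1) → p = q := by decide

lemma md3_one : ∀ p : Fin 3 × Bool,
    ∑ j, |(Pi.single p.1 (if p.2 then 1 else -1) : Fin 3 → ℤ) j| = 1 := by decide

lemma md3_sum (Λ : Finset (Fin 3 → ℤ)) (x : Λ) (G : (Fin 3 → ℤ) → ℝ)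
    (hG : ∀ (i : Fin 3) (s : Bool), x.1 + Pi.single i (if s then 1 else -1) ∉ Λ →
      G (x.1 + Pi.single i (if s then 1 else -1)) = 0) :
    (∑ y : Λ, if nbr Λ x y then G y.1 else 0) =
      ∑ i : Fin 3, (G (x.1 + Pi.single i 1) + G (x.1 + Pi.single i (-1))) := by
  have h1 : (∑ y : Λ, if nbr Λ x y then G y.1 else 0) =
      ∑ y ∈ Λ.filter fun y => ∑ i, |x.1 i - y i| = 1, G y := by
    rw [Finset.sum_filter, ← Finset.sum_coe_sort Λ]
    rfl
  have h2 := Finset.sum_image (s := Finset.univ) (f := G)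
    (g := fun p : Fin 3 × Bool => x.1 + Pi.single p.1 (if p.2 then 1 else -1))
    fun p _ q _ h => md3_inj p q (add_left_cancel h)
  rw [Fintype.sum_prod_type] at h2
  simp only [Fintype.sum_bool, if_true, Bool.false_eq_true, if_false] at h2
  rw [h1, ← h2]
  refine Finset.sum_subset (fun y hy => ?_) fun y hy hy' => ?_
  · obtain ⟨i, s, h⟩ := nbr_cases (Finset.mem_filter.1 hy).2
    exact Finset.mem_image.2 ⟨(i, s), Finset.mem_univ _, h.symm⟩
  · obtain ⟨p, -, rfl⟩ := Finset.mem_image.1 hy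
    refine hG p.1 p.2 fun h => hy' (Finset.mem_filter.2 ⟨h, ?_⟩)
    simpa only [Pi.add_apply, sub_add_cancel_left, abs_neg] using md3_one p

lemma md3_step (g : Fin 3 → ℤ → ℝ) (x : Fin 3 → ℤ) (i : Fin 3) (c : ℤ) :
    ∏ j, g j ((x + Pi.single i c : Fin 3 → ℤ) j) =
      g i (x i + c) * ∏ j ∈ Finset.univ.erase i, g j (x j) := by
  rw [← Finset.mul_prod_erase _ _ (Finset.mem_univ i), Pi.add_apply, Pi.single_eq_same]
  refine congrArg _ (Finset.prod_congr rfl fun j hj => ?_)
  rw [Pi.add_apply, Pi.single_eq_of_ne (Finset.ne_of_mem_erase hj), add_zero]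

theorem mode3_pf (h1 : S_Mode1) : S_Mode3 := by
  intro N
  obtain ⟨g, g1, g2, g3, g4, g5, g6⟩ := h1 N
  have hm : ∀ (x : box N) i, x.1 i ∈ Finset.Icc (-(N : ℤ)) N := fun x =>
    Fintype.mem_piFinset.1 x.2
  have hp : ∀ (k : Fin 3 → Fin (2 * N + 1)) (x : Fin 3 → ℤ) i, ∏ j, g (k j) (x j) =
      g (k i) (x i) * ∏ j ∈ Finset.univ.erase i, g (k j) (x j) := fun k x i =>
    (Finset.mul_prod_erase _ (fun j => g (k j) (x j)) (Finset.mem_univ i)).symm
  refine ⟨fun k x => ∏ i, g (k i) (x.1 i), fun x y => ?_, fun k => ?_, fun k x => ?_,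
    fun k x y h => ?_⟩
  · simp only [← Finset.prod_mul_distrib]
    rw [← Fintype.piFinset_univ, ← Finset.prod_univ_sum (fun _ => Finset.univ)
      fun i a => g a (x.1 i) * g a (y.1 i)]
    simp only [fun i => g1 _ (hm x i) _ (hm y i), Finset.prod_boole, Finset.mem_univ, true_imp_iff,
      Subtype.ext_iff, funext_iff]
  · simp only [← Finset.prod_pow]
    rw [Finset.sum_coe_sort (box N) fun x => ∏ i, g (k i) (x i) ^ 2, box,
      ← Finset.prod_univ_sum (fun _ => Finset.Icc (-(N : ℤ)) N) fun i a => g (k i) a ^ 2]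
    exact Finset.prod_eq_one fun i _ => g2 _
  · rw [md3_sum (box N) x (fun y => ∏ i, g (k i) (x.1 i) - ∏ i, g (k i) (y i)), lam, Finset.sum_mul]
    · refine Finset.sum_congr rfl fun i _ => ?_
      beta_reduce
      rw [md3_step (fun j => g (k j)), md3_step (fun j => g (k j)), hp k x.1 i, ← sub_eq_add_neg]
      linear_combination (∏ j ∈ Finset.univ.erase i, g (k j) (x.1 j)) * g4 (k i) (x.1 i)
    · intro i s hs
      rw [md3_step (fun j => g (k j)), hp k x.1 i, ← sub_mul]
      refine mul_eq_zero_of_left (sub_eq_zero.2 ?_) _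
      have h2 : x.1 i + (if s then 1 else -1) ∉ Finset.Icc (-(N : ℤ)) N := fun h =>
        hs (Fintype.mem_piFinset.2 fun j => by
          rcases eq_or_ne j i with rfl | hj
          · rwa [Pi.add_apply, Pi.single_eq_same]
          · rw [Pi.add_apply, Pi.single_eq_of_ne hj, add_zero]
            exact hm x j)
      have h3 := Finset.mem_Icc.1 (hm x i)
      rw [Finset.mem_Icc] at h2
      cases s
      · simp only [Bool.false_eq_true, if_false] at h2 ⊢
        rw [show x.1 i = -(N : ℤ) by omega, ← sub_eq_add_neg, (g3 _).1]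
      · simp only [if_true] at h2 ⊢
        rw [show x.1 i = N by omega, (g3 _).2]
  · obtain ⟨i, s, hs⟩ := nbr_cases h
    have h0 : (0 : ℝ) ≤ 2 / (2 * (N : ℝ) + 1) := by positivity
    have h2 : (∏ j ∈ Finset.univ.erase i, g (k j) (x.1 j)) ^ 2 ≤ (2 / (2 * (N : ℝ) + 1)) ^ 2 := by
      rw [← Finset.prod_pow]
      refine (Finset.prod_le_prod (fun j _ => sq_nonneg _) fun j _ => g5 _ _).trans_eq ?_
      rw [Finset.prod_const, Finset.card_erase_of_mem (Finset.mem_univ i)]
      rfl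
    have h3 : 2 * (1 - Real.cos (Real.pi * ((k i : ℕ) : ℝ) / ((2 * N + 1 : ℕ) : ℝ))) ≤
        lam (2 * N + 1) k :=
      Finset.single_le_sum (f := fun i =>
        2 * (1 - Real.cos (Real.pi * ((k i : ℕ) : ℝ) / ((2 * N + 1 : ℕ) : ℝ))))
        (fun j _ => mul_nonneg zero_le_two (sub_nonneg.2 (Real.cos_le_one _))) (Finset.mem_univ i)
    have h4 : (g (k i) (x.1 i) - g (k i) (x.1 i + if s then 1 else -1)) ^ 2 ≤
        2 / (2 * (N : ℝ) + 1) * lam (2 * N + 1) k := by
      refine le_trans ?_ (mul_le_mul_of_nonneg_left h3 h0)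
      cases s
      · have := g6 (k i) (x.1 i + -1)
        rwa [neg_add_cancel_right] at this
      · rw [sub_sq_comm]
        exact g6 (k i) (x.1 i)
    beta_reduce
    rw [hs, md3_step (fun j => g (k j)), hp k x.1 i, ← sub_mul, mul_pow]
    refine (mul_le_mul h4 h2 (sq_nonneg _) ((sq_nonneg _).trans h4)).trans_eq ?_
    field_simp
    ring

end Vale.Agent.P361
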