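import Vale.Agent.P361.Def3

/-!
P361: moments of the energy and of the particle number.
-/

open scoped Matrix Topology
open Matrix Filter

namespace Vale.Agent.P361

lemma mom_pt {x R : ℝ} (hx : 0 ≤ x) (hR : 0 ≤ R) :
    x ^ 2 ≤ 2 * R ^ 2 + 4 * Real.exp (-R) * Real.exp x := by
  rw [mul_assoc, ← Real.exp_add]
  have h0 := Real.exp_pos (-R + x)
  rcases le_total x R with h | h
  · nlinarith
  · have h1 := Real.quadratic_le_exp_of_nonneg (x := -R + x) (by linarith)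
    nlinarith [sq_nonneg (x - 2 * R)]

lemma mom_diag {m : Type} [Fintype m] [DecidableEq m] {K : Matrix m m ℂ} (hK : K.IsHermitian)
    (d e : m → ℝ) (a b : ℝ) (h : ∀ i, d i ≤ a + b * e i) :
    gib K (diagonal fun i => (d i : ℂ)) ≤
      a * gib K 1 + b * gib K (diagonal fun i => (e i : ℂ)) := by
  refine (gib_diag_mono hK d _ h).trans (le_of_eq ?_)
  rw [← gib_smul, ← gib_smul, ← gib_add]
  congr 1
  ext i j
  by_cases hij : i = j
  · subst hij
    simp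
  · simp [hij]

lemma mom_exp (hC : S_Com) (n : ℕ) (Λ : Finset (Fin 3 → ℤ)) (β δ s : ℝ) :
    gib (ktil n (nbr Λ) β δ) (diagonal fun σ : Λ → Fin (n + 1) =>
      ((Real.exp (s * ∑ x, ((σ x : ℕ) : ℝ)) : ℝ) : ℂ)) = Real.exp (lzt n Λ β (δ - s)) := by
  have e1 : (diagonal fun σ : Λ → Fin (n + 1) => ((s * ∑ x, ((σ x : ℕ) : ℝ) : ℝ) : ℂ)) =
      (s : ℂ) • numT n Λ := by
    rw [numT_eq, ← diagonal_smul]
    congr 1
    funext σ
    simp
  have hc := ((hC Λ n (nbr Λ) β δ nbr_ne nbr_symm).2.2).smul_right (s : ℂ)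
  rw [← e1] at hc
  have e2 : ktil n (nbr Λ) β δ - (s : ℂ) • numT n Λ = ktil n (nbr Λ) β (δ - s) := by
    simp only [ktil]
    push_cast
    module
  rw [gib_exp_diag _ hc, e1, e2, lzt, Real.exp_log (gib_one_pos (ktil_herm nbr_ne _ _))]

theorem mom_pf (hQ : S_Q) (hC : S_Com) : S_Mom := by
  intro n Λ β δ₀ δ R hβ h0 hδ hR h1 h2
  have hK := ktil_herm (n := n) (nbr_ne (Λ := Λ)) β δ
  have hZ := gib_one_pos hK
  have hq := (hQ n).1 Λ β δ
  constructor
  · have a1 := lzt_tangent (n := n) Λ β δ (β / 2) δ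
    have a2 := lzt_anti (n := n) Λ (le_refl (β / 2)) hδ
    rw [le_div_iff₀ hβ]
    nlinarith
  · have hZ1 : 1 ≤ gib (ktil n (nbr Λ) β δ) 1 := by
      rw [← Real.exp_log hZ]
      exact Real.one_le_exp hq
    have a1 : Real.exp (lzt n Λ β (δ - δ₀ / 2)) ≤ Real.exp R :=
      Real.exp_le_exp.2 ((lzt_anti Λ le_rfl (by linarith)).trans h2)
    have a2 := mom_diag hK (fun σ => (∑ x, ((σ x : ℕ) : ℝ)) * ∑ x, ((σ x : ℕ) : ℝ))
      (fun σ => Real.exp (δ₀ / 2 * ∑ x, ((σ x : ℕ) : ℝ))) (4 / δ₀ ^ 2 * (2 * R ^ 2))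
      (4 / δ₀ ^ 2 * (4 * Real.exp (-R))) fun σ => by
        have a3 := mom_pt (x := δ₀ / 2 * ∑ x, ((σ x : ℕ) : ℝ)) (by positivity) hR
        have a4 := mul_le_mul_of_nonneg_left a3 (show 0 ≤ 4 / δ₀ ^ 2 by positivity)
        refine le_trans (le_of_eq ?_) (a4.trans (le_of_eq (by ring)))
        field_simp
        ring
    have e : numT n Λ * numT n Λ = diagonal fun σ : Λ → Fin (n + 1) =>
        (((∑ x, ((σ x : ℕ) : ℝ)) * ∑ x, ((σ x : ℕ) : ℝ) : ℝ) : ℂ) := by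
      rw [numT_eq, diagonal_mul_diagonal]
      simp only [Complex.ofReal_mul]
    rw [mom_exp hC] at a2
    rw [av, div_le_iff₀ hZ, e]
    refine a2.trans ?_
    have a5 : Real.exp (-R) * Real.exp (lzt n Λ β (δ - δ₀ / 2)) ≤ gib (ktil n (nbr Λ) β δ) 1 := by
      refine (mul_le_mul_of_nonneg_left a1 (Real.exp_pos _).le).trans ?_
      rwa [← Real.exp_add, neg_add_cancel, Real.exp_zero]
    have a6 := mul_le_mul_of_nonneg_left a5 (show 0 ≤ 4 / δ₀ ^ 2 * 4 by positivity)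
    linarith

end Vale.Agent.P361
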