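import Vale.Agent.P361.Def2

/-! P361: the main term of the upper bound. -/

open scoped Matrix Topology
open Matrix Filter

namespace Vale.Agent.P361

theorem nm1_q {θ : ℝ} (h0 : 0 < θ) (h1 : θ ≤ 1 / 2) : (1 + θ) ^ 2 / (1 - θ) ^ 4 ≤ 1 + 126 * θ := by
  have ht : 0 < 1 - θ := by linarith
  have h2 : (1 - θ)⁻¹ ≤ 1 + 2 * θ := by
    rw [inv_le_iff_one_le_mul₀ ht]
    nlinarith
  have h3 : (1 + θ) ^ 2 / (1 - θ) ^ 4 ≤ (1 + 2 * θ) ^ 2 * (1 + 2 * θ) ^ 4 := by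
    rw [div_eq_mul_inv, ← inv_pow]
    gcongr
    linarith
  obtain ⟨x, hx⟩ : ∃ x, x = 2 * θ := ⟨_, rfl⟩
  have x0 : 0 ≤ x := by linarith
  have x1 : x ≤ 1 := by linarith
  have p : ∀ k : ℕ, x ^ (k + 1) ≤ x := fun k => pow_le_of_le_one x0 x1 k.succ_ne_zero
  rw [← hx] at h3
  have e : (1 + x) ^ 2 * (1 + x) ^ 4 =
      1 + 6 * x + 15 * x ^ 2 + 20 * x ^ 3 + 15 * x ^ 4 + 6 * x ^ 5 + x ^ 6 := by ring
  linarith [show x ^ 2 ≤ x from p 1, show x ^ 3 ≤ x from p 2, show x ^ 4 ≤ x from p 3,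
    show x ^ 5 ≤ x from p 4, show x ^ 6 ≤ x from p 5]

theorem nm1_pow {t β S : ℝ} (ht : 0 < t) (hβ : 0 < β) (hS : 0 < S) :
    (4 * Real.pi * (t * β * S) * t) ^ (3 / 2 : ℝ) =
      β ^ (3 / 2 : ℝ) * (8 * Real.pi ^ (3 / 2 : ℝ) * S ^ (3 / 2 : ℝ)) * t ^ 3 := by
  have hp := Real.pi_pos
  have e : ((2 * t) ^ 2) ^ (3 / 2 : ℝ) = (2 * t) ^ 3 := by
    rw [← Real.rpow_natCast, ← Real.rpow_mul (by positivity), ← Real.rpow_natCast]
    norm_num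
  rw [show 4 * Real.pi * (t * β * S) * t = β * (Real.pi * S) * (2 * t) ^ 2 by ring,
    Real.mul_rpow (by positivity) (by positivity), Real.mul_rpow hβ.le (by positivity),
    Real.mul_rpow hp.le hS.le, e]
  ring

theorem num1_pf (hG : S_G) : S_Num1 := by
  intro n hn
  obtain ⟨g1, -, -, g4, -⟩ := hG
  have hS : (0 : ℝ) < (n : ℝ) / 2 := half_pos (Nat.cast_pos.2 hn)
  have hp := Real.pi_pos
  have hc : 0 ≤ cS n := by unfold cS; positivity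
  refine ⟨cS n * (2 * gser (3 / 2) 0 + 126 * gser (5 / 2) 0), fun β δ θ hβ hδ h0 h1 => ?_⟩
  have ht : 0 < 1 - θ := by linarith
  obtain ⟨-, a1, a2⟩ := g1 (5 / 2) ((1 - θ) * δ) (by norm_num) (mul_nonneg ht.le hδ)
  have a3 := g4 δ θ hδ h0.le h1
  have e : β ^ (3 / 2 : ℝ) * ((1 + θ) ^ 2 /
      (4 * Real.pi * ((1 - θ) * β * ((n : ℝ) / 2)) * (1 - θ)) ^ (3 / 2 : ℝ) *
        gser (5 / 2) ((1 - θ) * δ) / (1 - θ)) =
      cS n * ((1 + θ) ^ 2 / (1 - θ) ^ 4 * gser (5 / 2) ((1 - θ) * δ)) := by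
    rw [nm1_pow ht hβ hS, cS]
    field_simp
  rw [e, mul_assoc (cS n), ← mul_add]
  refine mul_le_mul_of_nonneg_left ?_ hc
  have a4 := mul_le_mul_of_nonneg_right (nm1_q h0 h1) a1.le
  have a5 := mul_le_mul_of_nonneg_left a2 h0.le
  linarith

end Vale.Agent.P361
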