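import Vale.Agent.P361.Def2

/-!
P361: the error terms with the chosen parameters.
-/

open scoped Matrix Topology
open Matrix Filter

namespace Vale.Agent.P361

variable {r β δ S : ℝ}

lemma nm2_half (hr : 2 ≤ r) : 1 / 2 ≤ 1 - 1 / r ^ 3 := by
  have := one_div_le_one_div_of_le two_pos (hr.trans (le_self_pow₀ (by linarith) three_ne_zero))
  linarith

lemma nm2_one (hr : 830 ≤ r) (h1 : r ^ 160 ≤ β) (hS : 1 / 2 ≤ S) :
    r ^ 83 * Real.exp (-(2 * ((1 - 1 / r ^ 3) * β * S) * (1 / r ^ 3) / 5)) ≤ 1 := by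
  have r0 : 0 < r := by linarith
  have h2 : 1 / 2 * r ^ 160 * (1 / 2) ≤ (1 - 1 / r ^ 3) * β * S := by
    have := nm2_half (show 2 ≤ r by linarith)
    have : 0 ≤ β := le_trans (by positivity) h1
    gcongr
  have h3 := mul_le_mul_of_nonneg_right h2 (show 0 ≤ 1 / r ^ 3 by positivity)
  rw [show 1 / 2 * r ^ 160 * (1 / 2) * (1 / r ^ 3) = r ^ 157 / 4 by field_simp; norm_num] at h3
  have h4 : r ^ 2 ≤ r ^ 157 := pow_le_pow_right₀ (by linarith) (by norm_num)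
  have h5 : r ^ 83 ≤ Real.exp r ^ 83 :=
    pow_le_pow_left₀ r0.le (by linarith [Real.add_one_le_exp r]) 83
  rw [Real.exp_neg, mul_inv_le_iff₀ (Real.exp_pos _), one_mul]
  refine h5.trans ?_
  rw [← Real.exp_nat_mul]
  refine Real.exp_le_exp.2 ?_
  push_cast
  nlinarith

lemma nm2_pre (hr : 1 ≤ r) (h0 : 0 ≤ β) (h2 : β ≤ 2 * r ^ 160) :
    β ^ (3 / 2 : ℝ) / (r ^ 83) ^ 3 ≤ 8 / r ^ 9 := by
  have h3 : Real.sqrt β ≤ 2 * r ^ 80 := Real.sqrt_le_iff.2 ⟨by positivity, by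
    have : 0 ≤ r ^ 160 := by positivity
    linarith⟩
  rw [asy_pow h0]
  refine (div_le_div_of_nonneg_right (pow_le_pow_left₀ (Real.sqrt_nonneg _) h3 3)
    (by positivity)).trans_eq ?_
  field_simp
  norm_num

lemma nm2_exp : ∃ K : ℝ, 0 ≤ K ∧ ∀ r : ℝ, 0 ≤ r → 2 * (r ^ 83) ^ 3 * Real.exp (-r) ≤ K := by
  refine ⟨2 * (Nat.factorial (83 * 3) : ℝ), by positivity, fun r hr => ?_⟩
  have := Real.pow_div_factorial_le_exp r hr (83 * 3)
  rw [div_le_iff₀' (Nat.cast_pos.2 (Nat.factorial_pos _))] at this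
  rw [← pow_mul, Real.exp_neg, mul_inv_le_iff₀ (Real.exp_pos _), mul_assoc]
  exact mul_le_mul_of_nonneg_left this zero_le_two

lemma nm2_mid (hr : 2 ≤ r) (h : 1 / r ≤ δ) :
    8 * (1 + 1 / (1 / r ^ 3)) ^ 2 / ((1 - 1 / r ^ 3) * δ) / (1 - 1 / r ^ 3) ≤ 128 * r ^ 7 := by
  have r0 : 0 < r := by linarith
  have h1 := nm2_half hr
  have h2 : 1 ≤ r ^ 3 := one_le_pow₀ (by linarith)
  rw [one_div_one_div]
  calc _ ≤ 8 * (r ^ 3 + r ^ 3) ^ 2 / (1 / 2 * (1 / r)) / (1 / 2) := by gcongr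
    _ = _ := by field_simp; norm_num

lemma nm2_err (n : ℕ) (hn : 1 ≤ n) (hr : 1 ≤ r) (h1 : r ^ 160 ≤ β) (h2 : β ≤ 2 * r ^ 160) :
    errE n (r ^ 83) β (1 / r) (1 / r ^ 3) (1 / r ^ 28) (r ^ 57) (r ^ 14) ≤ 200000000 * r ^ 5 := by
  have r0 : 0 < r := by linarith
  have β0 : 0 < β := lt_of_lt_of_le (by positivity) h1
  have hS : (1 : ℝ) / 2 ≤ n / 2 := div_le_div_of_nonneg_right (Nat.one_le_cast.2 hn) zero_le_two
  have hp : ∀ {a b : ℕ}, a ≤ b → r ^ a ≤ r ^ b := pow_le_pow_right₀ hr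
  unfold errE
  generalize (n : ℝ) / 2 = S at hS
  have S0 : 0 < S := by linarith
  have a1 : 4 / (1 / r) ^ 2 * (2 * (r ^ 14) ^ 2 + 4) ≤ 24 * r ^ 30 := by
    rw [show 4 / (1 / r) ^ 2 * (2 * (r ^ 14) ^ 2 + 4) = 8 * r ^ 30 + 16 * r ^ 2 by
      field_simp; ring]
    linarith [hp (show 2 ≤ 30 by norm_num)]
  have a2 : 2 * β / (S * (r ^ 83) ^ 2 * (1 / r)) ≤ 8 * r :=
    calc _ ≤ 2 * (2 * r ^ 166) / (1 / 2 * (r ^ 83) ^ 2 * (1 / r)) := by
          have := h2.trans (mul_le_mul_of_nonneg_left (hp (show 160 ≤ 166 by norm_num)) zero_le_two)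
          gcongr
      _ = _ := by field_simp; norm_num
  have a3 : (1 + Real.log (r ^ 83)) ^ 2 / (2 * S ^ 2) ≤ 55778 * r := by
    have b1 := Real.log_le_sub_one_of_pos (Real.sqrt_pos.2 r0)
    have b2 : 1 ≤ Real.sqrt r := Real.one_le_sqrt.2 hr
    have b3 := Real.log_nonneg hr
    rw [Real.log_sqrt r0.le] at b1
    calc _ ≤ (167 * Real.sqrt r) ^ 2 / (2 * (1 / 2) ^ 2) := by
          rw [Real.log_pow]
          push_cast
          gcongr
          linarith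
      _ = _ := by rw [mul_pow, Real.sq_sqrt r0.le]; ring
  have a4 : 2 * r ^ 14 / β ≤ 2 / r ^ 146 :=
    calc _ ≤ 2 * r ^ 14 / r ^ 160 := by gcongr
      _ = _ := by field_simp
  have a5 : 1 ≤ r ^ 57 := one_le_pow₀ hr
  have a6 : 1 ≤ r ^ 32 := one_le_pow₀ hr
  have a7 : 2 / r ^ 146 ≤ 2 / r ^ 141 := by gcongr; norm_num
  have a8 : 2 / r ^ 146 ≤ 2 * r ^ 5 :=
    (div_le_self zero_le_two (one_le_pow₀ hr)).trans
      (le_mul_of_one_le_right zero_le_two (one_le_pow₀ hr))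
  calc _ ≤ 3 * (1 / r ^ 28) / (1 / r ^ 3) * (24 * r ^ 30) +
        (4 / (1 / r ^ 3 * (1 / r ^ 28)) * (8 * r + 55778 * r) + r ^ 32) *
          (18 / r ^ 57 * (24 * r ^ 30) + 48 * (r ^ 57 + r ^ 57) ^ 2 * (2 / r ^ 141)) +
        2 * (2 * r ^ 5) := by
        have := a4.trans a7
        have := a4.trans a8
        gcongr
    _ = 182086396 * r ^ 5 := by field_simp; norm_num
    _ ≤ _ := by gcongr; norm_num

theorem num2_pf : S_Num2 := by
  intro n hn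
  obtain ⟨K, K0, hK⟩ := nm2_exp
  refine ⟨8 * (K + 128 + 200000000), 830, fun r β δ hr h1 h2 h3 => ⟨nm2_one hr h1
    (div_le_div_of_nonneg_right (Nat.one_le_cast.2 hn) zero_le_two), ?_⟩⟩
  have r0 : 0 < r := by linarith
  have r1 : 1 ≤ r := by linarith
  have β0 : 0 < β := lt_of_lt_of_le (by positivity) h1
  have k1 := (hK r r0.le).trans (le_mul_of_one_le_right K0 (one_le_pow₀ (n := 7) r1))
  have k2 := nm2_mid (by linarith) h3
  have k3 := mul_le_mul_of_nonneg_right (nm2_err n hn r1 h1 h2) r0.le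
  have k4 : r ^ 6 ≤ r ^ 7 := pow_le_pow_right₀ r1 (by norm_num)
  refine (mul_le_mul_of_nonneg_left (c := (K + 128 + 200000000) * r ^ 7) (by linarith)
    (by positivity)).trans ((mul_le_mul_of_nonneg_right (nm2_pre r1 β0.le h2)
      (by positivity)).trans_eq ?_)
  field_simp

end Vale.Agent.P361
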