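import Vale.Agent.P361.Def3

/-!
P361: the occupation of one eigenmode.
-/

open scoped Matrix Topology
open Matrix Filter

namespace Vale.Agent.P361

section

variable {ι : Type} [Fintype ι] [DecidableEq ι] {n : ℕ}
  {K : Matrix (ι → Fin (n + 1)) (ι → Fin (n + 1)) ℂ}

lemma one_root (y : ι) : ∃ R : Matrix (ι → Fin (n + 1)) (ι → Fin (n + 1)) ℂ,
    ∀ X Y : Matrix (ι → Fin (n + 1)) (ι → Fin (n + 1)) ℂ,
      (R * X)ᴴ * (R * Y) = Xᴴ * (eta n y * Y) := by
  refine ⟨diagonal fun σ => ((Real.sqrt ((σ y : ℕ) : ℝ) : ℝ) : ℂ), fun X Y => ?_⟩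
  rw [conjTranspose_mul, Matrix.mul_assoc, ← Matrix.mul_assoc _ _ Y, diagonal_conjTranspose,
    diagonal_mul_diagonal, eta_eq]
  congr 3
  funext σ
  rw [Pi.star_apply, Complex.star_def, Complex.conj_ofReal, ← Complex.ofReal_mul,
    Real.mul_self_sqrt (Nat.cast_nonneg _)]

lemma one_nonneg (hK : K.IsHermitian) (y : ι) (A : Matrix (ι → Fin (n + 1)) (ι → Fin (n + 1)) ℂ) :
    0 ≤ gib K (Aᴴ * (eta n y * A)) := by
  obtain ⟨R, hR⟩ := one_root (n := n) y
  rw [← hR]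
  exact gib_nonneg' hK _

lemma one_ee (x y : ι) : eta n x * eta n y = diagonal fun σ : ι → Fin (n + 1) =>
    ((((σ x : ℕ) : ℝ) * ((σ y : ℕ) : ℝ) : ℝ) : ℂ) := by
  simp only [eta_eq, diagonal_mul_diagonal, Complex.ofReal_mul]

lemma one_qp (hK : K.IsHermitian) {x y : ι} (h : x ≠ y) :
    gib K ((siteOp x (splus n))ᴴ * (eta n y * siteOp x (splus n))) ≤
      n * gib K (eta n x * eta n y) := by
  have e1 : (siteOp x (splus n))ᴴ * (eta n y * siteOp x (splus n)) =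
      diagonal fun σ : ι → Fin (n + 1) => ((((σ x : ℕ) : ℝ) * ((n : ℝ) + 1 - ((σ x : ℕ) : ℝ)) *
        ((σ y : ℕ) : ℝ) : ℝ) : ℂ) := by
    rw [eta, siteOp_comm h, ← Matrix.mul_assoc, siteOp_conjTranspose, siteOp_mul, sminus_mul_splus,
      siteOp_diagonal, ← eta, eta_eq, diagonal_mul_diagonal]
    simp only [Complex.ofReal_mul]
  have e2 : ((n : ℝ) : ℂ) • (eta n x * eta n y) = diagonal fun σ : ι → Fin (n + 1) =>
      (((n : ℝ) * (((σ x : ℕ) : ℝ) * ((σ y : ℕ) : ℝ)) : ℝ) : ℂ) := by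
    rw [one_ee, ← diagonal_smul]
    simp only [Complex.ofReal_mul]
    rfl
  rw [e1, ← gib_smul, e2]
  refine gib_diag_mono hK _ _ fun σ => ?_
  have h1 : ((σ x : ℕ) : ℝ) ≤ ((σ x : ℕ) : ℝ) * ((σ x : ℕ) : ℝ) := by
    exact_mod_cast Nat.le_mul_self _
  rw [← mul_assoc]
  exact mul_le_mul_of_nonneg_right (by linarith) (Nat.cast_nonneg _)

lemma one_pair (hK : K.IsHermitian) {x y : ι} (h : x ≠ y)
    (A : Matrix (ι → Fin (n + 1)) (ι → Fin (n + 1)) ℂ) {c t b : ℝ} (ht : 0 < t) (hb : c ^ 2 ≤ b) :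
    2 * (c * gib K (Aᴴ * (eta n y * siteOp x (splus n)))) ≤
      t * gib K (Aᴴ * (eta n y * A)) + b / t * n * gib K (eta n x * eta n y) := by
  obtain ⟨R, hR⟩ := one_root (n := n) y
  have h1 := gib_am hK (R * A) (R * siteOp x (splus n)) c ht
  rw [hR, hR, hR] at h1
  have h2 := mul_le_mul (div_le_div_of_nonneg_right hb ht.le) (one_qp hK h)
    (one_nonneg hK y _) (div_nonneg ((sq_nonneg c).trans hb) ht.le)
  linarith

variable {adj : ι → ι → Prop} [DecidableRel adj]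

lemma one_g (hK : K.IsHermitian) (h1 : ∀ x y, adj x y → x ≠ y) (h2 : ∀ x y, adj x y → adj y x)
    (h3 : ∀ x, (∑ y, if adj x y then (1 : ℝ) else 0) ≤ 6)
    (A : Matrix (ι → Fin (n + 1)) (ι → Fin (n + 1)) ℂ) (f : ι → ℝ) {t b : ℝ} (ht : 0 < t)
    (hb : ∀ x y, adj x y → (f x - f y) ^ 2 ≤ b) :
    2 * gib K (Aᴴ * ∑ x, ∑ y, if adj x y then
        ((f x - f y : ℝ) : ℂ) • (eta n y * siteOp x (splus n)) else 0) ≤
      t * (6 * gib K (Aᴴ * (numT n ι * A))) +
        b / t * n * ∑ x, ∑ y, if adj x y then gib K (eta n x * eta n y) else 0 := by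
  have e1 : (∑ x, ∑ y, if adj x y then gib K (Aᴴ * (eta n y * A)) else 0) ≤
      6 * gib K (Aᴴ * (numT n ι * A)) := by
    rw [numT, Matrix.sum_mul, Matrix.mul_sum, gib_sum, Finset.mul_sum, Finset.sum_comm]
    refine Finset.sum_le_sum fun y _ => ?_
    refine le_trans (le_of_eq ?_) (mul_le_mul_of_nonneg_right (h3 y) (one_nonneg hK y A))
    rw [Finset.sum_mul]
    refine Finset.sum_congr rfl fun x _ => ?_
    rw [ite_mul, one_mul, zero_mul]
    exact if_congr ⟨h2 x y, h2 y x⟩ rfl rfl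
  refine le_trans ?_ (add_le_add_left (mul_le_mul_of_nonneg_left e1 ht.le) _)
  simp only [Matrix.mul_sum, gib_sum, Finset.mul_sum, ← Finset.sum_add_distrib]
  refine Finset.sum_le_sum fun x _ => Finset.sum_le_sum fun y _ => ?_
  split_ifs with h
  · rw [Matrix.mul_smul, gib_smul]
    exact one_pair hK (h1 x y h) A ht (hb x y h)
  · simp [gib_zero]

lemma one_w (hK : K.IsHermitian) {f : ι → ℝ} (hf : ∑ x, f x ^ 2 = 1) :
    gib K (∑ x, ((2 * f x ^ 2 : ℝ) : ℂ) • siteOp x (spin n 2)) ≤ n * gib K 1 := by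
  rw [gib_sum]
  refine (Finset.sum_le_sum fun x _ => (gib_smul _ _ _).trans_le (gib_sz_le hK x _)).trans
    (le_of_eq ?_)
  have h : ∀ x, |2 * f x ^ 2| * ((n : ℝ) / 2) * gib K 1 = f x ^ 2 * (n * gib K 1) := fun x => by
    rw [abs_of_nonneg (by positivity)]
    ring
  simp only [h]
  rw [← Finset.sum_mul, hf, one_mul]

lemma one_fin {u X Y P Q : ℝ} (hX : 0 < X) (hY : 0 < Y) (hP : 0 ≤ P) (hQ : 0 ≤ Q)
    (h : u * (X + Y) ≤ P + Q) : u ≤ P / X + Q / Y := by
  rw [← le_div_iff₀ (add_pos hX hY), add_div] at h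
  exact h.trans (add_le_add (div_le_div_of_nonneg_left hP hX (by linarith))
    (div_le_div_of_nonneg_left hQ hY (by linarith)))

end

theorem one_pf (hC : S_Com) : S_One := by
  intro ι _ _ n adj _ β δ θ τ l γ f h1 h2 h3 hβ hδ hθ hθ1 hτ hl hγ hf hfl hfg
  obtain ⟨c1, c2, -⟩ := hC ι n adj β δ h1 h2
  have hK := ktil_herm (n := n) (adj := adj) h1 β δ
  have c3 : ann n (fun x => ∑ y, if adj x y then f x - f y else 0) = (l : ℂ) • ann n f := by
    simp only [hfl, ann, Finset.smul_sum, smul_smul, Complex.ofReal_mul]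
  obtain ⟨a, ha⟩ : ∃ a, a = δ + β * ((n : ℝ) / 2) * l := ⟨_, rfl⟩
  have ha0 : 0 < a := by rw [ha]; positivity
  have ht : 0 < (1 - θ) * a := mul_pos (sub_pos.2 hθ1) ha0
  have e1 := ee_one hK (ann n f) (-((1 - θ) * a))
  have e2 := one_g hK h1 h2 h3 (ann n f) f (t := τ * a / β) (by positivity) hfg
  have e3 := one_w hK hf
  rw [← c2, gib_sub] at e3
  rw [c1, c3, Matrix.mul_add, Matrix.mul_sub, Matrix.mul_neg, Matrix.mul_smul, Matrix.mul_smul,
    Matrix.mul_smul, Matrix.mul_smul, gib_add, gib_sub, gib_neg, gib_smul, gib_smul, gib_smul,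
    gib_smul] at e1
  have hv : 0 ≤ gib (ktil n adj β δ) ((ann n f)ᴴ * (numT n ι * ann n f)) := by
    rw [numT, Matrix.sum_mul, Matrix.mul_sum, gib_sum]
    exact Finset.sum_nonneg fun y _ => one_nonneg hK y _
  have hP : 0 ≤ ∑ x, ∑ y, if adj x y then gib (ktil n adj β δ) (eta n x * eta n y) else 0 :=
    Finset.sum_nonneg fun x _ => Finset.sum_nonneg fun y _ => by
      split_ifs
      · rw [one_ee]
        exact gib_diag_nonneg hK _ fun σ => by positivity
      · exact le_rfl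
  have hZ := gib_one_pos hK
  rw [← ha]
  generalize gib (ktil n adj β δ) ((ann n f)ᴴ * (numT n ι * ann n f)) = v at *
  generalize (∑ x, ∑ y, if adj x y then gib (ktil n adj β δ) (eta n x * eta n y) else 0) = P at *
  generalize gib (ktil n adj β δ) 1 = Z at *
  generalize gib (ktil n adj β δ) ((ann n f)ᴴ * ann n f) = u at *
  have hE := Real.exp_pos (-((1 - θ) * a))
  have hE1 : Real.exp (-((1 - θ) * a)) < 1 := Real.exp_lt_one_iff.2 (neg_neg_of_pos ht)
  have e4 := mul_le_mul_of_nonneg_left e2 hβ.le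
  have e5 := mul_le_mul_of_nonneg_left e3 hE.le
  have e6 := one_fin (u := u) (P := Real.exp (-((1 - θ) * a)) * (n * Z))
    (Q := β * (τ * a / β * (6 * v) + γ * l / (τ * a / β) * n * P) / 2) (sub_pos.2 hE1)
    (mul_pos hθ ha0) (by positivity) (by positivity) (by
      have e7 : a * u = δ * u + β * ((n : ℝ) / 2) * (l * u) := by rw [ha]; ring
      linarith)
  refine e6.trans (le_of_eq ?_)
  have hE2 : Real.exp ((1 - θ) * a) - 1 ≠ 0 := (sub_pos.2 (Real.one_lt_exp_iff.2 ht)).ne'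
  rw [Real.exp_neg]
  field_simp
  ring

end Vale.Agent.P361
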