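import Vale.Agent.P361.Def3

/-!
P361, second part: positivity, tiling and the infinite-volume limit.
-/

open scoped Matrix Topology
open Matrix Filter

namespace Vale.Agent.P361

section ops

variable {ι : Type} [Fintype ι] [DecidableEq ι] {n : ℕ}

lemma qpf_ann (y : ι) (σ : ι → Fin (n + 1)) : siteOp y (annOp n) σ (fun _ => 0) = 0 := by
  rw [siteOp_apply]
  simp [annOp]

lemma qpf_dop {x y : ι} (h : x ≠ y) (σ : ι → Fin (n + 1)) : dop n x y σ (fun _ => 0) = 0 := by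
  rw [dop, ← siteOp_comm h]
  simp only [Matrix.sub_apply, Matrix.mul_apply, qpf_ann, mul_zero, Finset.sum_const_zero, sub_zero]

lemma qpf_hop {x y : ι} (h : x ≠ y) : hop n x y (fun _ => 0) (fun _ => 0) = 0 := by
  have h1 := congrFun (congrFun (dop_sq (n := n) h) (fun _ => 0)) (fun _ => 0)
  simp only [Matrix.mul_apply, qpf_dop h, mul_zero, Finset.sum_const_zero, Matrix.smul_apply,
    smul_eq_mul] at h1
  have h2 : ((2 : ℝ) : ℂ) ≠ 0 := by norm_num
  exact (mul_eq_zero.1 h1.symm).resolve_left h2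

lemma qpf_ktil {adj : ι → ι → Prop} [DecidableRel adj] (hadj : ∀ x y, adj x y → x ≠ y)
    (β δ : ℝ) : ktil n adj β δ (fun _ => 0) (fun _ => 0) = 0 := by
  have h1 : (∑ x, ∑ y, if adj x y then hop n x y else 0) (fun _ => 0) (fun _ => 0) = 0 := by
    simp only [Matrix.sum_apply]
    refine Finset.sum_eq_zero fun x _ => Finset.sum_eq_zero fun y _ => ?_
    split_ifs with h
    · exact qpf_hop (hadj x y h)
    · rfl
  have h2 : numT n ι (fun _ => 0) (fun _ => 0) = 0 := by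
    rw [numT_eq]
    simp
  simp only [ktil, htil, Matrix.add_apply, Matrix.smul_apply, h1, h2, smul_zero, add_zero]

end ops

lemma qpf_nonneg (n : ℕ) (Λ : Finset (Fin 3 → ℤ)) (β δ : ℝ) : 0 ≤ lzt n Λ β δ :=
  Real.log_nonneg (one_le_gib (ktil_herm nbr_ne β δ) (fun _ => 0)
    (by rw [qpf_ktil nbr_ne]; simp))

lemma qpf_sub (n : ℕ) {β : ℝ} (hβ : 0 ≤ β) (h : ℝ) (A B : Finset (Fin 3 → ℤ))
    (hAB : Disjoint A B) :
    lzt n (A ∪ B) β (β * h) ≤ lzt n A β (β * h) + lzt n B β (β * h) := by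
  have h1 := shiftLog_union (n := n) hβ h A B hAB
  rw [lzt_eq, lzt_eq, lzt_eq, Finset.card_union_of_disjoint hAB]
  push_cast
  linarith

lemma qpf_tr (n : ℕ) (β h : ℝ) (A : Finset (Fin 3 → ℤ)) (a : Fin 3 → ℤ) :
    lzt n (A.image fun x => x + a) β (β * h) = lzt n A β (β * h) := by
  rw [lzt_eq, lzt_eq, shiftLog_translate,
    Finset.card_image_of_injective _ (add_left_injective a)]

lemma qpf_bd (n : ℕ) {β : ℝ} (hβ : 0 ≤ β) (h : ℝ) : ∃ C : ℝ, ∀ A : Finset (Fin 3 → ℤ),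
    |lzt n A β (β * h)| ≤ C * (A.card : ℝ) := by
  refine ⟨Real.log (n + 1) + β * (6 * n ^ 2 + |h| * (n / 2)) + |β * h| * ((n : ℝ) / 2), fun A => ?_⟩
  have h1 := abs_le.1 (abs_log_partFn_le (n := n) A hβ h)
  have h3 := pairs_nonneg A
  have h4 : 0 ≤ β * ((n : ℝ) / 2) ^ 2 / 2 := by positivity
  have h6 := mul_nonneg h4 h3
  have h7 : -(β * h) * ((n : ℝ) / 2 * A.card) ≤ |β * h| * ((n : ℝ) / 2 * A.card) :=
    mul_le_mul_of_nonneg_right (neg_le_abs _) (by positivity)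
  rw [abs_of_nonneg (qpf_nonneg n A β _), lzt_eq, shiftLog]
  nlinarith [h1.2]

lemma qpf_lim (n : ℕ) {β : ℝ} (hβ : 0 < β) (h : ℝ) :
    Tendsto (fun N : ℕ => lzt n (box N) β (β * h) / ((box N).card : ℝ)) atTop
      (𝓝 (β * qfun n β h)) := by
  have h2 := (((pressure_tendsto n hβ h).const_mul β).sub
    (pairs_tendsto.const_mul (β * ((n : ℝ) / 2) ^ 2 / 2))).sub_const (β * h * ((n : ℝ) / 2))
  have h3 : β * pressure n β h - β * ((n : ℝ) / 2) ^ 2 / 2 * 6 - β * h * ((n : ℝ) / 2) =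
      β * qfun n β h := by
    rw [qfun]
    ring
  rw [h3] at h2
  refine h2.congr fun N => ?_
  have := card_box_pos N
  rw [lzt_eq]
  simp only [shiftLog, pressureN, pairs]
  field_simp

theorem q_pf : S_Q := by
  intro n
  refine ⟨qpf_nonneg n, fun β δ M N q hβ hq => ?_, fun β h hβ => ⟨?_, fun M => ?_⟩⟩
  · obtain ⟨C, hC⟩ := qpf_bd n hβ.le (δ / β)
    have h1 := fk_tile (F := fun A => lzt n A β (β * (δ / β))) (qpf_sub n hβ.le _) (qpf_tr n β _) hC
      M N q hq.le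
    have h2 : ((2 * M + 1) * q : ℝ) = 2 * N + 1 := by exact_mod_cast hq
    have h3 : β * (δ / β) = δ := by field_simp
    rw [h2, sub_self, mul_zero, add_zero, h3] at h1
    exact h1
  · have h1 := ge_of_tendsto' (qpf_lim n hβ h) fun N =>
      div_nonneg (qpf_nonneg n (box N) β (β * h)) (Nat.cast_nonneg _)
    exact (mul_nonneg_iff_of_pos_left hβ).1 h1
  · obtain ⟨C, hC⟩ := qpf_bd n hβ.le h
    have h0 : Tendsto (fun N : ℕ => 6 * C * (2 * (M : ℝ) + 1) / (2 * (N : ℝ) + 1)) atTop (𝓝 0) :=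
      Tendsto.const_div_atTop (tendsto_atTop_add_const_right _ _
        (tendsto_natCast_atTop_atTop.const_mul_atTop two_pos)) _
    have h1 := le_of_tendsto_of_tendsto' (qpf_lim n hβ h)
      (h0.const_add (lzt n (box M) β (β * h) / ((box M).card : ℝ))) fun N =>
      fk_le (F := fun A => lzt n A β (β * h)) (qpf_sub n hβ.le _) (qpf_tr n β _) hC M N
    rw [add_zero, fk_card] at h1
    push_cast at h1
    rw [mul_comm β ((2 * (M : ℝ) + 1) ^ 3), ← div_div, le_div_iff₀ hβ, mul_comm]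
    exact h1

end Vale.Agent.P361
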