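import Vale.Agent.P361.Def3

/-!
P361, second part: the rough bound in the large box.
-/

open scoped Matrix Topology
open Matrix Filter

namespace Vale.Agent.P361

theorem rgh_log {r : ℝ} (hr : 40000 ^ 2 ≤ r) : 20000 * Real.log r ≤ r := by
  have h0 : 0 < r := by linarith
  have h1 : (40000:ℝ) ≤ Real.sqrt r := Real.le_sqrt_of_sq_le hr
  have h2 : Real.sqrt r * Real.sqrt r = r := Real.mul_self_sqrt h0.le
  have h3 : Real.log (Real.sqrt r) = Real.log r / 2 := Real.log_sqrt h0.le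
  have h4 := Real.log_le_sub_one_of_pos (Real.sqrt_pos.2 h0)
  nlinarith

theorem rough_pf (hQ : S_Q) (hS : S_SB) : S_Rough := by
  intro n hn
  refine ⟨40000 ^ 2, fun r M N β δ hr hM hN hβ hδ => ?_⟩
  have hr' : (40000:ℝ) ^ 2 ≤ r := by exact_mod_cast hr
  have h0 : (0:ℝ) < r := by linarith
  have h1 : (1:ℝ) ≤ r := by linarith
  have hL := rgh_log hr'
  have hL0 : 0 ≤ Real.log r := Real.log_nonneg h1
  have hβ0 : 0 < β := lt_of_lt_of_le (by positivity) hβ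
  have hδ0 : 0 < δ := lt_of_lt_of_le (by positivity) hδ
  have hM1 : 1 ≤ M := by
    have h2 : r ≤ r ^ 79 := Nat.le_self_pow (by norm_num) r
    omega
  have hM' : 2 * (M:ℝ) + 1 = (r:ℝ) ^ 79 := by exact_mod_cast hM
  have e : Real.log ((2 * (M:ℝ) + 1) ^ 3) = 237 * Real.log r := by
    rw [hM', ← pow_mul, Real.log_pow]
    norm_num
  have h2 := (hQ n).2.1 β δ M N (r ^ 4) hβ0 (by rw [hM, hN, ← pow_add])
  have h3 := hS n M β δ hn hM1 hδ0 (by
    rw [e, hM']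
    refine le_trans ?_ hβ
    have h4 : 36 * (237 * Real.log r) ≤ (r:ℝ) ^ 2 / 2 := by nlinarith
    calc 36 * ((r:ℝ) ^ 79) ^ 2 * (237 * Real.log r)
        = (r:ℝ) ^ 158 * (36 * (237 * Real.log r)) := by ring
      _ ≤ (r:ℝ) ^ 158 * ((r:ℝ) ^ 2 / 2) := by gcongr
      _ = _ := by ring)
  rw [e] at h3
  have h5 : 2 * (237 * Real.log r) / δ ≤ 2 * (237 * Real.log r) * (2 * r) := by
    rw [div_eq_mul_one_div]
    refine mul_le_mul_of_nonneg_left ?_ (by positivity)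
    rw [div_le_iff₀ hδ0]
    rw [div_le_iff₀ (by positivity)] at hδ
    linarith
  have h6 : 3 + 2 * (237 * Real.log r) * (2 * r) ≤ (r:ℝ) ^ 2 := by nlinarith
  calc lzt n (box N) β δ ≤ ((r ^ 4 : ℕ) : ℝ) ^ 3 * lzt n (box M) β δ := h2
    _ ≤ ((r ^ 4 : ℕ) : ℝ) ^ 3 * (r:ℝ) ^ 2 :=
      mul_le_mul_of_nonneg_left (by linarith) (by positivity)
    _ = _ := by
      push_cast
      ring

end Vale.Agent.P361
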