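import Vale.Agent.P361.Def2

/-! P361: the free Bose gas in the box. -/

open scoped Matrix Topology
open Matrix Filter

namespace Vale.Agent.P361

theorem ser_cube {b ε : ℝ} (hb : 0 ≤ b) (hε : 0 < ε) :
    (2 + b) ^ 3 ≤ (1 + ε) ^ 2 * b ^ 3 + 8 * (1 + 1 / ε) ^ 2 := by
  have h := (convexOn_pow (𝕜 := ℝ) 3).2
    (Set.mem_Ici.2 (by positivity : 0 ≤ (1 + ε) * b))
    (Set.mem_Ici.2 (by positivity : 0 ≤ 2 * (1 + 1 / ε))) (by positivity : 0 ≤ 1 / (1 + ε))
    (by positivity : 0 ≤ ε / (1 + ε)) (by field_simp)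
  simp only [smul_eq_mul] at h
  refine le_of_eq_of_le ?_ (h.trans_eq ?_)
  · congr 1; field_simp; ring
  · field_simp; ring

theorem ser_pow {x : ℝ} (hx : 0 ≤ x) : x ^ (3 / 2 : ℝ) = √x ^ 3 := by
  rw [Real.sqrt_eq_rpow, ← Real.rpow_natCast, ← Real.rpow_mul hx]
  norm_num

theorem ser_prod (l : ℕ) (t : ℝ) : ∑ k : Fin 3 → Fin l, Real.exp (-(t * lam l k)) =
    (∑ k : Fin l, Real.exp (-(t * (2 * (1 - Real.cos (Real.pi * ((k : ℕ) : ℝ) / l)))))) ^ 3 := by
  rw [← Fin.prod_const, Finset.prod_univ_sum, Fintype.piFinset_univ]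
  simp only [lam, Finset.mul_sum, ← Finset.sum_neg_distrib, Real.exp_sum]

theorem ser_term (hT : S_Theta) {l : ℕ} {τ ε n : ℝ} (hτ : 0 < τ) (hε : 0 < ε) (h1 : ε < 1)
    (hl : l * Real.exp (-(2 * τ * ε / 5)) ≤ 1) (hn : 1 ≤ n) :
    (∑ k : Fin 3 → Fin l, Real.exp (-(n * τ * lam l k))) / n ≤
      (1 + ε) ^ 2 * (l : ℝ) ^ 3 / (4 * Real.pi * τ * (1 - ε)) ^ (3 / 2 : ℝ) / n ^ (5 / 2 : ℝ) +
        8 * (1 + 1 / ε) ^ 2 := by
  have h0 : 0 < n := by linarith
  have hc : 0 < 4 * Real.pi * τ * (1 - ε) := by have := sub_pos.2 h1; positivity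
  have k := hT l (n * τ) ε (by positivity) hε h1
  have k2 : l * Real.exp (-(2 * (n * τ) * ε / 5)) ≤ 1 := by
    refine le_trans ?_ hl
    gcongr
    exact le_mul_of_one_le_left hτ.le hn
  have k3 := (pow_le_pow_left₀ (by positivity) (k.trans (by linarith)) 3).trans
    (ser_cube (b := l / √(4 * Real.pi * (n * τ) * (1 - ε))) (by positivity) hε)
  rw [ser_prod, div_le_iff₀ h0]
  refine k3.trans (le_of_le_of_eq (add_le_add (le_of_eq ?_)
    (le_mul_of_one_le_right (by positivity) hn)) (add_mul _ _ _).symm)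
  rw [show (5 / 2 : ℝ) = 3 / 2 + 1 by norm_num, Real.rpow_add_one h0.ne', ser_pow hc.le,
    ser_pow h0.le, show 4 * Real.pi * (n * τ) * (1 - ε) = 4 * Real.pi * τ * (1 - ε) * n by ring,
    Real.sqrt_mul hc.le]
  have := Real.sqrt_pos.2 hc
  have := Real.sqrt_pos.2 h0
  field_simp

theorem ser_pf (hT : S_Theta) : S_Ser := by
  intro l τ ε δ hτ hε h1 hδ hl
  have hlam : ∀ k, 0 ≤ lam l k := fun k =>
    Finset.sum_nonneg fun i _ => mul_nonneg zero_le_two (sub_nonneg.2 (Real.cos_le_one _))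
  have s1 := hasSum_sum (s := Finset.univ) fun (k : Fin 3 → Fin l) _ =>
    Real.hasSum_pow_div_log_of_abs_lt_one (x := Real.exp (-(δ + τ * lam l k))) (by
      rw [abs_of_pos (Real.exp_pos _), Real.exp_lt_one_iff]
      have := mul_nonneg hτ.le (hlam k)
      linarith)
  have x1 : Real.exp (-δ) < 1 := Real.exp_lt_one_iff.2 (by linarith)
  have s2 := (hasSum_geometric_of_lt_one (Real.exp_pos _).le x1).mul_left (Real.exp (-δ))
  have e : ∀ j : ℕ, Real.exp (-δ) * Real.exp (-δ) ^ j = Real.exp (-(((j : ℝ) + 1) * δ)) := fun j => by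
    rw [← Real.exp_nat_mul, ← Real.exp_add]; congr 1; ring
  simp only [e] at s2
  have n1 : ∀ j : ℕ, (1 : ℝ) ≤ j + 1 := fun j => le_add_of_nonneg_left j.cast_nonneg
  have s3 : Summable fun j : ℕ => Real.exp (-(((j : ℝ) + 1) * δ)) / ((j : ℝ) + 1) ^ (5 / 2 : ℝ) :=
    .of_nonneg_of_le (fun j => by positivity)
      (fun j => div_le_self (by positivity) (Real.one_le_rpow (n1 j) (by norm_num))) s2.summable
  refine (hasSum_le (fun j => ?_) s1 ((s3.hasSum.mul_left ((1 + ε) ^ 2 * (l : ℝ) ^ 3 /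
    (4 * Real.pi * τ * (1 - ε)) ^ (3 / 2 : ℝ))).add (s2.mul_left (8 * (1 + 1 / ε) ^ 2)))).trans
    (add_le_add le_rfl ?_)
  · have e' : ∀ k, Real.exp (-(δ + τ * lam l k)) ^ (j + 1) = Real.exp (-(((j : ℝ) + 1) * δ)) *
        Real.exp (-(((j : ℝ) + 1) * τ * lam l k)) := fun k => by
      rw [← Real.exp_nat_mul, ← Real.exp_add]; congr 1; push_cast; ring
    simp only [e']
    rw [← Finset.sum_div, ← Finset.mul_sum, mul_div_assoc]
    exact (mul_le_mul_of_nonneg_left (ser_term hT hτ hε h1 hl (n1 j)) (Real.exp_pos _).le).trans_eq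
      (by ring)
  · rw [div_eq_mul_inv _ δ]
    gcongr
    rw [← div_eq_mul_inv, div_le_iff₀ (sub_pos.2 x1), inv_mul_eq_div, le_div_iff₀ hδ]
    have := Real.add_one_le_exp δ
    have h2 : Real.exp (-δ) * Real.exp δ = 1 := by rw [← Real.exp_add]; simp
    nlinarith [Real.exp_pos (-δ)]

end Vale.Agent.P361
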