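import Vale.Agent.P361.Def3

/-!
P361: upper bound on the slopes of the pressure.
-/

open scoped Matrix Topology
open Matrix Filter

namespace Vale.Agent.P361

lemma slope_ev {n : ℕ} {β : ℝ} (hβ : 0 < β) (J : ℕ) {u : ℝ} (hu : 0 < u) {h' h : ℝ}
    (hh : h' < h) (hm : u < (pressure n β h - pressure n β h') / (h - h')) :
    ∀ᶠ N : ℕ in atTop, u * ∑ j ∈ Finset.range J, Real.exp (-(((j : ℝ) + 1) * β * h)) *
      gsum N (((j : ℝ) + 1) * β * (n / 2) ^ 2 / u) ^ 3 ≤ (n / 2) * (n / 2 - u) := by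
  have h1 : Tendsto (fun N => (pressureN n β h N - pressureN n β h' N) / (h - h')) atTop
      (𝓝 ((pressure n β h - pressure n β h') / (h - h'))) :=
    ((pressure_tendsto n hβ h).sub (pressure_tendsto n hβ h')).div_const _
  refine (h1.eventually_const_lt hm).mono fun N hN => ?_
  have hV := card_box_pos N
  have hZ := gib_one_pos (gen_herm (n := n) (nbr_ne (Λ := box N)) β h)
  have h5 := log_partFn_tangent (n := n) (box N) β h h'
  have hd : 0 < h - h' := sub_pos.2 hh
  refine finite_volume hβ h N J u hu ?_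
  rw [← le_div_iff₀ hZ]
  simp only [pressureN] at hN
  rw [← sub_div, lt_div_iff₀ hd, lt_div_iff₀ (by positivity)] at hN
  have h7 : 0 < β * (h - h') := by positivity
  refine le_of_mul_le_mul_left ?_ h7
  generalize gib (gen n (nbr (box N)) β h) (magG n (box N)) / gib (gen n (nbr (box N)) β h) 1 = w
    at h5 ⊢
  nlinarith

theorem slope_pf (hL : S_LoAn) : S_Slope := by
  intro n hn
  obtain ⟨C, β₀, hC, hβ₀, H⟩ := hL n hn
  refine ⟨C, β₀, hC, hβ₀, fun β h' h hβ hh' hh => ?_⟩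
  have hb : 0 < β := hβ₀.trans_le hβ
  have hn' : (0 : ℝ) < n := by exact_mod_cast hn
  refine H β (β * h) _ hβ (mul_nonneg hb.le (hh'.trans hh.le)) fun J u hu hm => ?_
  have h1 := limit_gsum hu.le J (fun j => Real.exp (-(((j : ℝ) + 1) * β * h)))
    (fun j => 1 / (2 * Real.sqrt (Real.pi * (((j : ℝ) + 1) * β * ((n : ℝ) / 2) ^ 2 / u))) -
      1 / (Real.pi ^ 2 * (((j : ℝ) + 1) * β * ((n : ℝ) / 2) ^ 2 / u)))
    (fun j => (Real.exp_pos _).le)
    (fun N j => gsum N (((j : ℝ) + 1) * β * (n / 2) ^ 2 / u)) (fun N j => gsum_nonneg _ _)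
    (fun N j => gauss_sum_ge (by positivity) N) (slope_ev hb J hu hh hm)
  simpa only [mul_assoc] using h1

end Vale.Agent.P361
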