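import Vale.Agent.P361.Def3

/-!
P361, second part: sums over a complete system of modes.
-/

open scoped Matrix Topology
open Matrix Filter

namespace Vale.Agent.P361

section

variable {ι : Type} [Fintype ι] [DecidableEq ι] {n : ℕ}

lemma sum_modes {κ : Type} [Fintype κ] (f : κ → ι → ℝ)
    (hf : ∀ x y, ∑ k, f k x * f k y = if x = y then 1 else 0)
    (T : Matrix (ι → Fin (n + 1)) (ι → Fin (n + 1)) ℂ) :
    ∑ k, (ann n (f k))ᴴ * (T * ann n (f k)) =
      ∑ x, (siteOp x (splus n))ᴴ * (T * siteOp x (splus n)) := by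
  have h1 : ∀ k, (ann n (f k))ᴴ * (T * ann n (f k)) = ∑ x, ∑ y, ((f k x * f k y : ℝ) : ℂ) •
      ((siteOp x (splus n))ᴴ * (T * siteOp y (splus n))) := fun k => by
    rw [ann, conjTranspose_sum, Finset.mul_sum, Finset.sum_mul_sum]
    refine Finset.sum_congr rfl fun x _ => Finset.sum_congr rfl fun y _ => ?_
    rw [conjTranspose_smul, mul_smul_comm, smul_mul_smul_comm, Complex.star_def,
      Complex.conj_ofReal, Complex.ofReal_mul]
  simp only [h1]
  rw [Finset.sum_comm]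
  refine Finset.sum_congr rfl fun x _ => ?_
  rw [Finset.sum_comm]
  have h2 : ∀ y, ∑ k, ((f k x * f k y : ℝ) : ℂ) •
      ((siteOp x (splus n))ᴴ * (T * siteOp y (splus n))) =
      if x = y then (siteOp x (splus n))ᴴ * (T * siteOp y (splus n)) else 0 := fun y => by
    rw [← Finset.sum_smul, ← Complex.ofReal_sum, hf]
    split_ifs <;> simp
  simp only [h2, Finset.sum_ite_eq, Finset.mem_univ, if_true]

lemma sum_qp (x : ι) : (siteOp x (splus n))ᴴ * siteOp x (splus n) =
    diagonal fun σ : ι → Fin (n + 1) =>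
      ((((σ x : ℕ) : ℝ) * ((n : ℝ) + 1 - ((σ x : ℕ) : ℝ)) : ℝ) : ℂ) := by
  rw [siteOp_conjTranspose, siteOp_mul, sminus_mul_splus, siteOp_diagonal]

lemma sum_eta_mul (x y : ι) : eta n x * eta n y = diagonal fun σ : ι → Fin (n + 1) =>
    ((((σ x : ℕ) : ℝ) * ((σ y : ℕ) : ℝ) : ℝ) : ℂ) := by
  rw [eta_eq, eta_eq, diagonal_mul_diagonal]
  simp only [Complex.ofReal_mul]

lemma sum_eta_sub (x : ι) : eta n x * eta n x - eta n x = diagonal fun σ : ι → Fin (n + 1) =>
    ((((σ x : ℕ) : ℝ) * ((σ x : ℕ) : ℝ) - ((σ x : ℕ) : ℝ) : ℝ) : ℂ) := by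
  rw [sum_eta_mul, eta_eq, diagonal_sub]
  simp only [Complex.ofReal_sub]

lemma sum_qp' (x : ι) : (siteOp x (splus n))ᴴ * siteOp x (splus n) =
    ((n : ℝ) : ℂ) • eta n x - (eta n x * eta n x - eta n x) := by
  rw [sum_qp, sum_eta_sub, eta_eq, ← diagonal_smul, diagonal_sub]
  congr 1
  funext σ
  simp only [Pi.smul_apply, smul_eq_mul]
  push_cast
  ring

lemma sum_num_splus : numOp n * splus n = splus n * numOp n - splus n := by
  have h := sz_splus_rel (n := n)
  rw [spin_two_eq, sub_mul, mul_sub, smul_mul_assoc, mul_smul_comm, one_mul, mul_one] at h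
  rw [eq_sub_iff_add_eq, ← sub_eq_zero]
  rw [← sub_eq_zero] at h
  rw [← neg_eq_zero, ← h]
  abel

lemma sum_numT_mul (x : ι) :
    numT n ι * siteOp x (splus n) = siteOp x (splus n) * (numT n ι - 1) := by
  have h : ∀ y, eta n y * siteOp x (splus n) =
      siteOp x (splus n) * eta n y - if x = y then siteOp x (splus n) else 0 := fun y => by
    split_ifs with hxy
    · subst hxy
      rw [eta, siteOp_mul, siteOp_mul, sum_num_splus, siteOp_sub]
    · rw [eta, siteOp_comm hxy, sub_zero]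
  rw [mul_sub, mul_one, numT, Finset.sum_mul, Finset.mul_sum]
  simp only [h, Finset.sum_sub_distrib, Finset.sum_ite_eq, Finset.mem_univ, if_true]

lemma sum_nat_sq (k : ℕ) : (k : ℝ) ≤ k * k := by exact_mod_cast Nat.le_mul_self k

end

theorem sum_pf : S_Sum := by
  intro ι κ _ _ _ n f K hK hf
  refine ⟨?_, ?_, ?_, fun x y => ?_, fun x => ?_⟩
  · have h := sum_modes (n := n) f hf 1
    simp only [one_mul] at h
    rw [← gib_sum, h, gib_sum, numT, gib_sum, Finset.mul_sum, ← Finset.sum_sub_distrib]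
    refine Finset.sum_congr rfl fun x _ => ?_
    rw [sum_qp', gib_sub, gib_smul]
  · rw [← gib_sum, sum_modes f hf, ← gib_smul]
    have h1 : ∑ x : ι, (siteOp x (splus n))ᴴ * (numT n ι * siteOp x (splus n)) =
        diagonal fun σ : ι → Fin (n + 1) => (((∑ x, ((σ x : ℕ) : ℝ) *
          ((n : ℝ) + 1 - ((σ x : ℕ) : ℝ))) * ((∑ x, ((σ x : ℕ) : ℝ)) - 1) : ℝ) : ℂ) := by
      simp only [sum_numT_mul, ← mul_assoc, sum_qp]
      rw [numT_eq, ← diagonal_one, diagonal_sub]
      simp only [diagonal_mul_diagonal]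
      ext σ τ
      simp only [Matrix.sum_apply, diagonal_apply]
      split_ifs
      · rw [← Finset.sum_mul]
        push_cast
        rfl
      · simp
    have h2 : ((n : ℝ) : ℂ) • (numT n ι * numT n ι) = diagonal fun σ : ι → Fin (n + 1) =>
        (((n : ℝ) * ((∑ x, ((σ x : ℕ) : ℝ)) * ∑ x, ((σ x : ℕ) : ℝ)) : ℝ) : ℂ) := by
      rw [numT_eq, diagonal_mul_diagonal, ← diagonal_smul]
      congr 1
      funext σ
      simp only [Pi.smul_apply, smul_eq_mul, Complex.ofReal_mul]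
    rw [h1, h2]
    refine gib_diag_mono hK _ _ fun σ => ?_
    have a0 : 0 ≤ ∑ x, ((σ x : ℕ) : ℝ) := Finset.sum_nonneg fun _ _ => Nat.cast_nonneg _
    have a1 : 0 ≤ ∑ x, ((σ x : ℕ) : ℝ) * ((n : ℝ) + 1 - ((σ x : ℕ) : ℝ)) :=
      Finset.sum_nonneg fun x _ =>
        mul_nonneg (Nat.cast_nonneg _) (by linarith [fin_le (σ x)])
    have a2 : ∑ x, ((σ x : ℕ) : ℝ) * ((n : ℝ) + 1 - ((σ x : ℕ) : ℝ)) ≤
        n * ∑ x, ((σ x : ℕ) : ℝ) := by
      rw [Finset.mul_sum]
      exact Finset.sum_le_sum fun x _ => by linarith [sum_nat_sq (σ x)]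
    nlinarith [mul_le_mul_of_nonneg_right a2 a0]
  · rw [numT, Finset.sum_mul_sum, gib_sum]
    simp only [gib_sum]
  · rw [sum_eta_mul]
    exact gib_diag_nonneg hK _ fun σ => by positivity
  · rw [sum_eta_sub]
    exact gib_diag_nonneg hK _ fun σ => sub_nonneg.2 (sum_nat_sq _)

end Vale.Agent.P361
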