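import Vale.Agent.P361.Def2

open scoped Matrix Topology
open Matrix Filter

namespace Vale.Agent.P361

theorem tht_cos {x ε : ℝ} (hx : |x| ≤ Real.pi) (h0 : 0 < ε) (h1 : ε < 1) :
    (1 - ε) * x ^ 2 ≤ 2 * (1 - Real.cos x) ∨ 2 * ε / 5 ≤ 2 * (1 - Real.cos x) := by
  rcases le_total (x ^ 2) ε with h | h
  · left
    have h2 : |x| ≤ 1 := by
      rw [← sq_le_one_iff_abs_le_one]
      linarith
    have h3 := (abs_le.1 (Real.cos_bound h2)).2
    have h4 : |x| ^ 4 = x ^ 2 * x ^ 2 := by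
      rw [← sq_abs x]
      ring
    rw [h4] at h3
    nlinarith [sq_nonneg x, mul_le_mul_of_nonneg_right h (sq_nonneg x)]
  · right
    have h2 := Real.cos_le_one_sub_mul_cos_sq hx
    have hp := Real.pi_pos
    have h3 : Real.pi ^ 2 ≤ 10 := by nlinarith [Real.pi_lt_d2]
    have h4 : 2 / 10 ≤ 2 / Real.pi ^ 2 := by gcongr
    have h5 : 2 / 10 * ε ≤ 2 / Real.pi ^ 2 * x ^ 2 := by gcongr
    linarith

theorem tht_sum {b : ℝ} (hb : 0 < b) (l : ℕ) :
    ∑ k ∈ Finset.range l, Real.exp (-b * (k : ℝ) ^ 2) ≤ 1 + Real.sqrt (Real.pi / b) / 2 := by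
  have h1 : AntitoneOn (fun x : ℝ => Real.exp (-b * x ^ 2)) (Set.Icc 0 (0 + (l : ℕ))) := by
    intro x hx y _ hxy
    refine Real.exp_le_exp.2 ?_
    have := pow_le_pow_left₀ hx.1 hxy 2
    nlinarith
  have h2 := h1.sum_le_integral
  simp only [zero_add] at h2
  have hi := integrable_exp_neg_mul_sq hb
  have h3 := intervalIntegral.integral_interval_add_Ioi (a := 0) (b := (l : ℝ))
    hi.integrableOn hi.integrableOn
  rw [integral_gaussian_Ioi] at h3
  have h4 : 0 ≤ ∫ x in Set.Ioi (l : ℝ), Real.exp (-b * x ^ 2) :=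
    MeasureTheory.integral_nonneg fun x => (Real.exp_pos _).le
  have h5 := Finset.sum_range_succ' (fun k : ℕ => Real.exp (-b * (k : ℝ) ^ 2)) l
  have h6 := Finset.sum_range_succ (fun k : ℕ => Real.exp (-b * (k : ℝ) ^ 2)) l
  have h7 : Real.exp (-b * ((0 : ℕ) : ℝ) ^ 2) = 1 := by simp
  have h8 := Real.exp_pos (-b * (l : ℝ) ^ 2)
  simp only [h7] at h5
  linarith

theorem theta_pf : S_Theta := by
  intro l τ ε hτ h0 h1
  rcases Nat.eq_zero_or_pos l with rfl | hl
  · simp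
  have hp := Real.pi_pos
  have hl0 : (0 : ℝ) < l := by exact_mod_cast hl
  have he : 0 < 1 - ε := by linarith
  have hb : 0 < τ * (1 - ε) * (Real.pi / l) ^ 2 := by positivity
  have h2 : ∀ k : Fin l,
      Real.exp (-(τ * (2 * (1 - Real.cos (Real.pi * ((k : ℕ) : ℝ) / l))))) ≤
        Real.exp (-(τ * (1 - ε) * (Real.pi / l) ^ 2) * ((k : ℕ) : ℝ) ^ 2) +
          Real.exp (-(2 * τ * ε / 5)) := by
    intro k
    have hk : ((k : ℕ) : ℝ) ≤ l := by exact_mod_cast k.2.le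
    have hx : |Real.pi * ((k : ℕ) : ℝ) / l| ≤ Real.pi := by
      rw [abs_of_nonneg (by positivity), div_le_iff₀ hl0]
      gcongr
    rcases tht_cos hx h0 h1 with h | h
    · refine le_add_of_le_of_nonneg (Real.exp_le_exp.2 ?_) (Real.exp_pos _).le
      have h3 := mul_le_mul_of_nonneg_left h hτ.le
      have h4 : -(τ * (1 - ε) * (Real.pi / l) ^ 2) * ((k : ℕ) : ℝ) ^ 2 =
          -(τ * ((1 - ε) * (Real.pi * ((k : ℕ) : ℝ) / l) ^ 2)) := by ring
      rw [h4]
      linarith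
    · refine le_add_of_nonneg_of_le (Real.exp_pos _).le (Real.exp_le_exp.2 ?_)
      have h3 := mul_le_mul_of_nonneg_left h hτ.le
      linarith
  refine (Finset.sum_le_sum fun k _ => h2 k).trans ?_
  rw [Finset.sum_add_distrib, Finset.sum_const, Finset.card_univ, Fintype.card_fin, nsmul_eq_mul,
    Fin.sum_univ_eq_sum_range
      (fun k : ℕ => Real.exp (-(τ * (1 - ε) * (Real.pi / l) ^ 2) * (k : ℝ) ^ 2)) l]
  refine add_le_add ((tht_sum hb l).trans (le_of_eq ?_)) le_rfl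
  have hs : 0 < Real.sqrt (4 * Real.pi * τ * (1 - ε)) := by positivity
  have e : Real.sqrt (Real.pi / (τ * (1 - ε) * (Real.pi / l) ^ 2)) =
      2 * (l / Real.sqrt (4 * Real.pi * τ * (1 - ε))) := by
    rw [Real.sqrt_eq_iff_eq_sq (by positivity) (by positivity), mul_pow 2, div_pow (l : ℝ),
      Real.sq_sqrt (by positivity)]
    field_simp
    norm_num
  rw [e]
  ring

end Vale.Agent.P361
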