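import Vale.Agent.P361.Def3

/-!
P361, second part: three-site and two-site inequalities.
-/

open scoped Matrix Topology
open Matrix Filter

namespace Vale.Agent.P361

lemma tri_add {m : Type} [Fintype m] [DecidableEq m] {K : Matrix m m ℂ} (hK : K.IsHermitian)
    (X Y : Matrix m m ℂ) {t : ℝ} (ht : 0 < t) :
    gib K ((X + Y)ᴴ * (X + Y)) ≤ (1 + t) * gib K (Xᴴ * X) + (1 + 1 / t) * gib K (Yᴴ * Y) := by
  have h1 := gib_am hK X Y 1 ht
  have h2 : (X + Y)ᴴ * (X + Y) = Xᴴ * X + Xᴴ * Y + (Xᴴ * Y)ᴴ + Yᴴ * Y := by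
    simp only [conjTranspose_add, conjTranspose_mul, conjTranspose_conjTranspose, Matrix.add_mul,
      Matrix.mul_add]
    abel
  rw [h2, gib_add, gib_add, gib_add, gib_star hK]
  rw [one_pow] at h1
  linarith

lemma tri_sqrt {a b c : ℝ} (ha : 0 ≤ a) (hb : 0 ≤ b)
    (h : ∀ t : ℝ, 0 < t → c ≤ (1 + t) * a + (1 + 1 / t) * b) :
    Real.sqrt c ≤ Real.sqrt a + Real.sqrt b := by
  obtain ⟨u, hu, rfl⟩ : ∃ u, 0 ≤ u ∧ a = u * u := ⟨_, Real.sqrt_nonneg a, (Real.mul_self_sqrt ha).symm⟩
  obtain ⟨v, hv, rfl⟩ : ∃ v, 0 ≤ v ∧ b = v * v := ⟨_, Real.sqrt_nonneg b, (Real.mul_self_sqrt hb).symm⟩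
  rw [Real.sqrt_mul_self hu, Real.sqrt_mul_self hv]
  refine le_of_forall_pos_le_add fun e he => ?_
  have h1 := h ((v + e / 2) / (u + e / 2)) (by positivity)
  have p1 : 0 < u + e / 2 := by positivity
  have p2 : 0 < v + e / 2 := by positivity
  have h2 : (1 + (v + e / 2) / (u + e / 2)) * (u * u) ≤
      (1 + (v + e / 2) / (u + e / 2)) * ((u + e / 2) * (u + e / 2)) :=
    mul_le_mul_of_nonneg_left (by nlinarith) (by positivity)
  have h3 : (1 + 1 / ((v + e / 2) / (u + e / 2))) * (v * v) ≤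
      (1 + 1 / ((v + e / 2) / (u + e / 2))) * ((v + e / 2) * (v + e / 2)) :=
    mul_le_mul_of_nonneg_left (by nlinarith) (by positivity)
  have h4 : (1 + (v + e / 2) / (u + e / 2)) * ((u + e / 2) * (u + e / 2)) +
      (1 + 1 / ((v + e / 2) / (u + e / 2))) * ((v + e / 2) * (v + e / 2)) = (u + v + e) ^ 2 := by
    field_simp
    ring
  exact Real.sqrt_le_iff.2 ⟨by positivity, by linarith⟩

variable {ι : Type} [Fintype ι] [DecidableEq ι] {n : ℕ}

lemma tri_c {x y : ι} (h : x ≠ y) (A B : Matrix (Fin (n + 1)) (Fin (n + 1)) ℂ)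
    (W : Matrix (ι → Fin (n + 1)) (ι → Fin (n + 1)) ℂ) :
    siteOp y B * (siteOp x A * W) = siteOp x A * (siteOp y B * W) := by
  rw [← Matrix.mul_assoc, siteOp_comm h, Matrix.mul_assoc]

lemma tri_split (K W : Matrix (ι → Fin (n + 1)) (ι → Fin (n + 1)) ℂ) (y : ι) :
    gib K ((siteOp y (annOp n) * W)ᴴ * (siteOp y (annOp n) * W)) +
      gib K ((siteOp y (holOp n) * W)ᴴ * (siteOp y (holOp n) * W)) = n * gib K (Wᴴ * W) := by
  have h : ∀ A : Matrix (Fin (n + 1)) (Fin (n + 1)) ℂ,
      (siteOp y A * W)ᴴ * (siteOp y A * W) = Wᴴ * (siteOp y (Aᴴ * A) * W) := fun A => by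
    rw [conjTranspose_mul, siteOp_conjTranspose, ← siteOp_mul, Matrix.mul_assoc, Matrix.mul_assoc]
  rw [← gib_add, ← gib_smul, h, h, ← Matrix.mul_add, ← Matrix.add_mul, ← siteOp_add, ann_star_mul,
    holOp_herm, hol_mul_hol, add_sub_cancel, siteOp_smul, siteOp_one, Matrix.smul_mul,
    Matrix.one_mul, Matrix.mul_smul, Complex.ofReal_natCast]

lemma tri_ee {x y : ι} (h : x ≠ y) :
    (siteOp x (annOp n) * siteOp y (annOp n))ᴴ * (siteOp x (annOp n) * siteOp y (annOp n)) =
      eta n x * eta n y := by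
  rw [conjTranspose_mul, siteOp_conjTranspose, siteOp_conjTranspose, siteOp_comm h, two_mul_two h,
    ann_star_mul, eta, eta]

lemma tri_qp (x : ι) : siteOp x ((splus n)ᴴ * splus n) =
    ((n : ℂ) + 1) • eta n x - eta n x * eta n x := by
  rw [sminus_mul_splus, siteOp_diagonal, eta_eq, diagonal_mul_diagonal, ← diagonal_smul,
    diagonal_sub]
  congr 1
  funext σ
  simp only [Pi.smul_apply, smul_eq_mul]
  push_cast
  ring

theorem tri_pf : S_Tri := by
  intro ι _ _ n K hn hK
  have n0 : (0 : ℝ) < n := Nat.cast_pos.2 hn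
  have hD : ∀ x y : ι, x ≠ y → gib K ((dop n x y)ᴴ * dop n x y) = 2 * gib K (hop n x y) :=
    fun x y h => by rw [dop_sq h, gib_smul]
  refine ⟨fun x y z => ?_, fun x y z hxy hxz hyz => ?_, fun x y h => ?_⟩
  · by_cases hxz : x = z
    · rw [dd, if_pos hxz, Real.sqrt_zero]
      positivity
    by_cases hxy : x = y
    · subst hxy
      exact le_add_of_nonneg_left (Real.sqrt_nonneg _)
    by_cases hyz : y = z
    · subst hyz
      exact le_add_of_nonneg_right (Real.sqrt_nonneg _)
    rw [dd, dd, dd, if_neg hxz, if_neg hxy, if_neg hyz]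
    refine tri_sqrt (gib_hop_nonneg hK hxy) (gib_hop_nonneg hK hyz) fun t ht => ?_
    have e1 : siteOp y (holOp n) * dop n x z =
        siteOp z (holOp n) * dop n x y + siteOp x (holOp n) * dop n y z := by
      simp only [dop, Matrix.mul_sub, tri_c hxy, tri_c hxz, siteOp_comm hyz]
      abel
    have e2 : siteOp y (annOp n) * dop n x z =
        siteOp z (annOp n) * dop n x y + siteOp x (annOp n) * dop n y z := by
      simp only [dop, Matrix.mul_sub, tri_c hxy, tri_c hxz, siteOp_comm hyz]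
      abel
    have s1 := tri_split K (dop n x z) y
    have s2 := tri_split K (dop n x y) z
    have s3 := tri_split K (dop n y z) x
    have a1 := tri_add hK (siteOp z (holOp n) * dop n x y) (siteOp x (holOp n) * dop n y z) ht
    have a2 := tri_add hK (siteOp z (annOp n) * dop n x y) (siteOp x (annOp n) * dop n y z) ht
    rw [← e1] at a1
    rw [← e2] at a2
    rw [hD _ _ hxz] at s1
    rw [hD _ _ hxy] at s2
    rw [hD _ _ hyz] at s3
    refine le_of_mul_le_mul_left ?_ (show (0 : ℝ) < n * 2 by positivity)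
    calc _ = _ := (mul_assoc _ _ _).trans s1.symm
      _ ≤ _ := add_le_add a2 a1
      _ = _ := by linear_combination (1 + t) * s2 + (1 + 1 / t) * s3
  · have e1 : siteOp z (holOp n) * (siteOp x (annOp n) * siteOp y (annOp n)) =
        siteOp y (holOp n) * (siteOp x (annOp n) * siteOp z (annOp n)) +
          siteOp x (annOp n) * dop n y z := by
      simp only [dop, Matrix.mul_sub, tri_c hxy, tri_c hxz, siteOp_comm hyz]
      abel
    have e2 : siteOp z (annOp n) * (siteOp x (annOp n) * siteOp y (annOp n)) =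
        siteOp y (annOp n) * (siteOp x (annOp n) * siteOp z (annOp n)) := by
      simp only [tri_c hxy, tri_c hxz, siteOp_comm hyz]
    have s1 := tri_split K (siteOp x (annOp n) * siteOp y (annOp n)) z
    have s2 := tri_split K (siteOp x (annOp n) * siteOp z (annOp n)) y
    have s3 := tri_split K (dop n y z) x
    have a1 := tri_add hK (siteOp y (holOp n) * (siteOp x (annOp n) * siteOp z (annOp n)))
      (siteOp x (annOp n) * dop n y z) one_pos
    have p1 := gib_nonneg' hK (siteOp y (annOp n) * (siteOp x (annOp n) * siteOp z (annOp n)))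
    have p2 := gib_nonneg' hK (siteOp x (holOp n) * dop n y z)
    have p3 := gib_nonneg' hK (siteOp y (holOp n) * (siteOp x (annOp n) * siteOp z (annOp n)))
    rw [← e1] at a1
    rw [e2, tri_ee hxy] at s1
    rw [tri_ee hxz] at s2
    rw [hD _ _ hyz] at s3
    refine le_of_mul_le_mul_left ?_ n0
    norm_num only at a1
    linarith
  · have h1 := gib_nonneg' hK (siteOp x (splus n) - siteOp y (splus n))
    have h3 : (siteOp x (splus n) - siteOp y (splus n))ᴴ *
        (siteOp x (splus n) - siteOp y (splus n)) =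
        ((2 : ℝ) : ℂ) • hop n x y - (eta n x * eta n x - eta n x) - (eta n y * eta n y - eta n y) +
          ((2 : ℝ) : ℂ) • (eta n x * eta n y) := by
      rw [hop, sdot_eq]
      simp only [conjTranspose_sub, siteOp_conjTranspose, siteOp_comm h, Matrix.sub_mul,
        Matrix.mul_sub, siteOp_mul, tri_qp, siteOp_sz_eta, Matrix.smul_mul, Matrix.mul_smul,
        Matrix.mul_one, Matrix.one_mul]
      push_cast
      module
    rw [h3, gib_add, gib_sub, gib_sub, gib_smul, gib_smul] at h1
    linarith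

end Vale.Agent.P361
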