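import Vale.Agent.P361.Def3

/-!
P361: the sharp upper bound on the pressure.
-/

open scoped Matrix Topology
open Matrix Filter

namespace Vale.Agent.P361

lemma upp_root {a β x : ℝ} (k : ℕ) (hk : k ≠ 0) (ha : 0 ≤ a) (hβ : 0 < β) (hx : 0 < x)
    (h : a ^ k * β ≤ x ^ k) : a / x ≤ β ^ (-(1 / k) : ℝ) := by
  rw [Real.rpow_neg hβ.le, div_le_iff₀ hx, le_inv_mul_iff₀' (Real.rpow_pos_of_pos hβ _),
    ← pow_le_pow_iff_left₀ (by positivity) hx.le hk, mul_pow, one_div,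
    Real.rpow_inv_natCast_pow hβ.le hk]
  exact h

lemma upp_odd (r₀ : ℝ) : ∀ᶠ β : ℝ in atTop, ∃ r : ℕ, Odd r ∧ r₀ ≤ r ∧ (1000 : ℝ) ≤ r ∧
    (r : ℝ) ^ 160 ≤ β ∧ β ≤ 2 * (r : ℝ) ^ 160 := by
  filter_upwards [eventually_ge_atTop 0, (tendsto_rpow_atTop (y := ((160 : ℕ) : ℝ)⁻¹)
    (by positivity)).eventually_ge_atTop (max r₀ 1000 + 2)] with β h0 h1
  have h2 := Real.rpow_inv_natCast_pow h0 (show 160 ≠ 0 by norm_num)
  have h3 := le_max_left r₀ 1000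
  have h4 := le_max_right r₀ 1000
  generalize β ^ ((160 : ℕ) : ℝ)⁻¹ = b at h1 h2
  have h5 := Nat.floor_le (show 0 ≤ (b - 1) / 2 by linarith)
  have h6 := Nat.lt_floor_add_one ((b - 1) / 2)
  refine ⟨2 * ⌊(b - 1) / 2⌋₊ + 1, odd_two_mul_add_one _, ?_⟩
  push_cast
  generalize (⌊(b - 1) / 2⌋₊ : ℝ) = m at h5 h6
  refine ⟨by linarith, by linarith, h2 ▸ pow_le_pow_left₀ (by linarith) (by linarith) _, ?_⟩
  rw [← h2]
  refine (pow_le_pow_left₀ (by linarith) (show b ≤ 501 / 500 * (2 * m + 1) by linarith) _).trans ?_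
  rw [mul_pow]
  exact mul_le_mul_of_nonneg_right (by norm_num) (pow_nonneg (by linarith) _)

lemma upp_alg {β l p A P g t X E F : ℝ} (hβ : β ≠ 0) (hl : l ≠ 0) :
    p * β * ((X + (A * l / P * g + E) / t + F) / (β * l)) =
      p * (A / P * g / t) + p / l * (X + E / t + F) := by
  rw [mul_assoc, mul_div_assoc' β, mul_div_mul_left _ _ hβ]
  simp only [div_eq_mul_inv]
  linear_combination (p * A * P⁻¹ * g * t⁻¹) * mul_inv_cancel₀ hl

theorem up_pf (hQ : S_Q) (hB : S_UpBox) (hR : S_Rough) (h1 : S_Num1) (h2 : S_Num2) : S_Up := by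
  intro n hn
  obtain ⟨r₀, hR⟩ := hR n hn
  obtain ⟨C, h1⟩ := h1 n hn
  obtain ⟨C', r₁, h2⟩ := h2 n hn
  filter_upwards [upp_odd (max (max r₀ r₁) (2 * (|C| + |C'|) ^ 90))] with β
    ⟨r, ho, k0, k1, k2, k3⟩ δ hδ
  obtain ⟨M, hM⟩ := ho.pow (n := 79)
  obtain ⟨N, hN⟩ := ho.pow (n := 83)
  have r1 : (1 : ℝ) ≤ r := by linarith
  have r0 : (0 : ℝ) < r := by linarith
  have β0 : 0 < β := lt_of_lt_of_le (by positivity) k2
  have a1 : 1 / (r : ℝ) ≤ δ := by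
    have := upp_root 200 (by norm_num) zero_le_two β0 r0 (by
      have h3 : (64 : ℝ) ^ 40 ≤ r ^ 40 := pow_le_pow_left₀ (by norm_num) (by linarith) _
      calc _ ≤ 2 ^ 200 * (2 * (r : ℝ) ^ 160) := by gcongr
        _ ≤ 64 ^ 40 * (r : ℝ) ^ 160 := by rw [← mul_assoc]; gcongr; norm_num
        _ ≤ r ^ 40 * (r : ℝ) ^ 160 := by gcongr
        _ = _ := by rw [← pow_add])
    rw [show (2 : ℝ) / r = 2 * (1 / r) by ring] at this
    push_cast at this
    linarith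
  have a2 : (|C| + |C'|) / (r : ℝ) ^ 2 ≤ β ^ (-(1 / 90) : ℝ) := by
    have := upp_root 90 (by norm_num) (add_nonneg (abs_nonneg C) (abs_nonneg C')) β0
      (pow_pos r0 2) (by
      have h3 : 2 * (|C| + |C'|) ^ 90 ≤ (r : ℝ) ^ 20 :=
        ((le_max_right _ _).trans k0).trans (le_self_pow₀ r1 (by norm_num))
      calc _ ≤ (|C| + |C'|) ^ 90 * (2 * (r : ℝ) ^ 160) := by gcongr
        _ = 2 * (|C| + |C'|) ^ 90 * (r : ℝ) ^ 160 := by rw [mul_left_comm, mul_assoc]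
        _ ≤ r ^ 20 * (r : ℝ) ^ 160 := by gcongr
        _ = _ := by rw [← pow_add, ← pow_mul])
    exact_mod_cast this
  have a3 : 1 / (r : ℝ) ^ 3 ≤ 1 / 2 :=
    one_div_le_one_div_of_le two_pos (le_trans (by linarith) (le_self_pow₀ r1 three_ne_zero))
  have a4 : r₀ ≤ r := Nat.cast_le.1 (((le_max_left _ _).trans (le_max_left _ _)).trans k0)
  have a5 : 2 * (N : ℝ) + 1 = (r : ℝ) ^ 83 := by exact_mod_cast hN.symm
  have a6 : 1 ≤ r ^ 57 := Nat.one_le_pow _ _ (Nat.cast_pos.1 r0)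
  have a7 : r ^ 57 + 1 ≤ N := by
    have h3 : 5 ≤ r ^ 26 := le_trans (Nat.cast_le.1 (show ((5 : ℕ) : ℝ) ≤ r by push_cast; linarith))
      (Nat.le_self_pow (by norm_num) r)
    have h4 := Nat.mul_le_mul_left (r ^ 57) h3
    rw [← pow_add, hN] at h4
    omega
  have δ0 := (one_div_pos.2 r0).trans_le a1
  obtain ⟨b1, b2⟩ := h2 r β δ (((le_max_right _ _).trans (le_max_left _ _)).trans k0) k2 k3 a1
  have b3 := h1 β δ (1 / r ^ 3) β0 δ0.le (by positivity) a3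
  have b4 := hB n N (r ^ 57) β (1 / r) δ (1 / r ^ 3) (1 / r ^ 28) (r ^ 14) r hn a6 a7 β0
    (by positivity) a1 (by positivity) (by linarith) (by positivity) (by positivity) r1
    (hR r M N _ _ a4 hM.symm hN.symm (by linarith)
      (one_div_le_one_div_of_le r0 (by linarith)))
    (hR r M N _ _ a4 hM.symm hN.symm (by linarith) (by rw [div_div, mul_comm])) (a5 ▸ b1)
  have b5 := ((hQ n).2.2 β (δ / β) β0).2 N
  rw [mul_div_cancel₀ _ β0.ne', a5] at b5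
  rw [a5, Nat.cast_pow] at b4
  have b6 : C * (1 / (r : ℝ) ^ 3) ≤ |C| / (r : ℝ) ^ 2 := by
    rw [mul_one_div]
    exact div_le_div₀ (abs_nonneg _) (le_abs_self _) (by positivity)
      (pow_le_pow_right₀ r1 (by norm_num))
  have b7 : C' / (r : ℝ) ^ 2 ≤ |C'| / (r : ℝ) ^ 2 :=
    div_le_div_of_nonneg_right (le_abs_self _) (by positivity)
  rw [add_div] at a2
  refine (mul_le_mul_of_nonneg_left (b5.trans (div_le_div_of_nonneg_right b4 (by positivity)))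
    (by positivity)).trans (le_of_eq_of_le ?_ ((add_le_add b3 b2).trans (by linarith)))
  rw [show β ^ (5 / 2 : ℝ) = β ^ (3 / 2 : ℝ) * β by rw [← Real.rpow_add_one β0.ne']; norm_num]
  exact upp_alg β0.ne' (by positivity)

end Vale.Agent.P361
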