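import Vale.Agent.P361.Def3

/-! P361: the upper bound on the partition function of a box. -/

open scoped Matrix Topology
open Matrix Filter

namespace Vale.Agent.P361

theorem ubx_cont (n : ℕ) (Λ : Finset (Fin 3 → ℤ)) (β : ℝ) : Continuous (lzt n Λ β) := by
  have key : ∀ a b : ℝ, lzt n Λ β a - lzt n Λ β b ≤ (n * Λ.card : ℝ) * |a - b| := fun a b => by
    have h1 := lzt_tangent (n := n) Λ β a β b
    have h2 := mul_le_mul (neg_le_abs (a - b)) (av_numT_le (n := n) Λ β a)
      (av_numT_nonneg Λ β a) (abs_nonneg _)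
    linarith
  refine (LipschitzWith.of_dist_le' (K := n * Λ.card) fun a b => ?_).continuous
  rw [Real.dist_eq, Real.dist_eq, abs_le]
  have := key b a
  rw [abs_sub_comm] at this
  exact ⟨by linarith, key a b⟩

theorem ubx_der {c b x : ℝ} (h : 0 < c * (x + b)) (hc : c ≠ 0) :
    HasDerivAt (fun x => -Real.log (1 - Real.exp (-(c * (x + b)))) / c)
      (-(1 / (Real.exp (c * (x + b)) - 1))) x := by
  have h1 : 1 - Real.exp (-(c * (x + b))) ≠ 0 :=
    (sub_pos.2 (Real.exp_lt_one_iff.2 (neg_neg_of_pos h))).ne'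
  have h2 : Real.exp (c * (x + b)) - 1 ≠ 0 := (sub_pos.2 (Real.one_lt_exp_iff.2 h)).ne'
  refine (((((hasDerivAt_id x).add_const b).const_mul c).neg.exp.const_sub 1).log h1).neg.div_const
    c |>.congr_deriv ?_
  have := (Real.exp_pos (c * (x + b))).ne'
  simp only [id, Pi.neg_apply, Real.exp_neg]
  field_simp

theorem upbox_pf (hD : S_DB) (hE : S_Ent) (hS : S_Ser) : S_UpBox := by
  intro n N J β δ₀ δ θ τ R D hn hJ hN hβ h0 hδ hθ h1 hτ hR hD1 r1 r2 hl
  have hc : 0 < 1 - θ := sub_pos.2 h1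
  have hn' : (0 : ℝ) < n := by exact_mod_cast hn
  have hb : ∀ k, 0 ≤ β * ((n : ℝ) / 2) * lam (2 * N + 1) k := fun k => mul_nonneg (by positivity)
    (Finset.sum_nonneg fun i _ => mul_nonneg zero_le_two (sub_nonneg.2 (Real.cos_le_one _)))
  have hp : ∀ x, δ ≤ x → ∀ k, 0 < (1 - θ) * (x + β * ((n : ℝ) / 2) * lam (2 * N + 1) k) :=
    fun x hx k => mul_pos hc (by linarith [hb k])
  set E := errE n (2 * (N : ℝ) + 1) β δ₀ θ τ J R
  let G : ℝ → ℝ := fun x => ∑ k : Fin 3 → Fin (2 * N + 1),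
    -Real.log (1 - Real.exp (-((1 - θ) * (x + β * ((n : ℝ) / 2) * lam (2 * N + 1) k)))) / (1 - θ)
  let U : ℝ → ℝ := fun x => ∑ k : Fin 3 → Fin (2 * N + 1),
    1 / (Real.exp ((1 - θ) * (x + β * ((n : ℝ) / 2) * lam (2 * N + 1) k)) - 1)
  have dG : ∀ x, δ ≤ x → HasDerivAt (fun x => -lzt n (box N) β δ + G δ - G x + E * (x - δ))
      (U x + E) x := fun x hx =>
    (((HasDerivAt.fun_sum fun k _ => ubx_der (hp x hx k) hc.ne').const_sub _).add
      (((hasDerivAt_id x).sub_const δ).const_mul E)).congr_deriv (by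
        simp only [U, Finset.sum_neg_distrib, neg_neg, mul_one])
  have k1 := image_le_of_liminf_slope_right_le_deriv_boundary (a := δ) (b := δ + D)
    (f := fun x => -lzt n (box N) β x) (ubx_cont n _ β).neg.continuousOn (by simp)
    (fun x hx => (dG x hx.1).continuousAt.continuousWithinAt)
    (fun x hx => (dG x hx.1).hasDerivWithinAt) (fun x hx r hr =>
      (eventually_nhdsWithin_of_forall (s := Set.Ioi x) fun z (hz : x < z) => by
        have a1 := lzt_tangent (n := n) (box N) β x β z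
        have a2 := mul_le_mul_of_nonneg_left (hD n N J β δ₀ x θ τ R hn hJ hN hβ h0 (hδ.trans hx.1)
          hθ h1 hτ hR r1 r2) (sub_pos.2 hz).le
        refine lt_of_le_of_lt ?_ hr
        rw [slope_def_field, div_le_iff₀ (sub_pos.2 hz)]
        linarith).frequently) ⟨by linarith, le_rfl⟩
  have k2 : 0 ≤ G (δ + D) := Finset.sum_nonneg fun k _ => div_nonneg (neg_nonneg.2
    (Real.log_nonpos (sub_nonneg.2 (Real.exp_le_one_iff.2 (neg_nonpos.2
      (hp _ (by linarith) k).le))) (sub_le_self _ (Real.exp_pos _).le))) hc.le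
  have k3 := hE.2 n (box N) β (δ + D) hβ.le (by linarith)
  have k4 : Real.exp (-(δ + D)) ≤ Real.exp (-D) := Real.exp_le_exp.2 (by linarith)
  have k5 := hS (2 * N + 1) ((1 - θ) * β * ((n : ℝ) / 2)) θ ((1 - θ) * δ) (by positivity) hθ h1
    (mul_pos hc (h0.trans_le hδ)) (by push_cast; exact hl)
  have k6 := div_le_div_of_nonneg_right k5 hc.le
  have k7 : G δ = (∑ k : Fin 3 → Fin (2 * N + 1), -Real.log (1 - Real.exp (-((1 - θ) * δ +
      (1 - θ) * β * ((n : ℝ) / 2) * lam (2 * N + 1) k)))) / (1 - θ) := by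
    simp only [G, Finset.sum_div, mul_add, mul_assoc]
  rw [card_box] at k3
  have k8 := mul_le_mul_of_nonneg_left k4 (by positivity : 0 ≤ 2 * (2 * (N : ℝ) + 1) ^ 3)
  push_cast at k6
  simp only [add_sub_cancel_left] at k1
  linarith

end Vale.Agent.P361
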