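import Vale.Agent.P361.Def2

/-!
P361: moving one particle along a window.
-/

open scoped Matrix Topology
open Matrix Filter

namespace Vale.Agent.P361

section gen

variable {α : Type}

lemma win_chain {d : α → α → ℝ} (h0 : ∀ x y, 0 ≤ d x y) (hd : ∀ x, d x x = 0)
    (ht : ∀ x y z, Real.sqrt (d x z) ≤ Real.sqrt (d x y) + Real.sqrt (d y z)) (w : ℕ → α)
    {i m : ℕ} (hi : i ≤ m) :
    d (w 0) (w i) ≤ m * ∑ a ∈ Finset.range m, d (w a) (w (a + 1)) := by
  have h1 : ∀ i, Real.sqrt (d (w 0) (w i)) ≤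
      ∑ a ∈ Finset.range i, Real.sqrt (d (w a) (w (a + 1))) := by
    intro i
    induction i with
    | zero => simp [hd]
    | succ i ih =>
      rw [Finset.sum_range_succ]
      exact (ht _ (w i) _).trans (add_le_add ih le_rfl)
  have h2 := (h1 i).trans (Finset.sum_le_sum_of_subset_of_nonneg (Finset.range_mono hi)
    fun _ _ _ => Real.sqrt_nonneg _)
  have h3 := (pow_le_pow_left₀ (Real.sqrt_nonneg _) h2 2).trans sq_sum_le_card_mul_sum_sq
  simpa only [Real.sq_sqrt (h0 _ _), Finset.card_range] using h3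

variable [Fintype α]

lemma win_inj {β : Type} [DecidableEq α] {s : Finset β} {f : β → α} (hf : Set.InjOn f s)
    {g : α → ℝ} (hg : ∀ x, 0 ≤ g x) : ∑ i ∈ s, g (f i) ≤ ∑ x, g x := by
  rw [← Finset.sum_image hf]
  exact Finset.sum_le_sum_of_subset_of_nonneg (Finset.subset_univ _) fun x _ _ => hg x

lemma win_deg {R : α → α → Prop} [DecidableRel R]
    (hR : ∀ x, (∑ y, if R x y then (1 : ℝ) else 0) ≤ 6) {f : α → ℝ} (hf : ∀ x, 0 ≤ f x) :
    (∑ x, ∑ y, if R x y then f x else 0) ≤ 6 * ∑ x, f x := by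
  rw [Finset.mul_sum]
  refine Finset.sum_le_sum fun x _ => le_trans (le_of_eq ?_)
    (mul_le_mul_of_nonneg_right (hR x) (hf x))
  rw [Finset.sum_mul]
  exact Finset.sum_congr rfl fun y _ => by split_ifs <;> simp

lemma win_gen [DecidableEq α] {R : α → α → Prop} [DecidableRel R] {J : ℕ} {d p : α → α → ℝ}
    (w : ℕ → α → α) (hR : ∀ x, (∑ y, if R x y then (1 : ℝ) else 0) ≤ 6)
    (hs : ∀ x y, R x y ↔ R y x) (hne : ∀ x y, R x y → x ≠ y) (w0 : ∀ y, w 0 y = y)
    (w1 : ∀ a < J + 1, ∀ y, R (w a y) (w (a + 1) y))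
    (w2 : ∀ a < J + 1, ∀ y y', w a y = w a y' → w (a + 1) y = w (a + 1) y' → y = y')
    (w3 : ∀ a ≤ J + 1, ∀ b ≤ J + 1, ∀ y, w a y = w b y → a = b)
    (w4 : ∀ a ≤ J + 1, 2 ≤ a → ∀ x y, R x y → x ≠ w a y)
    (h0 : ∀ x y, 0 ≤ d x y) (hd : ∀ x, d x x = 0)
    (ht : ∀ x y z, Real.sqrt (d x z) ≤ Real.sqrt (d x y) + Real.sqrt (d y z))
    (hp : ∀ x y, 0 ≤ p x y)
    (hm : ∀ x y z, x ≠ y → x ≠ z → y ≠ z → p x y ≤ 3 * p x z + 4 * d y z) :
    J * (∑ x, ∑ y, if R x y then p x y else 0) ≤ 18 * (∑ x, ∑ z, p x z) +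
      24 * (J * ((J : ℝ) + 1) ^ 2 * ∑ x, ∑ y, if R x y then d x y else 0) := by
  obtain ⟨T, hT⟩ : ∃ T : α → ℝ, ∀ y, T y = ∑ i ∈ Finset.Icc 2 (J + 1), d y (w i y) :=
    ⟨_, fun _ => rfl⟩
  have hc : ((Finset.Icc 2 (J + 1)).card : ℝ) = J := by simp
  have T0 : ∀ y, 0 ≤ T y := fun y => hT y ▸ Finset.sum_nonneg fun _ _ => h0 _ _
  have a1 : ∀ x y, R x y → J * p x y ≤ 3 * ∑ z, p x z + 4 * T y := by
    intro x y hxy
    have b1 : ∑ _i ∈ Finset.Icc 2 (J + 1), p x y ≤
        ∑ i ∈ Finset.Icc 2 (J + 1), (3 * p x (w i y) + 4 * d y (w i y)) := by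
      refine Finset.sum_le_sum fun i hi => ?_
      rw [Finset.mem_Icc] at hi
      refine hm _ _ _ (hne x y hxy) (w4 i hi.2 hi.1 x y hxy) fun e => ?_
      have := w3 0 (by omega) i hi.2 y ((w0 y).trans e)
      omega
    have b2 := win_inj (s := Finset.Icc 2 (J + 1)) (f := fun i => w i y) (fun i hi j hj e =>
      w3 i (Finset.mem_Icc.1 hi).2 j (Finset.mem_Icc.1 hj).2 y e) (hp x)
    rw [Finset.sum_const, nsmul_eq_mul, hc, Finset.sum_add_distrib, ← Finset.mul_sum,
      ← Finset.mul_sum, ← hT] at b1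
    linarith
  have a2 : ∀ y, T y ≤
      J * ((J + 1) * ∑ a ∈ Finset.range (J + 1), d (w a y) (w (a + 1) y)) := by
    intro y
    rw [hT, ← hc, ← nsmul_eq_mul, hc]
    refine Finset.sum_le_card_nsmul _ _ _ fun i hi => ?_
    have := win_chain h0 hd ht (fun a => w a y) (Finset.mem_Icc.1 hi).2
    rwa [w0, Nat.cast_succ] at this
  have a3 : ∀ a ∈ Finset.range (J + 1), ∑ y, d (w a y) (w (a + 1) y) ≤
      ∑ x, ∑ y, if R x y then d x y else 0 := by
    intro a ha
    rw [Finset.mem_range] at ha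
    have := win_inj (s := Finset.univ) (f := fun y => (w a y, w (a + 1) y))
      (fun y _ y' _ e => w2 a ha y y' (congrArg Prod.fst e) (congrArg Prod.snd e))
      (g := fun x => if R x.1 x.2 then d x.1 x.2 else 0)
      fun x => by split_ifs; exacts [h0 _ _, le_rfl]
    simpa only [w1 a ha, if_true, Fintype.sum_prod_type] using this
  have a4 : ∑ y, T y ≤ J * ((J : ℝ) + 1) ^ 2 * ∑ x, ∑ y, if R x y then d x y else 0 := by
    refine (Finset.sum_le_sum fun y _ => a2 y).trans ?_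
    rw [← Finset.mul_sum, ← Finset.mul_sum, Finset.sum_comm, sq, mul_assoc, mul_assoc]
    have := Finset.sum_le_card_nsmul _ _ _ a3
    rw [Finset.card_range, nsmul_eq_mul, Nat.cast_succ] at this
    gcongr
  have a5 := win_deg hR (f := fun x => ∑ z, p x z) fun x => Finset.sum_nonneg fun z _ => hp x z
  have a6 := win_deg hR T0
  rw [Finset.sum_comm] at a6
  have a7 : J * (∑ x, ∑ y, if R x y then p x y else 0) ≤
      3 * (∑ x, ∑ y, if R x y then ∑ z, p x z else 0) +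
        4 * ∑ x, ∑ y, if R y x then T y else 0 := by
    simp only [Finset.mul_sum, ← Finset.sum_add_distrib]
    refine Finset.sum_le_sum fun x _ => Finset.sum_le_sum fun y _ => ?_
    by_cases h : R x y
    · rw [if_pos h, if_pos h, if_pos ((hs x y).1 h)]
      exact a1 x y h
    · rw [if_neg h, if_neg h, if_neg fun h' => h ((hs x y).2 h')]
      simp
  linarith

end gen

/-- The direction towards the middle. -/
def win_s (y : Fin 3 → ℤ) : ℤ := if 0 ≤ y 0 then -1 else 1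

lemma win_walk (N : ℕ) : ∃ w : ℕ → box N → box N, ∀ a ≤ N, ∀ y : box N,
    (w a y).1 0 = y.1 0 + a * win_s y.1 ∧ (w a y).1 1 = y.1 1 ∧ (w a y).1 2 = y.1 2 := by
  have key : ∀ a ≤ N, ∀ y : box N, ![y.1 0 + a * win_s y.1, y.1 1, y.1 2] ∈ box N := by
    intro a ha y
    have h := Fintype.mem_piFinset.1 y.2
    refine Fintype.mem_piFinset.2 fun i => ?_
    fin_cases i
    · have := Finset.mem_Icc.1 (h 0)
      refine Finset.mem_Icc.2 ?_
      show -(N : ℤ) ≤ y.1 0 + a * win_s y.1 ∧ y.1 0 + a * win_s y.1 ≤ N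
      unfold win_s
      split_ifs <;> omega
    · exact h 1
    · exact h 2
  refine ⟨fun a y => ⟨_, key (min a N) (min_le_right _ _) y⟩, fun a ha y => ?_⟩
  refine ⟨?_, rfl, rfl⟩
  show y.1 0 + (min a N : ℕ) * win_s y.1 = _
  rw [min_eq_left ha]

lemma win_ext {N : ℕ} {x y : box N} (h0 : x.1 0 = y.1 0) (h1 : x.1 1 = y.1 1)
    (h2 : x.1 2 = y.1 2) : x = y := by
  refine Subtype.ext (funext fun i => ?_)
  fin_cases i
  exacts [h0, h1, h2]

lemma win_pm (y : Fin 3 → ℤ) : win_s y = -1 ∨ win_s y = 1 := by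
  unfold win_s
  split_ifs <;> simp

theorem win_pf : S_Win := by
  intro N J d p hJ hN h0 hd ht hp hm
  obtain ⟨w, hw⟩ := win_walk N
  have h := win_gen (R := nbr (box N)) (J := J) w
    (fun x => (sum_nbr_le _ x (fun _ => 1) fun _ => zero_le_one).trans
      (le_of_eq (by simp; norm_num)))
    (fun x y => by simp only [nbr, abs_sub_comm]) nbr_ne
    (fun y => win_ext (by simpa using (hw 0 N.zero_le y).1) (hw 0 N.zero_le y).2.1
      (hw 0 N.zero_le y).2.2)
    (fun a ha y => by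
      obtain ⟨a0, a1, a2⟩ := hw a (by omega) y
      obtain ⟨b0, b1, b2⟩ := hw (a + 1) (by omega) y
      rw [nbr, Fin.sum_univ_three, a0, a1, a2, b0, b1, b2]
      rcases win_pm y.1 with e | e <;> simp [e])
    (fun a ha y y' e1 e2 => by
      obtain ⟨a0, a1, a2⟩ := hw a (by omega) y
      obtain ⟨b0, -, -⟩ := hw (a + 1) (by omega) y
      obtain ⟨c0, c1, c2⟩ := hw a (by omega) y'
      obtain ⟨d0, -, -⟩ := hw (a + 1) (by omega) y'
      rw [e1] at a0 a1 a2
      rw [e2] at b0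
      refine win_ext ?_ (a1.symm.trans c1) (a2.symm.trans c2)
      rcases win_pm y.1 with e | e <;> rcases win_pm y'.1 with e' | e' <;>
        rw [e] at a0 b0 <;> rw [e'] at c0 d0 <;> omega)
    (fun a ha b hb y e1 => by
      have a0 := (hw a (by omega) y).1
      have b0 := (hw b (by omega) y).1
      rw [e1] at a0
      rcases win_pm y.1 with e | e <;> rw [e] at a0 b0 <;> omega)
    (fun a ha h2 x y hxy e1 => by
      obtain ⟨a0, a1, a2⟩ := hw a (by omega) y
      rw [nbr, Fin.sum_univ_three, e1, a0, a1, a2, sub_self, sub_self, abs_zero, add_zero,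
        add_zero, abs_eq zero_le_one] at hxy
      rcases win_pm y.1 with e | e <;> rw [e] at hxy <;> omega)
    h0 hd ht hp hm
  have J0 : (0 : ℝ) < J := by exact_mod_cast hJ
  refine le_of_mul_le_mul_left (h.trans (le_of_eq ?_)) J0
  field_simp

end Vale.Agent.P361
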