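import Vale.Agent.P361.PfPoin
import Vale.Agent.P361.PfWin
import Vale.Agent.P361.PfMode1
import Vale.Agent.P361.PfMode3
import Vale.Agent.P361.PfTheta
import Vale.Agent.P361.PfGam
import Vale.Agent.P361.PfSer
import Vale.Agent.P361.PfG
import Vale.Agent.P361.PfLoAn
import Vale.Agent.P361.PfNum1
import Vale.Agent.P361.PfNum2
import Vale.Agent.P361.PfOne
import Vale.Agent.P361.PfDB
import Vale.Agent.P361.PfTri
import Vale.Agent.P361.PfUp
import Vale.Agent.P361.PfFin
import Vale.Agent.P361.PfSB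
import Vale.Agent.P361.PfUpBox
import Vale.Agent.P361.PfCom
import Vale.Agent.P361.PfQ
import Vale.Agent.P361.PfSum
import Vale.Agent.P361.PfLo
import Vale.Agent.P361.PfEnt
import Vale.Agent.P361.PfMom
import Vale.Agent.P361.PfCas
import Vale.Agent.P361.PfRough
import Vale.Agent.P361.PfSlope
import Vale.Agent.P361.Cor

/-!
P361: assembly of the two-sided law in a small field.
-/

namespace Vale.Agent.P361

theorem up_all : S_Up :=
  up_pf q_pf
    (upbox_pf (db_pf (mode3_pf mode1_pf) (one_pf com_pf) sum_pf gam_pf win_pf tri_pf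
      (mom_pf q_pf com_pf)) ent_pf (ser_pf theta_pf))
    (rough_pf q_pf (sb_pf poin_pf tri_pf cas_pf com_pf ent_pf)) (num1_pf g_pf) num2_pf

theorem fin_all : S_Fin :=
  fin_pf up_all (lo_pf (slope_pf (loan_pf g_pf)) q_pf g_pf) (slope_pf (loan_pf g_pf)) g_pf

end Vale.Agent.P361
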