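import Vale.Agent.P361.Def2

/-! P361: the Poincare inequality on the box. -/

open scoped Matrix Topology
open Matrix Filter

namespace Vale.Agent.P361

open Finset

theorem poin_mem {N : ℕ} {x : Fin 3 → ℤ} : x ∈ box N ↔ ∀ i, x i ∈ Icc (-(N : ℤ)) N :=
  Fintype.mem_piFinset

theorem poin_upd {N : ℕ} {x : Fin 3 → ℤ} (hx : x ∈ box N) (i : Fin 3) {t : ℤ}
    (ht : t ∈ Icc (-(N : ℤ)) N) : Function.update x i t ∈ box N :=
  poin_mem.2 fun j => by
    rcases eq_or_ne j i with rfl | h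
    · rwa [Function.update_self]
    · rw [Function.update_of_ne h]
      exact poin_mem.1 hx j

theorem poin_card (N : ℕ) : ((Icc (-(N : ℤ)) N).card : ℝ) = 2 * N + 1 := by
  have : (Icc (-(N : ℤ)) N).card = 2 * N + 1 := by rw [Int.card_Icc]; omega
  rw [this]
  push_cast
  ring

theorem poin_chain {f : ℤ → ℤ → ℝ} (h0 : ∀ a b, 0 ≤ f a b) (hd : ∀ a, f a a = 0)
    (hs : ∀ a b, f a b = f b a) (ht : ∀ a b c, f a c ≤ f a b + f b c) {N a b : ℤ}
    (ha : a ∈ Icc (-N) N) (hb : b ∈ Icc (-N) N) : f a b ≤ ∑ s ∈ Ico (-N) N, f s (s + 1) := by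
  have key : ∀ a b, a ≤ b → f a b ≤ ∑ s ∈ Ico a b, f s (s + 1) := fun a b hab => by
    induction b, hab using Int.leInduction with
    | base => simp [hd]
    | succ b hab ih =>
      rw [← insert_Ico_right_eq_Ico_add_one hab, sum_insert right_notMem_Ico]
      linarith [ht a b (b + 1)]
  rw [mem_Icc] at ha hb
  rcases le_total a b with h | h
  · exact (key a b h).trans (sum_le_sum_of_subset_of_nonneg (Ico_subset_Ico ha.1 hb.2)
      fun _ _ _ => h0 _ _)
  · exact ((hs a b).trans_le (key b a h)).trans (sum_le_sum_of_subset_of_nonneg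
      (Ico_subset_Ico hb.1 ha.2) fun _ _ _ => h0 _ _)

theorem poin_res (N : ℕ) (i : Fin 3) (G : (Fin 3 → ℤ) → ℝ) :
    ∑ u ∈ box N, ∑ s ∈ Icc (-(N : ℤ)) N, G (Function.update u i s) =
      (2 * N + 1) * ∑ u ∈ box N, G u := by
  have h : ∀ q ∈ box N ×ˢ Icc (-(N : ℤ)) N,
      (Function.update q.1 i q.2, q.1 i) ∈ box N ×ˢ Icc (-(N : ℤ)) N := fun q hq =>
    mem_product.2 ⟨poin_upd (mem_product.1 hq).1 i (mem_product.1 hq).2,
      poin_mem.1 (mem_product.1 hq).1 i⟩
  rw [← sum_product', sum_nbij' (t := box N ×ˢ Icc (-(N : ℤ)) N) (g := fun q => G q.1)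
    (fun q => (Function.update q.1 i q.2, q.1 i)) (fun q => (Function.update q.1 i q.2, q.1 i))
    h h (fun q _ => by simp) (fun q _ => by simp) fun _ _ => rfl, sum_product, mul_sum]
  simp only [sum_const, nsmul_eq_mul, poin_card]

theorem poin_mix (N : ℕ) (k : Fin 3) (G : (Fin 3 → ℤ) → ℝ) :
    ∑ x ∈ box N, ∑ z ∈ box N, G (fun j => if j < k then z j else x j) =
      (2 * N + 1) ^ 3 * ∑ u ∈ box N, G u := by
  let m : (Fin 3 → ℤ) × (Fin 3 → ℤ) → (Fin 3 → ℤ) × (Fin 3 → ℤ) := fun q =>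
    (fun j => if j < k then q.2 j else q.1 j, fun j => if j < k then q.1 j else q.2 j)
  have h : ∀ q ∈ box N ×ˢ box N, m q ∈ box N ×ˢ box N := fun q hq => by
    have h1 := poin_mem.1 (mem_product.1 hq).1
    have h2 := poin_mem.1 (mem_product.1 hq).2
    refine mem_product.2 ⟨poin_mem.2 fun j => ?_, poin_mem.2 fun j => ?_⟩ <;> simp only [m] <;>
      split_ifs
    exacts [h2 j, h1 j, h1 j, h2 j]
  have e : ∀ q ∈ box N ×ˢ box N, m (m q) = q := fun q _ => by
    refine Prod.ext (funext fun j => ?_) (funext fun j => ?_) <;> simp only [m] <;> split_ifs <;>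
      rfl
  have c : ((box N).card : ℝ) = (2 * N + 1) ^ 3 := by
    rw [box, Fintype.card_piFinset, prod_const, card_univ, Fintype.card_fin, Nat.cast_pow,
      poin_card]
  rw [← sum_product', sum_nbij' (t := box N ×ˢ box N) (g := fun q => G q.1) m m h h e e
    fun _ _ => rfl, sum_product, mul_sum]
  simp only [sum_const, nsmul_eq_mul, c]

section
variable {D : (Fin 3 → ℤ) → (Fin 3 → ℤ) → ℝ} (h0 : ∀ x y, 0 ≤ D x y) (hd : ∀ x, D x x = 0)
  (hs : ∀ x y, D x y = D y x) (ht : ∀ x y z, √(D x z) ≤ √(D x y) + √(D y z))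

/-- the local energy -/
noncomputable def poin_G (N : ℕ) (D : (Fin 3 → ℤ) → (Fin 3 → ℤ) → ℝ) (x : Fin 3 → ℤ) : ℝ :=
  ∑ y ∈ box N, if ∑ i, |x i - y i| = 1 then D x y else 0

include h0 hd hs ht

theorem poin_line {N : ℕ} {u : Fin 3 → ℤ} (hu : u ∈ box N) (i : Fin 3) {t : ℤ}
    (h : t ∈ Icc (-(N : ℤ)) N) : D u (Function.update u i t) ≤
      (2 * N + 1) * ∑ s ∈ Icc (-(N : ℤ)) N, poin_G N D (Function.update u i s) := by
  have h1 := poin_chain (f := fun a b => √(D (Function.update u i a) (Function.update u i b)))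
    (fun _ _ => Real.sqrt_nonneg _) (fun a => by simp [hd]) (fun a b => by rw [hs])
    (fun a b c => ht _ _ _) (poin_mem.1 hu i) h
  rw [Function.update_eq_self] at h1
  have h2 := (pow_le_pow_left₀ (Real.sqrt_nonneg _) h1 2).trans sq_sum_le_card_mul_sum_sq
  simp only [Real.sq_sqrt (h0 _ _)] at h2
  have g0 : ∀ x y : Fin 3 → ℤ, 0 ≤ if ∑ i, |x i - y i| = 1 then D x y else 0 := fun x y => by
    split_ifs
    exacts [h0 _ _, le_rfl]
  refine h2.trans (mul_le_mul ?_ ?_ (sum_nonneg fun _ _ => h0 _ _) (by positivity))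
  · rw [← poin_card]
    exact_mod_cast card_le_card Ico_subset_Icc_self
  · refine le_trans (sum_le_sum fun s hs => ?_) (sum_le_sum_of_subset_of_nonneg
      Ico_subset_Icc_self fun _ _ _ => sum_nonneg fun _ _ => g0 _ _)
    have h3 : s + 1 ∈ Icc (-(N : ℤ)) N := by
      rw [mem_Ico] at hs
      rw [mem_Icc]
      omega
    refine le_trans (le_of_eq (if_pos ?_).symm) (single_le_sum (fun y _ => g0 _ y)
      (poin_upd hu i h3))
    rw [sum_eq_single i]
    · simp
    · intro j _ hj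
      simp [hj]
    · simp

theorem poin_abs (N : ℕ) : ∑ x ∈ box N, ∑ z ∈ box N, D x z ≤
    9 * (2 * (N : ℝ) + 1) ^ 5 * ∑ x ∈ box N, poin_G N D x := by
  let L : Fin 3 → (Fin 3 → ℤ) → ℝ := fun i u =>
    (2 * N + 1) * ∑ s ∈ Icc (-(N : ℤ)) N, poin_G N D (Function.update u i s)
  have hL : ∀ i, ∑ x ∈ box N, ∑ z ∈ box N, L i (fun j => if j < i then z j else x j) =
      (2 * N + 1) ^ 5 * ∑ x ∈ box N, poin_G N D x := fun i => by
    rw [poin_mix, ← mul_sum, poin_res]
    ring
  have h1 : ∀ x ∈ box N, ∀ z ∈ box N,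
      D x z ≤ 3 * ∑ i, L i (fun j => if j < i then z j else x j) := fun x hx z hz => by
    have hz' := poin_mem.1 hz
    have m1 := poin_upd hx 0 (hz' 0)
    have m2 := poin_upd m1 1 (hz' 1)
    have a0 := poin_line h0 hd hs ht hx 0 (hz' 0)
    have a1 := poin_line h0 hd hs ht m1 1 (hz' 1)
    have a2 := poin_line h0 hd hs ht m2 2 (hz' 2)
    have e0 : (fun j => if j < (0 : Fin 3) then z j else x j) = x := by
      funext j
      fin_cases j <;> simp
    have e1 : (fun j => if j < (1 : Fin 3) then z j else x j) = Function.update x 0 (z 0) := by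
      funext j
      fin_cases j <;> simp
    have e2 : (fun j => if j < (2 : Fin 3) then z j else x j) =
        Function.update (Function.update x 0 (z 0)) 1 (z 1) := by
      funext j
      fin_cases j <;> simp
    have e3 : Function.update (Function.update (Function.update x 0 (z 0)) 1 (z 1)) 2 (z 2) = z := by
      funext j
      fin_cases j <;> simp
    rw [e3] at a2
    rw [Fin.sum_univ_three, e0, e1, e2]
    generalize Function.update (Function.update x 0 (z 0)) 1 (z 1) = y2 at *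
    generalize Function.update x 0 (z 0) = y1 at *
    have t1 := (ht x y1 z).trans (add_le_add le_rfl (ht y1 y2 z))
    have t2 := pow_le_pow_left₀ (Real.sqrt_nonneg _) t1 2
    have s0 := Real.sq_sqrt (h0 x z)
    have s1 := Real.sq_sqrt (h0 x y1)
    have s2 := Real.sq_sqrt (h0 y1 y2)
    have s3 := Real.sq_sqrt (h0 y2 z)
    have t3 : D x z ≤ 3 * (D x y1 + D y1 y2 + D y2 z) := by
      nlinarith [sq_nonneg (√(D x y1) - √(D y1 y2)), sq_nonneg (√(D x y1) - √(D y2 z)),
        sq_nonneg (√(D y1 y2) - √(D y2 z))]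
    simp only [L]
    linarith
  refine (sum_le_sum fun x hx => sum_le_sum (h1 x hx)).trans (le_of_eq ?_)
  simp only [Fin.sum_univ_three, ← mul_sum, sum_add_distrib, hL]
  ring

end

theorem poin_pf : S_Poin := by
  intro N d h0 hd hs ht
  have z0 : (0 : Fin 3 → ℤ) ∈ box N := poin_mem.2 fun i => by simp
  let π : (Fin 3 → ℤ) → box N := fun u => if h : u ∈ box N then ⟨u, h⟩ else ⟨0, z0⟩
  have hπ : ∀ x : box N, π x = x := fun x => dif_pos x.2
  have h := poin_abs (D := fun u v => d (π u) (π v)) (fun _ _ => h0 _ _) (fun _ => hd _)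
    (fun _ _ => hs _ _) (fun _ _ _ => ht _ _ _) N
  simp only [poin_G, ← sum_coe_sort (box N), hπ] at h
  exact h

end Vale.Agent.P361
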