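import Vale.Agent.P361.Def3

/-!
P361: the rough bound in a small box.
-/

open scoped Matrix Topology
open Matrix Filter

namespace Vale.Agent.P361

section gen

variable {ι : Type} [Fintype ι] [DecidableEq ι] {n : ℕ}

lemma sbp_ann_zero : ann n (fun _ : ι => (0 : ℝ)) = 0 := by
  simp [ann]

/-- The zero mode has small occupation. -/
lemma sbp_zero (hM : S_Com) (adj : ι → ι → Prop) [DecidableRel adj] (β δ : ℝ)
    (h1 : ∀ x y, adj x y → x ≠ y) (h2 : ∀ x y, adj x y → adj y x) :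
    δ * gib (ktil n adj β δ) ((ann n fun _ : ι => 1)ᴴ * ann n fun _ : ι => 1) ≤
      n * Fintype.card ι * gib (ktil n adj β δ) 1 := by
  obtain ⟨c1, c2, -⟩ := hM ι n adj β δ h1 h2
  have hK := ktil_herm (n := n) h1 β δ
  set K := ktil n adj β δ with hKdef
  set A := ann n fun _ : ι => (1 : ℝ) with hA
  have e1 : K * A - A * K = -((δ : ℂ) • A) := by
    have := c1 fun _ => 1
    simp only [sub_self, ite_self, Finset.sum_const_zero, sbp_ann_zero, smul_zero, sub_zero,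
      Complex.ofReal_zero, zero_smul, add_zero] at this
    exact this
  have e2 := ee_one hK A (-δ)
  rw [e1, Matrix.mul_neg, Matrix.mul_smul, gib_neg, gib_smul] at e2
  have e3 : gib K (A * Aᴴ) - gib K (Aᴴ * A) ≤ n * Fintype.card ι * gib K 1 := by
    rw [← gib_sub, c2 fun _ => 1, gib_sum]
    have b : ∀ x : ι, gib K (((2 * (1 : ℝ) ^ 2 : ℝ) : ℂ) • siteOp x (spin n 2)) ≤ n * gib K 1 := by
      intro x
      rw [gib_smul]
      refine (gib_sz_le hK x _).trans (le_of_eq ?_)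
      rw [abs_of_pos (by norm_num)]
      ring
    refine (Finset.sum_le_sum fun x _ => b x).trans (le_of_eq ?_)
    rw [Finset.sum_const, Finset.card_univ, nsmul_eq_mul]
    ring
  have u0 := gib_nonneg' hK A
  have e4 : gib K (Aᴴ * A) ≤ Real.exp (-δ) * gib K (A * Aᴴ) := by linarith
  have e5 : Real.exp δ * gib K (Aᴴ * A) ≤ gib K (A * Aᴴ) := by
    have := mul_le_mul_of_nonneg_left e4 (Real.exp_pos δ).le
    rwa [← mul_assoc, ← Real.exp_add, add_neg_cancel, Real.exp_zero, one_mul] at this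
  have e6 := mul_le_mul_of_nonneg_right (Real.add_one_le_exp δ) u0
  linarith

lemma sbp_dd_nonneg {K : Matrix (ι → Fin (n + 1)) (ι → Fin (n + 1)) ℂ} (hK : K.IsHermitian)
    (x y : ι) : 0 ≤ dd n K x y := by
  unfold dd
  split_ifs with h
  · exact le_rfl
  · exact gib_hop_nonneg hK h

lemma sbp_dd_symm (K : Matrix (ι → Fin (n + 1)) (ι → Fin (n + 1)) ℂ) (x y : ι) :
    dd n K x y = dd n K y x := by
  unfold dd
  by_cases h : x = y
  · simp [h]
  · rw [if_neg h, if_neg (Ne.symm h), hop_symm h]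

lemma sbp_cas (hC : S_Cas) (K : Matrix (ι → Fin (n + 1)) (ι → Fin (n + 1)) ℂ) :
    ∑ x, ∑ z, dd n K x z =
      gib K (diagonal fun σ : ι → Fin (n + 1) => (((∑ x, ((σ x : ℕ) : ℝ)) *
        ((n : ℝ) * Fintype.card ι + 1 - ∑ x, ((σ x : ℕ) : ℝ)) : ℝ) : ℂ)) -
        gib K ((ann n fun _ : ι => 1)ᴴ * ann n fun _ : ι => 1) := by
  have h1 : (((n : ℝ) * Fintype.card ι + 1 : ℝ) : ℂ) • numT n ι - numT n ι * numT n ι =
      diagonal fun σ : ι → Fin (n + 1) => (((∑ x, ((σ x : ℕ) : ℝ)) *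
        ((n : ℝ) * Fintype.card ι + 1 - ∑ x, ((σ x : ℕ) : ℝ)) : ℝ) : ℂ) := by
    rw [numT_eq, diagonal_mul_diagonal, ← diagonal_smul, diagonal_sub]
    refine congrArg diagonal (funext fun σ => ?_)
    simp only [Pi.smul_apply, smul_eq_mul]
    push_cast
    ring
  rw [← gib_sub, ← h1, ← hC ι n, gib_sum]
  refine Finset.sum_congr rfl fun x _ => ?_
  rw [gib_sum]
  refine Finset.sum_congr rfl fun z _ => ?_
  unfold dd
  split_ifs
  · rw [gib_zero]
  · rfl

lemma sbp_diag {K : Matrix (ι → Fin (n + 1)) (ι → Fin (n + 1)) ℂ} (hK : K.IsHermitian) :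
    (n : ℝ) / 2 * Fintype.card ι * gib K (diagonal fun σ : ι → Fin (n + 1) =>
      ((min (∑ x, ((σ x : ℕ) : ℝ)) ((n : ℝ) * Fintype.card ι - ∑ x, ((σ x : ℕ) : ℝ)) : ℝ) : ℂ)) ≤
      gib K (diagonal fun σ : ι → Fin (n + 1) => (((∑ x, ((σ x : ℕ) : ℝ)) *
        ((n : ℝ) * Fintype.card ι + 1 - ∑ x, ((σ x : ℕ) : ℝ)) : ℝ) : ℂ)) := by
  rw [← gib_smul, ← diagonal_smul]
  have h := gib_diag_mono hK (fun σ : ι → Fin (n + 1) => (n : ℝ) / 2 * Fintype.card ι *
      min (∑ x, ((σ x : ℕ) : ℝ)) ((n : ℝ) * Fintype.card ι - ∑ x, ((σ x : ℕ) : ℝ)))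
    (fun σ : ι → Fin (n + 1) => (∑ x, ((σ x : ℕ) : ℝ)) *
        ((n : ℝ) * Fintype.card ι + 1 - ∑ x, ((σ x : ℕ) : ℝ))) (fun σ => by
      have a0 : 0 ≤ ∑ x, ((σ x : ℕ) : ℝ) := by positivity
      have a1 : ∑ x, ((σ x : ℕ) : ℝ) ≤ (n : ℝ) * Fintype.card ι := by
        refine (Finset.sum_le_sum fun x _ => fin_le (σ x)).trans (le_of_eq ?_)
        rw [Finset.sum_const, Finset.card_univ, nsmul_eq_mul, mul_comm]
      generalize (∑ x, ((σ x : ℕ) : ℝ)) = s at a0 a1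
      have a2 : (n : ℝ) / 2 * Fintype.card ι = ((n : ℝ) * Fintype.card ι) / 2 := by ring
      rw [a2]
      generalize (n : ℝ) * Fintype.card ι = T at a1
      rcases le_total s (T - s) with h | h
      · rw [min_eq_left h]
        nlinarith
      · rw [min_eq_right h]
        nlinarith)
  refine le_trans (le_of_eq ?_) h
  refine congrArg (fun d => gib K (diagonal d)) (funext fun σ => ?_)
  simp only [Pi.smul_apply, smul_eq_mul]
  push_cast
  ring

/-- The variational step. -/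
lemma sbp_pb {K : Matrix (ι → Fin (n + 1)) (ι → Fin (n + 1)) ℂ} (hK : K.IsHermitian)
    (d : (ι → Fin (n + 1)) → ℝ) (μ : ℝ) :
    Real.log (gib K 1) - (μ * gib K (diagonal fun σ => (d σ : ℂ)) - gib K K) / gib K 1 ≤
      Real.log (∑ σ, Real.exp (-(μ * d σ))) := by
  have hD : (diagonal fun σ => ((μ * d σ : ℝ) : ℂ)).IsHermitian :=
    isHermitian_diagonal_of_self_adjoint _ (funext fun σ => by simp)
  have h := peierls_bogoliubov hK (hD.sub hK)
  rw [add_sub_cancel, gib_diagonal_one, gib_sub] at h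
  have e : (diagonal fun σ => ((μ * d σ : ℝ) : ℂ)) = (μ : ℂ) • diagonal fun σ => (d σ : ℂ) := by
    rw [← diagonal_smul]
    refine congrArg diagonal (funext fun σ => ?_)
    simp only [Pi.smul_apply, smul_eq_mul]
    push_cast
    ring
  rwa [e, gib_smul] at h

end gen

lemma sbp_log16 : Real.log 16 ≤ 3 := by
  rw [Real.log_le_iff_le_exp (by norm_num)]
  have h := Real.exp_one_gt_d9
  have e : Real.exp 3 = Real.exp 1 ^ 3 := by
    rw [← Real.exp_nat_mul]
    norm_num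
  rw [e]
  have h2 : (2.7 : ℝ) ^ 3 ≤ Real.exp 1 ^ 3 := pow_le_pow_left₀ (by norm_num) (by linarith) 3
  linarith

lemma sbp_num {n δ l μ β H T Z u G X L : ℝ} (hn' : 1 ≤ n) (hδ : 0 < δ) (hl : 3 ≤ l) (hμ : 0 ≤ μ)
    (hβ : 36 * l ^ 2 * μ ≤ β) (hH : 0 ≤ H) (hNT : 0 ≤ T) (hZ : 0 < Z) (a : δ * u ≤ n * l ^ 3 * Z)
    (dg : n / 2 * l ^ 3 * G ≤ X) (po : X - u ≤ 9 * l ^ 5 * (2 * H))
    (pb : L - (μ * G - (β * H + δ * T)) / Z ≤ 3) : L ≤ 3 + 2 * μ / δ := by
  have hl0 : 0 < l := by linarith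
  have k1 : δ * (n / 2 * l ^ 3 * G) ≤ δ * (18 * l ^ 5 * H) + n * l ^ 3 * Z := by
    have := mul_le_mul_of_nonneg_left (show n / 2 * l ^ 3 * G ≤ 18 * l ^ 5 * H + u by
      linarith) hδ.le
    linarith
  have k2 : δ * (n * G) ≤ δ * (36 * l ^ 2 * H) + 2 * n * Z := by
    refine le_of_mul_le_mul_left ?_ (show 0 < l ^ 3 / 2 by positivity)
    linarith
  have k3 : δ * (36 * l ^ 2 * H) ≤ n * (δ * (36 * l ^ 2 * H)) :=
    le_mul_of_one_le_left (by positivity) hn'
  have k4 : δ * G ≤ δ * (36 * l ^ 2 * H) + 2 * Z := by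
    refine le_of_mul_le_mul_left ?_ (show (0 : ℝ) < n by linarith)
    linarith
  have k5 : δ * (μ * G - (β * H + δ * T)) ≤ 2 * μ * Z := by
    have b1 := mul_le_mul_of_nonneg_left k4 hμ
    have b2 := mul_le_mul_of_nonneg_left (mul_le_mul_of_nonneg_right hβ hH) hδ.le
    have b3 : 0 ≤ δ * (δ * T) := by positivity
    linarith
  have k6 : (μ * G - (β * H + δ * T)) / Z ≤ 2 * μ / δ := by
    rw [div_le_div_iff₀ hZ hδ]
    linarith
  linarith

theorem sb_pf (hP : S_Poin) (hT : S_Tri) (hC : S_Cas) (hM : S_Com) (hE : S_Ent) : S_SB := by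
  intro n N β δ hn hN hδ hβ
  have hK := ktil_herm (n := n) (nbr_ne (Λ := box N)) β δ
  have a := sbp_zero (n := n) hM (nbr (box N)) β δ nbr_ne nbr_symm
  have hV : (Fintype.card (box N) : ℝ) = (2 * (N : ℝ) + 1) ^ 3 := by
    rw [Fintype.card_coe, card_box]
  have hN' : (1 : ℝ) ≤ N := by exact_mod_cast hN
  have hn' : (1 : ℝ) ≤ n := by exact_mod_cast hn
  have hl : (3 : ℝ) ≤ 2 * (N : ℝ) + 1 := by linarith
  have hV2 : (27 : ℝ) ≤ (2 * (N : ℝ) + 1) ^ 3 :=
    le_trans (by norm_num) (pow_le_pow_left₀ (by norm_num) hl 3)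
  have hc : 2 ≤ Fintype.card (box N) := by
    have : (2 : ℝ) ≤ Fintype.card (box N) := by rw [hV]; linarith
    exact_mod_cast this
  have ent := hE.1 (box N) n hc
  have pb := sbp_pb hK (fun σ : box N → Fin (n + 1) => min (∑ x, ((σ x : ℕ) : ℝ))
    ((n : ℝ) * Fintype.card (box N) - ∑ x, ((σ x : ℕ) : ℝ))) (Real.log (Fintype.card (box N)))
  have lg := (Real.log_le_log (Finset.sum_pos (fun σ _ => Real.exp_pos _) Finset.univ_nonempty)
    ent).trans sbp_log16
  have dg := sbp_diag (n := n) hK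
  have cs := sbp_cas (n := n) hC (ktil n (nbr (box N)) β δ)
  have po := hP N (dd n (ktil n (nbr (box N)) β δ)) (sbp_dd_nonneg hK) (fun x => by simp [dd])
    (sbp_dd_symm _) (hT (box N) n _ hn hK).1
  have e1 : (∑ x, ∑ y, if nbr (box N) x y then dd n (ktil n (nbr (box N)) β δ) x y else 0) =
      2 * gib (ktil n (nbr (box N)) β δ) (htil n (nbr (box N))) := by
    rw [← gib_htil]
    refine Finset.sum_congr rfl fun x _ => Finset.sum_congr rfl fun y _ => ?_
    split_ifs with h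
    · rw [dd, if_neg (nbr_ne x y h)]
    · rfl
  have e2 : gib (ktil n (nbr (box N)) β δ) (ktil n (nbr (box N)) β δ) =
      β * gib (ktil n (nbr (box N)) β δ) (htil n (nbr (box N))) +
        δ * gib (ktil n (nbr (box N)) β δ) (numT n (box N)) := by
    conv_lhs => arg 2; rw [ktil]
    rw [gib_add, gib_smul, gib_smul]
  have hH := gib_htil_nonneg (n := n) (nbr_ne (Λ := box N)) hK
  have hNT := gib_numT_nonneg (n := n) hK
  have hZ := gib_one_pos hK
  rw [e1] at po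
  rw [e2] at pb
  rw [cs] at po
  unfold lzt
  rw [hV] at a dg pb lg
  rw [hV] at po
  have hμ : 0 ≤ Real.log ((2 * (N : ℝ) + 1) ^ 3) := Real.log_nonneg (by linarith)
  exact sbp_num hn' hδ hl hμ hβ hH hNT hZ a dg po (pb.trans lg)

end Vale.Agent.P361
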