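import Vale.Agent.P361.Limit
import Vale.Agent.P361.Gauss
import Vale.Agent.P361.Asym

/-!
P361: convexity of the pressure and the infinite-volume self-consistent inequality.
-/

open scoped Matrix Topology
open Matrix Filter

namespace Vale.Agent.P361

variable {n : ℕ}

lemma log_partFn_tangent (Λ : Finset (Fin 3 → ℤ)) (β h h' : ℝ) :
    Real.log (partFn n Λ β h) + β * (h' - h) *
        (gib (gen n (nbr Λ) β h) (magG n Λ) / gib (gen n (nbr Λ) β h) 1) ≤
      Real.log (partFn n Λ β h') := by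
  have hK := gen_herm (n := n) (nbr_ne (Λ := Λ)) β h
  have a1 := peierls_bogoliubov hK (herm_real_smul (magG_herm (n := n) (ι := Λ)) (β * (h - h')))
  have e1 : gen n (nbr Λ) β h + ((β * (h - h') : ℝ) : ℂ) • magG n Λ = gen n (nbr Λ) β h' := by
    simp only [gen]
    push_cast
    module
  rw [e1, gib_smul, mul_div_assoc] at a1
  rw [partFn_eq, partFn_eq]
  linarith

lemma pressureN_convex {β : ℝ} (hβ : 0 < β) (N : ℕ) {x y a b : ℝ} (ha : 0 ≤ a) (hb : 0 ≤ b)
    (hab : a + b = 1) :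
    pressureN n β (a * x + b * y) N ≤ a * pressureN n β x N + b * pressureN n β y N := by
  have h1 := mul_le_mul_of_nonneg_left (log_partFn_tangent (n := n) (box N) β (a * x + b * y) x) ha
  have h2 := mul_le_mul_of_nonneg_left (log_partFn_tangent (n := n) (box N) β (a * x + b * y) y) hb
  have hV := card_box_pos N
  simp only [pressureN]
  rw [← mul_div_assoc, ← mul_div_assoc, ← add_div]
  refine div_le_div_of_nonneg_right ?_ (by positivity)
  generalize gib (gen n (nbr (box N)) β (a * x + b * y)) (magG n (box N)) /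
    gib (gen n (nbr (box N)) β (a * x + b * y)) 1 = w at h1 h2
  obtain rfl : b = 1 - a := by linarith
  nlinarith

theorem pressure_convex (n : ℕ) {β : ℝ} (hβ : 0 < β) : ConvexOn ℝ Set.univ (pressure n β) := by
  refine ⟨convex_univ, fun x _ y _ a b ha hb hab => ?_⟩
  simp only [smul_eq_mul]
  exact le_of_tendsto_of_tendsto' (pressure_tendsto n hβ _)
    (((pressure_tendsto n hβ x).const_mul a).add ((pressure_tendsto n hβ y).const_mul b))
    fun N => pressureN_convex hβ N ha hb hab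

theorem spontMag_hasDeriv (n : ℕ) {β : ℝ} (hβ : 0 < β) :
    HasDerivWithinAt (pressure n β) (spontMag n β) (Set.Ici 0) 0 := by
  have := (pressure_convex n hβ).hasDerivWithinAt_rightDeriv_of_mem_interior (x := 0) (by simp)
  rw [spontMag, ← derivWithin_Ioi_eq_Ici]
  exact this.Ici_of_Ioi

lemma spontMag_le_slope {β : ℝ} (hβ : 0 < β) {h : ℝ} (hh : 0 < h) :
    spontMag n β ≤ (pressure n β h - pressure n β 0) / h := by
  have := (pressure_convex n hβ).rightDeriv_le_slope_of_mem_interior (x := 0) (y := h) (by simp)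
    (Set.mem_univ _) hh
  rw [slope_def_field, sub_zero] at this
  rwa [spontMag, ← derivWithin_Ioi_eq_Ici]

lemma eventually_finite_volume {β : ℝ} (hβ : 0 < β) (J : ℕ) {u : ℝ} (hu : 0 < u) {h : ℝ}
    (hh : 0 < h) (hm : u < (pressure n β h - pressure n β 0) / h) :
    ∀ᶠ N : ℕ in atTop, u * ∑ j ∈ Finset.range J, Real.exp (-(((j : ℝ) + 1) * β * h)) *
      gsum N (((j : ℝ) + 1) * β * (n / 2) ^ 2 / u) ^ 3 ≤ (n / 2) * (n / 2 - u) := by
  have h1 : Tendsto (fun N => (pressureN n β h N - pressureN n β 0 N) / h) atTop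
      (𝓝 ((pressure n β h - pressure n β 0) / h)) :=
    ((pressure_tendsto n hβ h).sub (pressure_tendsto n hβ 0)).div_const h
  refine (h1.eventually_const_lt hm).mono fun N hN => ?_
  have hV := card_box_pos N
  have hZ := gib_one_pos (gen_herm (n := n) (nbr_ne (Λ := box N)) β h)
  have h5 := log_partFn_tangent (n := n) (box N) β h 0
  refine finite_volume hβ h N J u hu ?_
  rw [← le_div_iff₀ hZ]
  simp only [pressureN] at hN
  rw [← sub_div, lt_div_iff₀ hh, lt_div_iff₀ (by positivity)] at hN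
  have h7 : 0 < β * h := by positivity
  refine le_of_mul_le_mul_left ?_ h7
  generalize gib (gen n (nbr (box N)) β h) (magG n (box N)) / gib (gen n (nbr (box N)) β h) 1 = w
    at h5 ⊢
  nlinarith

lemma limit_gsum {u R : ℝ} (hu : 0 ≤ u) (J : ℕ) (w g : ℕ → ℝ) (hw : ∀ j, 0 ≤ w j) (G : ℕ → ℕ → ℝ)
    (hG0 : ∀ N j, 0 ≤ G N j) (hG : ∀ N j : ℕ, g j - 1 / (2 * (N : ℝ) + 1) ≤ G N j)
    (hR : ∀ᶠ N : ℕ in atTop, u * ∑ j ∈ Finset.range J, w j * G N j ^ 3 ≤ R) :
    u * ∑ j ∈ Finset.range J, w j * (max 0 (g j)) ^ 3 ≤ R := by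
  have h3 : Tendsto (fun N : ℕ => 1 / (2 * (N : ℝ) + 1)) atTop (𝓝 0) := by
    refine Tendsto.div_atTop tendsto_const_nhds ?_
    exact tendsto_atTop_add_const_right _ _
      (tendsto_natCast_atTop_atTop.const_mul_atTop (by norm_num))
  have hF : Continuous fun r : ℝ => u * ∑ j ∈ Finset.range J, w j * (max 0 (g j - r)) ^ 3 := by
    fun_prop
  have h4 := (hF.tendsto 0).comp h3
  simp only [sub_zero] at h4
  refine le_of_tendsto h4 (hR.mono fun N hN => le_trans ?_ hN)
  refine mul_le_mul_of_nonneg_left (Finset.sum_le_sum fun j _ => ?_) hu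
  exact mul_le_mul_of_nonneg_left
    (pow_le_pow_left₀ (le_max_left _ _) (max_le (hG0 N j) (hG N j)) 3) (hw j)

lemma gsum_nonneg (N : ℕ) (a : ℝ) : 0 ≤ gsum N a :=
  div_nonneg (Finset.sum_nonneg fun _ _ => (Real.exp_pos _).le) (by positivity)

lemma selfcons_field {β : ℝ} (hβ : 0 < β) (hn : 1 ≤ n) (J : ℕ) {u : ℝ} (hu : 0 < u) {h : ℝ}
    (hh : 0 < h) (hm : u < (pressure n β h - pressure n β 0) / h) :
    u * ∑ j ∈ Finset.range J, Real.exp (-(((j : ℝ) + 1) * β * h)) *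
      (max 0 (1 / (2 * Real.sqrt (Real.pi * (((j : ℝ) + 1) * β * (n / 2) ^ 2 / u))) -
        1 / (Real.pi ^ 2 * (((j : ℝ) + 1) * β * (n / 2) ^ 2 / u)))) ^ 3 ≤
      (n / 2) * (n / 2 - u) := by
  have hn' : (0 : ℝ) < n := by exact_mod_cast hn
  refine limit_gsum hu.le J _ _ (fun j => (Real.exp_pos _).le)
    (fun N j => gsum N (((j : ℝ) + 1) * β * (n / 2) ^ 2 / u)) (fun N j => gsum_nonneg _ _)
    (fun N j => ?_) (eventually_finite_volume hβ J hu hh hm)
  have ha : 0 < ((j : ℝ) + 1) * β * (n / 2) ^ 2 / u := by positivity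
  exact gauss_sum_ge ha N

lemma limit_field {u R β : ℝ} (J : ℕ) (g : ℕ → ℝ)
    (H : ∀ h : ℝ, 0 < h →
      u * ∑ j ∈ Finset.range J, Real.exp (-(((j : ℝ) + 1) * β * h)) * g j ≤ R) :
    u * ∑ j ∈ Finset.range J, g j ≤ R := by
  have hG : Continuous fun h : ℝ =>
      u * ∑ j ∈ Finset.range J, Real.exp (-(((j : ℝ) + 1) * β * h)) * g j := by fun_prop
  have h4 := (hG.tendsto 0).mono_left (nhdsWithin_le_nhds (s := Set.Ioi 0))
  simp only [mul_zero, neg_zero, Real.exp_zero, one_mul] at h4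
  exact le_of_tendsto h4 (eventually_mem_nhdsWithin.mono fun h hh => H h hh)

lemma selfcons {β : ℝ} (hβ : 0 < β) (hn : 1 ≤ n) (J : ℕ) (u : ℝ) (hu : 0 < u)
    (hm : u < spontMag n β) :
    u * ∑ j ∈ Finset.range J,
      (max 0 (1 / (2 * Real.sqrt (Real.pi * (((j : ℝ) + 1) * β * (n / 2) ^ 2 / u))) -
        1 / (Real.pi ^ 2 * (((j : ℝ) + 1) * β * (n / 2) ^ 2 / u)))) ^ 3 ≤
      (n / 2) * (n / 2 - u) :=
  limit_field J _ fun _ hh => selfcons_field hβ hn J hu hh (hm.trans_le (spontMag_le_slope hβ hh))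

theorem bloch_lower (hn : 1 ≤ n) (c : ℝ)
    (hc : c < (riemannZeta (3 / 2)).re /
      (8 * Real.pi ^ (3 / 2 : ℝ) * ((n : ℝ) / 2) ^ (3 / 2 : ℝ))) :
    ∀ᶠ β : ℝ in atTop, c ≤ β ^ (3 / 2 : ℝ) * ((n : ℝ) / 2 - spontMag n β) := by
  have hn' : (0 : ℝ) < n := by exact_mod_cast hn
  exact bloch_of_selfcons (by positivity) (spontMag n)
    (fun β hβ J u hu hm => selfcons hβ hn J u hu hm) c hc

end Vale.Agent.P361
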