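import Vale.Agent.P361.Spin

/-!
P361: the matrices `spin n a` are Hermitian, satisfy the `su(2)` commutation relations and have
Casimir `S(S+1)`.
-/

open scoped Matrix
open Matrix

namespace Vale.Agent.P361

variable {n : ℕ}

lemma spin_herm (a : Fin 3) : (spin n a).IsHermitian := by
  fin_cases a
  · change (spin n 0)ᴴ = spin n 0
    rw [spin_zero, conjTranspose_smul, conjTranspose_add, conjTranspose_conjTranspose,
      add_comm (splus n)ᴴ]
    simp
  · change (spin n 1)ᴴ = spin n 1
    rw [spin_one, conjTranspose_smul, conjTranspose_sub, conjTranspose_conjTranspose]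
    have : star (1 / (2 * Complex.I) : ℂ) = -(1 / (2 * Complex.I)) := by
      simp
    rw [this]
    module
  · exact spin_two_herm

lemma inv_two_I : (1 / (2 * Complex.I) : ℂ) = -(Complex.I / 2) := by
  field_simp
  rw [Complex.I_sq]
  norm_num

lemma spin_comm01 : spin n 0 * spin n 1 - spin n 1 * spin n 0 = Complex.I • spin n 2 := by
  rw [spin_zero, spin_one, inv_two_I]
  simp only [Matrix.smul_mul, Matrix.mul_smul, Matrix.add_mul, Matrix.mul_add, Matrix.sub_mul,
    Matrix.mul_sub, splus_sminus_rel]
  module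

lemma spin_comm12 : spin n 1 * spin n 2 - spin n 2 * spin n 1 = Complex.I • spin n 0 := by
  rw [spin_zero, spin_one, inv_two_I]
  simp only [Matrix.smul_mul, Matrix.mul_smul, Matrix.sub_mul,
    Matrix.mul_sub, sz_splus_rel, sz_sminus_rel]
  module

lemma spin_comm20 : spin n 2 * spin n 0 - spin n 0 * spin n 2 = Complex.I • spin n 1 := by
  rw [spin_zero, spin_one, smul_smul]
  have : (Complex.I * (1 / (2 * Complex.I)) : ℂ) = 1 / 2 := by
    field_simp
  rw [this]
  simp only [Matrix.smul_mul, Matrix.mul_smul, Matrix.add_mul, Matrix.mul_add,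
    sz_splus_rel, sz_sminus_rel]
  module

lemma spin_casimir : ∑ a, spin n a * spin n a =
    ((n : ℂ) / 2 * ((n : ℂ) / 2 + 1)) • (1 : Matrix (Fin (n + 1)) (Fin (n + 1)) ℂ) := by
  have h1 : spin n 0 * spin n 0 + spin n 1 * spin n 1 = (splus n)ᴴ * splus n + spin n 2 := by
    rw [spin_zero, spin_one]
    have : (1 / (2 * Complex.I) * (1 / (2 * Complex.I)) : ℂ) = -(1 / 4) := by
      field_simp
      rw [Complex.I_sq]
      norm_num
    rw [Matrix.smul_mul, Matrix.mul_smul, Matrix.smul_mul, Matrix.mul_smul, smul_smul, smul_smul,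
      this]
    simp only [Matrix.add_mul, Matrix.mul_add, Matrix.sub_mul, Matrix.mul_sub, splus_sminus_rel]
    module
  rw [Fin.sum_univ_three, h1, sminus_mul_splus, spin_two, diagonal_mul_diagonal, diagonal_add,
    diagonal_add, ← diagonal_one, ← diagonal_smul]
  congr 1
  funext j
  simp only [Pi.smul_apply, smul_eq_mul]
  push_cast
  ring

end Vale.Agent.P361
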