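import Vale.Agent.P361.Comm

/-!
P361: plane waves on the box and the finite-volume self-consistent inequality.
-/

open scoped Matrix
open Matrix

namespace Vale.Agent.P361

variable {n : ℕ}

lemma card_box (N : ℕ) : ((box N).card : ℝ) = (2 * (N : ℝ) + 1) ^ 3 := by
  rw [box, Fintype.card_piFinset]
  simp only [Int.card_Icc, Finset.prod_const, Finset.card_univ, Fintype.card_fin]
  have : ((N : ℤ) + 1 - -(N : ℤ)).toNat = 2 * N + 1 := by omega
  rw [this]
  push_cast
  ring

lemma card_box_pos (N : ℕ) : (0 : ℝ) < (box N).card := by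
  rw [card_box]
  positivity

lemma abs_three {a b c : ℤ} (h : |a| + |b| + |c| = 1) :
    (a = -1 ∧ b = 0 ∧ c = 0) ∨ (a = 1 ∧ b = 0 ∧ c = 0) ∨ (a = 0 ∧ b = -1 ∧ c = 0) ∨
      (a = 0 ∧ b = 1 ∧ c = 0) ∨ (a = 0 ∧ b = 0 ∧ c = -1) ∨ (a = 0 ∧ b = 0 ∧ c = 1) := by
  rcases abs_cases a with a0 | a0 <;> rcases abs_cases b with a1 | a1 <;>
    rcases abs_cases c with a2 | a2 <;> omega

lemma nbr_cases {x y : Fin 3 → ℤ} (h : ∑ i, |x i - y i| = 1) :
    ∃ (i : Fin 3) (s : Bool), y = x + Pi.single i (if s then 1 else -1) := by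
  rw [Fin.sum_univ_three] at h
  rcases abs_three h with g | g | g | g | g | g
  · exact ⟨0, true, funext fun j => by fin_cases j <;> simp <;> omega⟩
  · exact ⟨0, false, funext fun j => by fin_cases j <;> simp <;> omega⟩
  · exact ⟨1, true, funext fun j => by fin_cases j <;> simp <;> omega⟩
  · exact ⟨1, false, funext fun j => by fin_cases j <;> simp <;> omega⟩
  · exact ⟨2, true, funext fun j => by fin_cases j <;> simp <;> omega⟩
  · exact ⟨2, false, funext fun j => by fin_cases j <;> simp <;> omega⟩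

lemma sum_nbr_le (Λ : Finset (Fin 3 → ℤ)) (x : Λ) (g : (Fin 3 → ℤ) → ℝ) (hg : ∀ z, 0 ≤ g z) :
    (∑ y : Λ, if nbr Λ x y then g y.1 else 0) ≤
      ∑ i : Fin 3, ∑ s : Bool, g (x.1 + Pi.single i (if s then 1 else -1)) := by
  have h1 : ∀ y : Λ, (if nbr Λ x y then g y.1 else 0) ≤ ∑ i : Fin 3, ∑ s : Bool,
      if y.1 = x.1 + Pi.single i (if s then 1 else -1) then
        g (x.1 + Pi.single i (if s then 1 else -1)) else 0 := by
    intro y
    have hnn : ∀ (i : Fin 3) (s : Bool), 0 ≤ if y.1 = x.1 + Pi.single i (if s then 1 else -1) then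
        g (x.1 + Pi.single i (if s then 1 else -1)) else 0 := by
      intro i s
      split_ifs <;> first | exact hg _ | exact le_rfl
    split_ifs with h
    · obtain ⟨i, s, hs⟩ := nbr_cases h
      refine le_trans ?_ (Finset.single_le_sum
        (fun i _ => Finset.sum_nonneg fun s _ => hnn i s) (Finset.mem_univ i))
      refine le_trans ?_ (Finset.single_le_sum (fun s _ => hnn i s) (Finset.mem_univ s))
      rw [if_pos hs, ← hs]
    · exact Finset.sum_nonneg fun i _ => Finset.sum_nonneg fun s _ => hnn i s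
  refine (Finset.sum_le_sum fun y _ => h1 y).trans ?_
  rw [Finset.sum_comm]
  refine Finset.sum_le_sum fun i _ => ?_
  rw [Finset.sum_comm]
  refine Finset.sum_le_sum fun s _ => ?_
  generalize x.1 + Pi.single i (if s then (1 : ℤ) else -1) = z
  by_cases hz : z ∈ Λ
  · rw [Finset.sum_eq_single ⟨z, hz⟩]
    · simp
    · intro y _ hy
      exact if_neg fun h => hy (Subtype.ext h)
    · simp
  · rw [Finset.sum_eq_zero]
    · exact hg z
    · intro y _
      exact if_neg fun h => hz (by rw [← h]; exact y.2)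

/-- The phase `θ_k · x`. -/
noncomputable def phase (N : ℕ) (k x : Fin 3 → ℤ) : ℝ :=
  ∑ i, 2 * Real.pi * (k i : ℝ) / (2 * (N : ℝ) + 1) * (x i : ℝ)

/-- The plane wave `exp (i θ_k · x)`. -/
noncomputable def wave (N : ℕ) (k x : Fin 3 → ℤ) : ℂ :=
  Complex.exp ((phase N k x : ℝ) * Complex.I)

lemma normSq_wave (N : ℕ) (k x : Fin 3 → ℤ) : Complex.normSq (wave N k x) = 1 := by
  rw [wave, Complex.normSq_eq_norm_sq, Complex.norm_exp_ofReal_mul_I, one_pow]

lemma normSq_exp_sub (a b : ℝ) :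
    Complex.normSq (Complex.exp (a * Complex.I) - Complex.exp (b * Complex.I)) ≤ (a - b) ^ 2 := by
  rw [Complex.normSq_apply]
  simp only [Complex.sub_re, Complex.sub_im, Complex.exp_ofReal_mul_I_re,
    Complex.exp_ofReal_mul_I_im]
  have h1 := Real.cos_sub a b
  have h2 := Real.one_sub_sq_div_two_le_cos (x := a - b)
  have h3 := Real.sin_sq_add_cos_sq a
  have h4 := Real.sin_sq_add_cos_sq b
  nlinarith

lemma wave_energy (N : ℕ) (k : Fin 3 → ℤ) (Λ : Finset (Fin 3 → ℤ)) :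
    (∑ x : Λ, ∑ y : Λ, if nbr Λ x y then Complex.normSq (wave N k x.1 - wave N k y.1) else 0) ≤
      2 * Fintype.card Λ * ∑ i, (2 * Real.pi * (k i : ℝ) / (2 * (N : ℝ) + 1)) ^ 2 := by
  have h1 : ∀ x : Λ, (∑ y : Λ, if nbr Λ x y then
      Complex.normSq (wave N k x.1 - wave N k y.1) else 0) ≤
      2 * ∑ i, (2 * Real.pi * (k i : ℝ) / (2 * (N : ℝ) + 1)) ^ 2 := by
    intro x
    refine (sum_nbr_le Λ x (fun z => Complex.normSq (wave N k x.1 - wave N k z))
      (fun z => Complex.normSq_nonneg _)).trans ?_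
    rw [Finset.mul_sum]
    refine Finset.sum_le_sum fun i _ => ?_
    have h2 : ∀ s : Bool, Complex.normSq (wave N k x.1 -
        wave N k (x.1 + Pi.single i (if s then 1 else -1))) ≤
        (2 * Real.pi * (k i : ℝ) / (2 * (N : ℝ) + 1)) ^ 2 := by
      intro s
      refine (normSq_exp_sub _ _).trans (le_of_eq ?_)
      rw [phase, phase, ← Finset.sum_sub_distrib, Finset.sum_eq_single i]
      · cases s <;> simp <;> ring
      · intro j _ hj
        simp [hj]
      · simp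
    rw [Fintype.sum_bool]
    linarith [h2 true, h2 false]
  refine (Finset.sum_le_sum fun x _ => h1 x).trans (le_of_eq ?_)
  rw [Finset.sum_const, Finset.card_univ, nsmul_eq_mul]
  ring

lemma geom_Icc (N : ℕ) (d : ℤ) (hd : d ≠ 0) (hd2 : |d| ≤ 2 * N) :
    ∑ t ∈ Finset.Icc (-(N : ℤ)) (N : ℤ),
      Complex.exp ((2 * Real.pi * (t : ℝ) / (2 * (N : ℝ) + 1) * (d : ℝ) : ℝ) * Complex.I) = 0 := by
  set z : ℂ := Complex.exp ((2 * Real.pi / (2 * (N : ℝ) + 1) * (d : ℝ) : ℝ) * Complex.I) with hz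
  have hL : (2 * (N : ℂ) + 1) ≠ 0 := by exact_mod_cast (by positivity : (2 * N + 1 : ℕ) ≠ 0)
  have h1 : ∀ t : ℤ, Complex.exp
      ((2 * Real.pi * (t : ℝ) / (2 * (N : ℝ) + 1) * (d : ℝ) : ℝ) * Complex.I) = z ^ t := by
    intro t
    rw [hz, ← Complex.exp_int_mul]
    congr 1
    push_cast
    ring
  simp only [h1]
  have hz0 : z ≠ 0 := Complex.exp_ne_zero _
  have hzL : z ^ (2 * N + 1) = 1 := by
    rw [hz, ← Complex.exp_nat_mul, Complex.exp_eq_one_iff]
    refine ⟨d, ?_⟩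
    push_cast
    field_simp
  have hz1 : z ≠ 1 := by
    rw [hz, Ne, Complex.exp_eq_one_iff]
    rintro ⟨q, hq⟩
    have hpi : (Real.pi : ℂ) ≠ 0 := by exact_mod_cast Real.pi_ne_zero
    have h2 : (d : ℂ) = q * (2 * N + 1) := by
      push_cast at hq
      field_simp at hq
      linear_combination hq
    have h3 : d = q * (2 * N + 1) := by exact_mod_cast h2
    have h4 : q ≠ 0 := by
      rintro rfl
      simp at h3
      exact hd h3
    have h5 : 1 ≤ |q| := Int.one_le_abs h4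
    rw [h3, abs_mul, abs_of_nonneg (by positivity : (0 : ℤ) ≤ 2 * N + 1)] at hd2
    nlinarith
  have h6 : ∑ t ∈ Finset.Icc (-(N : ℤ)) (N : ℤ), z ^ t =
      z ^ (-(N : ℤ)) * ∑ j ∈ Finset.range (2 * N + 1), z ^ j := by
    rw [Int.Icc_eq_finset_map, Finset.sum_map, Finset.mul_sum]
    have : ((N : ℤ) + 1 - -(N : ℤ)).toNat = 2 * N + 1 := by omega
    rw [this]
    refine Finset.sum_congr rfl fun j _ => ?_
    simp only [Function.Embedding.trans_apply, Nat.castEmbedding_apply, addLeftEmbedding_apply]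
    rw [zpow_add₀ hz0, zpow_natCast]
  rw [h6, geom_sum_eq hz1, hzL]
  simp

lemma wave_orth (N : ℕ) (x y : box N) :
    ∑ k ∈ box N, wave N k x.1 * star (wave N k y.1) =
      if x = y then (((box N).card : ℝ) : ℂ) else 0 := by
  have h1 : ∀ k, wave N k x.1 * star (wave N k y.1) = ∏ i, Complex.exp
      ((2 * Real.pi * (k i : ℝ) / (2 * (N : ℝ) + 1) * ((x.1 i - y.1 i : ℤ) : ℝ) : ℝ) * Complex.I) := by
    intro k
    rw [wave, wave, Complex.star_def, ← Complex.exp_conj, ← Complex.exp_add, ← Complex.exp_sum]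
    congr 1
    rw [map_mul, Complex.conj_ofReal, Complex.conj_I, phase, phase, Fin.sum_univ_three,
      Fin.sum_univ_three, Fin.sum_univ_three]
    push_cast
    ring
  simp only [h1]
  split_ifs with h
  · subst h
    simp
  · have hxy : x.1 ≠ y.1 := fun h2 => h (Subtype.ext h2)
    obtain ⟨i, hi⟩ := Function.ne_iff.1 hxy
    have h2 := Finset.prod_univ_sum (fun _ : Fin 3 => Finset.Icc (-(N : ℤ)) (N : ℤ))
      (fun i t => Complex.exp
        ((2 * Real.pi * (t : ℝ) / (2 * (N : ℝ) + 1) * ((x.1 i - y.1 i : ℤ) : ℝ) : ℝ) * Complex.I))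
    refine h2.symm.trans ?_
    refine Finset.prod_eq_zero (Finset.mem_univ i) (geom_Icc N _ (sub_ne_zero.2 hi) ?_)
    have hx := Finset.mem_Icc.1 (Fintype.mem_piFinset.1 x.2 i)
    have hy := Finset.mem_Icc.1 (Fintype.mem_piFinset.1 y.2 i)
    rw [abs_le]
    constructor <;> omega

lemma sum_cre (N : ℕ) :
    ∑ k ∈ box N, cre n (fun x : box N => wave N k x.1) * (cre n (fun x : box N => wave N k x.1))ᴴ =
      (((box N).card : ℝ) : ℂ) • ∑ x : box N, siteOp x ((splus n)ᴴ * splus n) := by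
  simp only [cre_star]
  simp only [cre, Matrix.sum_mul, Matrix.mul_sum, Matrix.smul_mul, Matrix.mul_smul,
    Finset.smul_sum, smul_smul]
  rw [Finset.sum_comm]
  refine Finset.sum_congr rfl fun y _ => ?_
  rw [Finset.sum_comm, Finset.sum_eq_single y]
  · rw [← Finset.sum_smul]
    simp only [mul_comm (star _)]
    rw [wave_orth, if_pos rfl, siteOp_mul]
  · intro x _ hx
    rw [← Finset.sum_smul]
    simp only [mul_comm (star _)]
    rw [wave_orth, if_neg hx, zero_smul]
  · simp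

/-- The one-dimensional Gaussian sum. -/
noncomputable def gsum (N : ℕ) (a : ℝ) : ℝ :=
  (∑ k ∈ Finset.Icc (-(N : ℤ)) (N : ℤ),
    Real.exp (-(a * (2 * Real.pi * (k : ℝ) / (2 * (N : ℝ) + 1)) ^ 2))) / (2 * (N : ℝ) + 1)

lemma sum_box_exp (N : ℕ) (j β h S u : ℝ) : ∑ k ∈ box N, Real.exp (-((j + 1) * (β * (h + S ^ 2 *
      (∑ i, (2 * Real.pi * (k i : ℝ) / (2 * (N : ℝ) + 1)) ^ 2) / u)))) =
      (box N).card * (Real.exp (-((j + 1) * β * h)) * gsum N ((j + 1) * β * S ^ 2 / u) ^ 3) := by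
  have h5 := Finset.prod_univ_sum (fun _ : Fin 3 => Finset.Icc (-(N : ℤ)) (N : ℤ))
    (fun _ (t : ℤ) => Real.exp (-(((j + 1) * β * S ^ 2 / u) *
      (2 * Real.pi * (t : ℝ) / (2 * (N : ℝ) + 1)) ^ 2)))
  rw [Finset.prod_const, Finset.card_univ, Fintype.card_fin] at h5
  have hL : (2 * (N : ℝ) + 1) ^ 3 ≠ 0 := by positivity
  have h6 : ∀ A B C : ℝ, C ≠ 0 → C * (A * (B / C)) = A * B := by
    intro A B C hC
    field_simp
  rw [gsum, div_pow, h5, card_box, h6 _ _ _ hL, box, Finset.mul_sum]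
  refine Finset.sum_congr rfl fun k _ => ?_
  rw [← Real.exp_sum, ← Real.exp_add, Fin.sum_univ_three, Fin.sum_univ_three]
  congr 1
  generalize (2 * Real.pi * (k 0 : ℝ) / (2 * (N : ℝ) + 1)) ^ 2 = t0
  generalize (2 * Real.pi * (k 1 : ℝ) / (2 * (N : ℝ) + 1)) ^ 2 = t1
  generalize (2 * Real.pi * (k 2 : ℝ) / (2 * (N : ℝ) + 1)) ^ 2 = t2
  ring

/-- The finite-volume self-consistent inequality. -/
theorem finite_volume {β : ℝ} (hβ : 0 < β) (h : ℝ) (N J : ℕ) (u : ℝ) (hu : 0 < u)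
    (hm : u * (box N).card * gib (gen n (nbr (box N)) β h) 1 ≤
      gib (gen n (nbr (box N)) β h) (magG n (box N))) :
    u * ∑ j ∈ Finset.range J, Real.exp (-(((j : ℝ) + 1) * β * h)) *
      gsum N (((j : ℝ) + 1) * β * (n / 2) ^ 2 / u) ^ 3 ≤ (n / 2) * (n / 2 - u) := by
  have hK := gen_herm (n := n) (nbr_ne (Λ := box N)) β h
  have hZ := gib_one_pos hK
  have hV := card_box_pos N
  have hc : Fintype.card (box N) = (box N).card := Fintype.card_coe _
  have h1 : ∀ k ∈ box N, _ := fun k _ => mode_bound (n := n) (nbr_ne (Λ := box N)) hβ h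
    (fun x : box N => wave N k x.1) (fun x => normSq_wave N k x.1) _ u hu
    (Finset.sum_nonneg fun i _ => sq_nonneg _) (by rw [hc]; exact_mod_cast hV)
    (wave_energy N k (box N)) (by rw [hc]; exact hm) J
  have h2 := Finset.sum_le_sum h1
  rw [← gib_sum, sum_cre, gib_smul, gib_sum, ← Finset.mul_sum, Finset.sum_comm, hc] at h2
  have h3 : ∑ x : box N, gib (gen n (nbr (box N)) β h) (siteOp x ((splus n)ᴴ * splus n)) ≤
      n * ((n / 2 - u) * (box N).card * gib (gen n (nbr (box N)) β h) 1) := by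
    refine (Finset.sum_le_sum fun x _ => gib_qp_le hK x).trans ?_
    rw [← Finset.mul_sum, Finset.sum_sub_distrib, ← gib_sum, Finset.sum_const, Finset.card_univ,
      hc, nsmul_eq_mul]
    refine mul_le_mul_of_nonneg_left ?_ (by positivity)
    rw [magG] at hm
    linarith
  simp only [sum_box_exp] at h2
  rw [← Finset.mul_sum] at h2
  generalize ∑ j ∈ Finset.range J, Real.exp (-(((j : ℝ) + 1) * β * h)) *
      gsum N (((j : ℝ) + 1) * β * (n / 2) ^ 2 / u) ^ 3 = T at h2 ⊢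
  have h6 := h2.trans (mul_le_mul_of_nonneg_left h3 hV.le)
  generalize gib (gen n (nbr (box N)) β h) 1 = Z at hZ h6
  generalize ((box N).card : ℝ) = V at hV h6
  have h7 : 0 < 2 * V * V * Z := by positivity
  refine le_of_mul_le_mul_left ?_ h7
  nlinarith

end Vale.Agent.P361
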